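import Crest.Agent.R37.Defs
import Crest.Agent.Lib.PolyTime.More

/-!
# Row 37: polynomial-time families

All algorithmic statements are about *families* indexed by a type `α` with `[PEnc α]`.

* `DP f` (`f : ∀ a, β a`): the code of `f a` is polynomial-time computable from `a`.
  Vectors `Fin n → β`, matrices, `Finset (Fin n)`, `KS (Fin m)` have codes (scoped instances).
  Build with `DP.fn`, `DP.set`, `DP.pair`, `DP.ite`, `DP.inl`, ...; read with `DP.app`, `DP.mem`
  or, best before `fun_prop`, replace a dependent object by a non-dependent table with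
  `DP.ent`, `DP.ent₂`, `DP.entS`, `DP.entF` (`obtain ⟨L, hL, eL⟩ := h.ent; simp only [eL]`).
* `PR f` (`f : α → ℝ`): `f a` is the cast of a polynomial-time computable rational.  `PR` is a
  `fun_prop` predicate (field operations, `∑` over `Fin (n a)`, `ite`, powers); floors, ceilings
  and comparisons of `PR` families are `Poly`.  `PRV`, `PRM`: vectors and matrices of such reals,
  with `.ent` lemmas and closure under matrix operations (`PRM.inv` is in `R37/MatInv.lean`).
* `PG G`: a family of multigraphs on `Fin (n a)`, `Fin (m a)`.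
* Promise style: the specifications assume their preconditions for *all* members of the family;
  use subtypes as index types.  `DP.loop` (loop with invariant), `DP.cases` (case distinction)
  and `DP.search` (search for an index) produce `∃ o, DP o ∧ ∀ a, R a (o a)` from the same kind of
  statement on subtypes; `poly_val` is the projection of a subtype.  Also `DP.iterate_inv`,
  `DP.iterate`, `DP.find`, `DP.pick`.
* Inside a loop or a sum the index type is `Σ a, σ a`; transport hypotheses with `.comp`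
  and `poly_fst` (`hG.comp poly_fst`), and use `DP.snd` for the loop variable.
-/

set_option autoImplicit false
open Finset Matrix
open Crest.Agent.Lib.PolyTime
open scoped Classical

noncomputable section
namespace Crest.Agent.R37

scoped instance instPEncFun {n : ℕ} {β : Type} [PEnc β] : PEnc (Fin n → β) :=
  PEnc.ofInj List.ofFn List.ofFn_injective

scoped instance instPEncFinset {n : ℕ} : PEnc (Finset (Fin n)) :=
  PEnc.ofInj (fun S : Finset (Fin n) => fun i => decide (i ∈ S)) (by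
    intro S T h
    ext i
    simpa using congrFun h i)

scoped instance instPEncMatrix {n n' : ℕ} {β : Type} [PEnc β] :
    PEnc (Matrix (Fin n) (Fin n') β) := inferInstanceAs (PEnc (Fin n → Fin n' → β))

scoped instance instPEncKS {m : ℕ} : PEnc (KS (Fin m)) :=
  PEnc.ofInj (fun s : KS (Fin m) => (s.al, s.y, s.t)) (by
    rintro ⟨a, b, c⟩ ⟨a', b', c'⟩ h
    simp only [Prod.mk.injEq] at h
    obtain ⟨rfl, rfl, rfl⟩ := h
    rfl)

theorem enc_fun {n : ℕ} {β : Type} [PEnc β] (v : Fin n → β) : enc v = enc (List.ofFn v) := rfl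

theorem sz_fun_le {n : ℕ} {β : Type} [PEnc β] {v : Fin n → β} {B : ℕ} (h : ∀ i, sz (v i) ≤ B) :
    sz v ≤ n * (B + 1) + 1 := by
  have := sz_list_le (l := List.ofFn v) (B := B) (by
    intro x hx
    obtain ⟨i, rfl⟩ := (List.mem_ofFn' _ _).1 hx
    exact h i)
  rwa [List.length_ofFn] at this

theorem sz_natFun_le {n : ℕ} {v : Fin n → ℕ} {B : ℕ} (h : ∀ i, v i ≤ B) :
    sz v ≤ n * (4 * B + 2) + 1 :=
  sz_fun_le (B := 4 * B + 1) fun i => (sz_le_self _).trans (by have := h i; omega)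

theorem sz_finset_le {n : ℕ} (S : Finset (Fin n)) : sz S ≤ n * 4 + 1 :=
  sz_fun_le (v := fun i => decide (i ∈ S)) (B := 3) fun _ => sz_bool_le _

theorem sz_ks {m : ℕ} (s : KS (Fin m)) : sz s = sz s.al + (sz s.y + sz s.t + 1) + 1 := rfl

variable {α α' : Type} [PEnc α] [PEnc α']

/-- Dependent polynomial-time families. -/
def DP {β : α → Type} [∀ a, PEnc (β a)] (f : ∀ a, β a) : Prop := Poly fun a => enc (f a)

theorem poly_const {δ : Type} [PEnc δ] (d : δ) : Poly fun _ : α => d := Lib.PolyTime.Poly.const d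

theorem poly_fst {β : α → Type} [∀ a, PEnc (β a)] : Poly fun p : Σ a, β a => p.1 :=
  Poly.id'.sigmaFst

theorem poly_val {p : α → Prop} : Poly fun a : {a // p a} => a.1 := Poly.restrict Poly.id' p

namespace DP
variable {β γ : α → Type} [∀ a, PEnc (β a)] [∀ a, PEnc (γ a)] {δ : Type} [PEnc δ]
  {n n' : α → ℕ}

theorem of_poly {f : α → δ} (h : Poly f) : DP f := h.enc'

theorem poly {f : α → δ} (h : DP f) : Poly f := Poly.of_enc h fun _ => rfl

theorem congr {f g : ∀ a, β a} (h : DP f) (e : ∀ a, f a = g a) : DP g :=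
  Poly.congr h fun a => by rw [e a]

theorem comp {f : ∀ a, β a} (h : DP f) {g : α' → α} (hg : Poly g) : DP fun b => f (g b) :=
  Poly.comp (f := fun a => enc (f a)) h hg

theorem pb_sz {f : ∀ a, β a} (h : DP f) : PB fun a => sz (f a) := Poly.pb_sz h

theorem poly_sz {f : ∀ a, β a} (h : DP f) : Poly fun a => sz (f a) := Poly.sz' h

/-- The second component of a dependent pair. -/
theorem snd : DP fun p : Σ a, β a => p.2 := Poly.id'.sigmaSnd_enc

/-- Form the dependent pair. -/
theorem sigma {g : α' → α} (hg : Poly g) {f : ∀ b, β (g b)} (hf : DP f) :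
    Poly fun b => (⟨g b, f b⟩ : Σ a, β a) := Poly.sigmaMk hg hf

/-- Apply a family on dependent pairs. -/
theorem app₂ {F : ∀ a, β a → γ a} (hF : DP fun p : Σ a, β a => F p.1 p.2) {f : ∀ a, β a}
    (hf : DP f) : DP fun a => F a (f a) := hF.comp (sigma Poly.id' hf)

theorem pair {f : ∀ a, β a} {g : ∀ a, γ a} (hf : DP f) (hg : DP g) : DP fun a => (f a, g a) :=
  Poly.node hf hg

theorem fst {f : ∀ a, β a × γ a} (hf : DP f) : DP fun a => (f a).1 := Poly.left hf

theorem snd' {f : ∀ a, β a × γ a} (hf : DP f) : DP fun a => (f a).2 := Poly.right hf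

theorem ite {p : α → Prop} [DecidablePred p] (hp : Poly fun a => decide (p a)) {f g : ∀ a, β a}
    (hf : DP f) (hg : DP g) : DP fun a => if p a then f a else g a :=
  (Poly.ite hp hf hg).congr fun a => by by_cases h : p a <;> simp [h]

theorem inl {f : ∀ a, β a} (hf : DP f) : DP fun a => (Sum.inl (f a) : β a ⊕ γ a) :=
  (Poly.inl (γ := V) hf).of_enc fun _ => rfl

theorem inr {f : ∀ a, γ a} (hf : DP f) : DP fun a => (Sum.inr (f a) : β a ⊕ γ a) :=
  (Poly.inr (β := V) hf).of_enc fun _ => rfl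

theorem some {f : ∀ a, β a} (hf : DP f) : DP fun a => some (f a) :=
  (Poly.some hf).of_enc fun _ => rfl

theorem none : DP fun a => (none : Option (β a)) :=
  (poly_const (Option.none : Option V)).of_enc fun _ => rfl

theorem decide_eq {f g : ∀ a, β a} (hf : DP f) (hg : DP g) [∀ a, Decidable (f a = g a)] :
    Poly fun a => decide (f a = g a) :=
  Poly.decide_congr (Poly.decide_eq hf hg) fun _ => enc_inj

/-- Case distinction on an optional value. -/
theorem optionElim {o : ∀ a, Option (β a)} (ho : DP o) {f : ∀ a, γ a} {g : ∀ a, β a → γ a}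
    (hf : DP f) (hg : DP fun p : Σ a, β a => g p.1 p.2) : DP fun a => (o a).elim (f a) (g a) := by
  have hc : Poly fun a => (o a).isSome :=
    (Poly.isSome (β := V) (o := fun a => (o a).map enc) (Poly.of_enc ho fun a => by
      cases o a <;> rfl)).congr fun a => by simp
  refine Poly.dcond hc ?_ ?_
  · have h1 : DP fun a : {a // (o a).isSome = true} => (o a.1).get a.2 :=
      Poly.of_enc (Poly.left (Poly.restrict ho _)) fun a => by
        obtain ⟨a, h⟩ := a
        obtain ⟨x, hx⟩ := Option.isSome_iff_exists.1 h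
        simp only [hx]
        rfl
    refine Poly.congr (hg.comp (sigma (g := fun a : {a // (o a).isSome = true} => a.1)
      (Poly.restrict Poly.id' _) h1)) fun a => ?_
    obtain ⟨a, h⟩ := a
    obtain ⟨x, hx⟩ := Option.isSome_iff_exists.1 h
    simp [hx]
  · refine Poly.congr (Poly.restrict hf _) fun a => ?_
    obtain ⟨a, h⟩ := a
    have : o a = Option.none := by simpa using h
    simp [this]

/-- The left value of a sum, if any. -/
theorem getLeft? {o : ∀ a, β a ⊕ γ a} (ho : DP o) : DP fun a => (o a).getLeft? := by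
  have h : Poly fun a => (o a).map enc enc := Poly.of_enc ho fun a => by cases o a <;> rfl
  have := Poly.sumCasesOn (δ := Option V) (f := fun _ x => Option.some x)
    (g := fun _ _ => Option.none) h (by fun_prop) (by fun_prop)
  exact this.of_enc fun a => by dsimp only; cases o a <;> rfl

/-- The right value of a sum, if any. -/
theorem getRight? {o : ∀ a, β a ⊕ γ a} (ho : DP o) : DP fun a => (o a).getRight? := by
  have h : Poly fun a => (o a).map enc enc := Poly.of_enc ho fun a => by cases o a <;> rfl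
  have := Poly.sumCasesOn (δ := Option V) (f := fun _ _ => Option.none)
    (g := fun _ x => Option.some x) h (by fun_prop) (by fun_prop)
  exact this.of_enc fun a => by dsimp only; cases o a <;> rfl

theorem fin_iff {i : ∀ a, Fin (n a)} : DP i ↔ Poly fun a => (i a : ℕ) :=
  ⟨fun h => Poly.of_enc h fun _ => rfl, fun h => h.enc'⟩

theorem val {i : ∀ a, Fin (n a)} (h : DP i) : Poly fun a => (i a : ℕ) := fin_iff.1 h

/-- Build a vector from its entries. -/
theorem fn (hn : Poly n) (hb : PB n) {v : ∀ a, Fin (n a) → β a}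
    (h : DP fun p : Σ a, Fin (n a) => v p.1 p.2) : DP v :=
  (Poly.ofFn (f := fun a i => enc (v a i)) hn hb h).of_enc fun a => by
    rw [enc_fun, List.ofFn_eq_map, List.ofFn_eq_map]
    exact enc_map_congr fun _ _ => rfl

/-- Read an entry of a vector. -/
theorem app {v : ∀ a, Fin (n a) → β a} (h : DP v) {i : ∀ a, Fin (n a)} (hi : DP i) :
    DP fun a => v a (i a) :=
  Poly.app_fin (t := fun a i => enc (v a i)) (Poly.of_enc h fun a => by
    rw [enc_fun, List.ofFn_eq_map, List.ofFn_eq_map]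
    exact enc_map_congr fun _ _ => rfl) hi.val

/-- Build a vector with entries in a fixed type. -/
theorem fn' (hn : Poly n) (hb : PB n) {v : ∀ a, Fin (n a) → δ}
    (h : Poly fun p : Σ a, Fin (n a) => v p.1 p.2) : DP v := fn hn hb (of_poly h)

/-- Build a table with entries in a fixed type. -/
theorem fn₂ (hn : Poly n) (hb : PB n) (hn' : Poly n') (hb' : PB n')
    {v : ∀ a, Fin (n a) → Fin (n' a) → δ}
    (h : Poly fun q : Σ p : (Σ a, Fin (n a)), Fin (n' p.1) => v q.1.1 q.1.2 q.2) : DP v :=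
  fn hn hb (fn' (n := fun p : Σ a, Fin (n a) => n' p.1) (hn'.comp poly_fst) (hb'.comp poly_fst) h)

theorem set (hn : Poly n) (hb : PB n) {S : ∀ a, Finset (Fin (n a))}
    [∀ p : Σ a, Fin (n a), Decidable (p.2 ∈ S p.1)]
    (h : Poly fun p : Σ a, Fin (n a) => decide (p.2 ∈ S p.1)) : DP S :=
  fn' (v := fun a i => @decide (i ∈ S a) (decidableMem _ _)) hn hb
    (h.congr fun _ => decide_eq_decide.2 Iff.rfl)

theorem mem {S : ∀ a, Finset (Fin (n a))} (h : DP S) {i : ∀ a, Fin (n a)} (hi : DP i)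
    [∀ a, Decidable (i a ∈ S a)] : Poly fun a => decide (i a ∈ S a) :=
  (app (v := fun a i => @decide (i ∈ S a) (decidableMem _ _)) h hi).poly.congr
    fun _ => decide_eq_decide.2 Iff.rfl

theorem ent [Inhabited δ] {v : ∀ a, Fin (n a) → δ} (h : DP v) :
    ∃ L : α → ℕ → δ, (Poly fun p : α × ℕ => L p.1 p.2) ∧ ∀ a i, v a i = L a i := by
  have h' : Poly fun a => List.ofFn (v a) := Poly.of_enc h fun _ => rfl
  refine ⟨fun a i => (List.ofFn (v a)).getD i default, ?_, fun a i => by simp⟩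
  exact Poly.listGetD (h'.comp Poly.id'.fst) Poly.id'.snd (poly_const _)

theorem ent₂ [Inhabited δ] {v : ∀ a, Fin (n a) → Fin (n' a) → δ} (h : DP v) :
    ∃ L : α → ℕ → ℕ → δ, (Poly fun p : α × ℕ × ℕ => L p.1 p.2.1 p.2.2) ∧
      ∀ a i j, v a i j = L a i j := by
  have h1 : DP fun a i => List.ofFn (v a i) := Poly.of_enc h fun a => by
    change enc (v a) = enc fun i => List.ofFn (v a i)
    rw [enc_fun, enc_fun, List.ofFn_eq_map, List.ofFn_eq_map]
    exact enc_map_congr fun _ _ => rfl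
  obtain ⟨L, hL, eL⟩ := h1.ent
  refine ⟨fun a i j => (L a i).getD j default, by fun_prop, fun a i j => ?_⟩
  simp [← eL]

theorem entS {S : ∀ a, Finset (Fin (n a))} (h : DP S) :
    ∃ L : α → ℕ → Bool, (Poly fun p : α × ℕ => L p.1 p.2) ∧ ∀ a i, i ∈ S a ↔ L a i = true := by
  obtain ⟨L, hL, eL⟩ := ent (v := fun a i => decide (i ∈ S a)) h
  exact ⟨L, hL, fun a i => by rw [← eL]; simp⟩

theorem entF {v : ∀ a, Fin (n a) → Fin (n' a)} (h : DP v) :
    ∃ L : α → ℕ → ℕ, (Poly fun p : α × ℕ => L p.1 p.2) ∧ ∀ a i, (v a i : ℕ) = L a i :=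
  ent (v := fun a i => (v a i : ℕ)) (Poly.of_enc h fun a => by
    change enc (v a) = enc fun i => (v a i : ℕ)
    rw [enc_fun, enc_fun, List.ofFn_eq_map, List.ofFn_eq_map]
    exact enc_map_congr fun _ _ => rfl)

/-- A `Poly` family as an opaque function (to keep `simp` from unfolding it). -/
theorem _root_.Crest.Agent.R37.poly_gen {f : α → δ} (h : Poly f) :
    ∃ t : α → δ, Poly t ∧ ∀ a, f a = t a := ⟨f, h, fun _ => rfl⟩

theorem ks_mk {al : ∀ a, Finset (Fin (n a))} {y t : ∀ a, Fin (n a) → ℕ} (h₁ : DP al) (h₂ : DP y)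
    (h₃ : DP t) : DP fun a => (⟨al a, y a, t a⟩ : KS (Fin (n a))) := h₁.pair (h₂.pair h₃)

theorem ks_al {s : ∀ a, KS (Fin (n a))} (h : DP s) : DP fun a => (s a).al := Poly.left h

theorem ks_y {s : ∀ a, KS (Fin (n a))} (h : DP s) : DP fun a => (s a).y :=
  Poly.left (Poly.right h)

theorem ks_t {s : ∀ a, KS (Fin (n a))} (h : DP s) : DP fun a => (s a).t :=
  Poly.right (Poly.right h)

/-- Loops with an invariant bounding the size on all inputs. -/
theorem iterate_inv {init : ∀ a, β a} {step : ∀ a, β a → β a} {T B : α → ℕ} (hi : DP init)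
    (hs : DP fun p : Σ a, β a => step p.1 p.2) (hT : Poly T) (hT' : PB T) (hB : PB B)
    (hsz : ∀ a i, i ≤ T a → sz ((step a)^[i] (init a)) ≤ B a) :
    DP fun a => (step a)^[T a] (init a) := by
  have key : ∀ a i, (fun p : Σ a, β a => (⟨p.1, step p.1 p.2⟩ : Σ a, β a))^[i] ⟨a, init a⟩ =
      ⟨a, (step a)^[i] (init a)⟩ := by
    intro a i
    induction i with
    | zero => rfl
    | succ i ih => rw [Function.iterate_succ_apply', ih, Function.iterate_succ_apply']
  have h := Poly.iterate (h := fun (_ : α) (p : Σ a, β a) => (⟨p.1, step p.1 p.2⟩ : Σ a, β a))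
    hT hT' (sigma Poly.id' hi) ((sigma poly_fst hs).comp Poly.id'.snd)
    (B := fun a => sz a + B a + 1) ((PB.sz_id.add hB).add (PB.const 1)) fun a i hi => by
      rw [key, sz_sigma]
      have := hsz a i hi
      dsimp only
      omega
  exact Poly.congr (snd.comp h) fun a => congrArg (fun p : Σ a, β a => enc p.2) (key a (T a))

/-- Loops: the size bound is only needed on the inputs of interest. -/
theorem iterate {init : ∀ a, β a} {step : ∀ a, β a → β a} {T B : α → ℕ} (hi : DP init)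
    (hs : DP fun p : Σ a, β a => step p.1 p.2) (hT : Poly T) (hT' : PB T) (hB : PB B) :
    ∃ out : ∀ a, β a, DP out ∧ ∀ a, (∀ i, i ≤ T a → sz ((step a)^[i] (init a)) ≤ B a) →
      out a = (step a)^[T a] (init a) := by
  obtain ⟨K, hK, hKb, hle⟩ := hB.exists_clock
  let st : ∀ a, β a → β a := fun a s => if sz (step a s) ≤ K a then step a s else s
  have hst : DP fun p : Σ a, β a => st p.1 p.2 :=
    ite (Poly.decide_le hs.poly_sz (hK.comp poly_fst)) hs snd
  refine ⟨fun a => (st a)^[T a] (init a), iterate_inv hi hst hT hT' (hi.pb_sz.add hKb) ?_, ?_⟩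
  · intro a i _
    induction i with
    | zero => simp
    | succ i ih =>
      rw [Function.iterate_succ_apply']
      have := ih (by omega)
      simp only [st]
      split_ifs with h
      · omega
      · exact this
  · intro a h
    have : ∀ i, i ≤ T a → (st a)^[i] (init a) = (step a)^[i] (init a) := by
      intro i
      induction i with
      | zero => intro _; rfl
      | succ i ih =>
        intro hi
        have h1 := h _ hi
        rw [Function.iterate_succ_apply'] at h1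
        rw [Function.iterate_succ_apply', Function.iterate_succ_apply', ih (by omega)]
        exact if_pos (h1.trans (hle a))
    exact this _ le_rfl

/-- Search for an index with a decidable property. -/
theorem find (hn : Poly n) (hb : PB n) {p : ∀ a, Fin (n a) → Prop}
    [∀ x : Σ a, Fin (n a), Decidable (p x.1 x.2)]
    (hp : Poly fun x : Σ a, Fin (n a) => decide (p x.1 x.2)) :
    ∃ o : ∀ a, Option (Fin (n a)), DP o ∧ ∀ a, (∀ i, o a = Option.some i → p a i) ∧
      (o a = Option.none → ∀ i, ¬ p a i) := by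
  have hp' : Poly fun x : Σ a, Fin (n a) => ((x.2 : ℕ), decide (p x.1 x.2)) :=
    Poly.pair (by fun_prop) hp
  have h1 := Poly.ofFn (f := fun a (i : Fin (n a)) => ((i : ℕ), decide (p a i))) hn hb
    (hp'.congr fun x => by congr)
  have h2 := (Poly.find? (f := fun _ (x : ℕ × Bool) => x.2) h1 (by fun_prop)).optionMap
    (g := fun _ x => x.1) (by fun_prop)
  refine ⟨fun a => (List.finRange (n a)).find? fun i => decide (p a i), ?_, fun a => ⟨?_, ?_⟩⟩
  · refine h2.enc'.congr fun a => ?_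
    rw [List.ofFn_eq_map, List.find?_map, Option.map_map]
    simp only [Function.comp_def]
    cases (List.finRange (n a)).find? fun i => decide (p a i) <;> rfl
  · intro i hi
    simpa using List.find?_some hi
  · intro h i
    simpa using List.find?_eq_none.1 h i (List.mem_finRange i)

/-- Act on some index with a decidable property, or return a default. -/
theorem pick (hn : Poly n) (hb : PB n) {p : ∀ a, Fin (n a) → Prop}
    [∀ x : Σ a, Fin (n a), Decidable (p x.1 x.2)]
    (hp : Poly fun x : Σ a, Fin (n a) => decide (p x.1 x.2)) {f : ∀ a, Fin (n a) → β a}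
    (hf : DP fun x : Σ a, Fin (n a) => f x.1 x.2) {d : ∀ a, β a} (hd : DP d) :
    ∃ out : ∀ a, β a, DP out ∧ ∀ a, (∃ i, p a i ∧ out a = f a i) ∨
      ((∀ i, ¬ p a i) ∧ out a = d a) := by
  obtain ⟨o, ho, h⟩ := find hn hb hp
  refine ⟨fun a => (o a).elim (d a) (f a), ho.optionElim hd hf, fun a => ?_⟩
  rcases e : o a with _ | i
  · exact .inr ⟨(h a).2 e, by simp [e]⟩
  · exact .inl ⟨i, (h a).1 i e, by simp [e]⟩

/-! #### Promise style: restrict the index type to the inputs satisfying a property -/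

theorem restrict {f : ∀ a, β a} (h : DP f) (p : α → Prop) : DP fun a : {a // p a} => f a.1 :=
  h.comp (Poly.restrict Poly.id' p)

theorem subtype_val {q : ∀ a, β a → Prop} {f : ∀ a, {b // q a b}} (h : DP f) :
    DP fun a => (f a).1 := h

theorem subtype_mk {q : ∀ a, β a → Prop} {f : ∀ a, β a} (h : DP f) (hq : ∀ a, q a (f a)) :
    DP fun a => (⟨f a, hq a⟩ : {b // q a b}) := h

theorem dite {p : α → Prop} [DecidablePred p] (hp : Poly fun a => decide (p a))
    {f : ∀ a, p a → β a} {g : ∀ a, ¬ p a → β a} (hf : DP fun a : {a // p a} => f a.1 a.2)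
    (hg : DP fun a : {a // ¬ p a} => g a.1 a.2) :
    DP fun a => if h : p a then f a h else g a h :=
  (Poly.dite (f := fun a h => enc (f a h)) (g := fun a h => enc (g a h)) hp hf hg).congr
    fun a => by by_cases h : p a <;> simp [h]

/-- Hoare-style case distinction. -/
theorem cases {p : α → Prop} [DecidablePred p] (hp : Poly fun a => decide (p a))
    {R : ∀ a, β a → Prop} (h₁ : ∃ f : ∀ a : {a // p a}, β a.1, DP f ∧ ∀ a, R a.1 (f a))
    (h₂ : ∃ g : ∀ a : {a // ¬ p a}, β a.1, DP g ∧ ∀ a, R a.1 (g a)) :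
    ∃ o : ∀ a, β a, DP o ∧ ∀ a, R a (o a) := by
  obtain ⟨f, hf, h₁⟩ := h₁
  obtain ⟨g, hg, h₂⟩ := h₂
  refine ⟨fun a => if h : p a then f ⟨a, h⟩ else g ⟨a, h⟩,
    dite (f := fun a h => f ⟨a, h⟩) (g := fun a h => g ⟨a, h⟩) hp hf hg, fun a => ?_⟩
  by_cases h : p a
  · simpa [h] using h₁ ⟨a, h⟩
  · simpa [h] using h₂ ⟨a, h⟩

/-- Hoare-style search: act on some index with property `p`, or know that there is none. -/
theorem search (hn : Poly n) (hb : PB n) {p : ∀ a, Fin (n a) → Prop}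
    [∀ x : Σ a, Fin (n a), Decidable (p x.1 x.2)]
    (hp : Poly fun x : Σ a, Fin (n a) => decide (p x.1 x.2)) {R : ∀ a, β a → Prop}
    (h₁ : ∃ f : ∀ x : {x : Σ a, Fin (n a) // p x.1 x.2}, β x.1.1, DP f ∧ ∀ x, R x.1.1 (f x))
    (h₂ : ∃ g : ∀ a : {a // ∀ i, ¬ p a i}, β a.1, DP g ∧ ∀ a, R a.1 (g a)) :
    ∃ o : ∀ a, β a, DP o ∧ ∀ a, R a (o a) := by
  obtain ⟨f, hf, h₁⟩ := h₁
  obtain ⟨g, hg, h₂⟩ := h₂
  obtain ⟨o, ho, h⟩ := find hn hb hp
  have hc : Poly fun a => decide (o a = Option.none) := ho.decide_eq none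
  refine cases hc ⟨fun a => g ⟨a.1, (h a.1).2 a.2⟩, hg.comp (g := fun a : {a // o a = Option.none} =>
    (⟨a.1, (h a.1).2 a.2⟩ : {a // ∀ i, ¬ p a i})) (Poly.cast fun _ => rfl),
    fun a => h₂ ⟨a.1, _⟩⟩ ?_
  have hs : ∀ a : {a // ¬ o a = Option.none}, (o a.1).isSome = true := fun a =>
    Option.isSome_iff_ne_none.2 a.2
  have h1 : DP fun a : {a // ¬ o a = Option.none} => (o a.1).get (hs a) :=
    Poly.of_enc (Poly.left (Poly.restrict ho _)) fun a => by
      obtain ⟨x, hx⟩ := Option.isSome_iff_exists.1 (hs a)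
      simp only [hx]
      rfl
  let φ : {a // ¬ o a = Option.none} → {x : Σ a, Fin (n a) // p x.1 x.2} := fun a =>
    ⟨⟨a.1, (o a.1).get (hs a)⟩, (h a.1).1 _ (Option.some_get _).symm⟩
  have hφ : Poly φ := (sigma (g := fun a : {a // ¬ o a = Option.none} => a.1)
    (Poly.restrict Poly.id' _) h1).of_enc fun _ => rfl
  exact ⟨fun a => f (φ a), hf.comp hφ, fun a => h₁ (φ a)⟩

/-- Hoare-style loop with an invariant `I a i s` (`i` = number of rounds done). -/
theorem loop {T B : α → ℕ} (hT : Poly T) (hT' : PB T) (hB : PB B) (I : ∀ a, ℕ → β a → Prop)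
    {init : ∀ a, β a} (hi : DP init) (h0 : ∀ a, I a 0 (init a))
    (hstep : ∃ step : ∀ p : {p : Σ a, Un × β a // I p.1 p.2.1.n p.2.2 ∧ p.2.1.n < T p.1}, β p.1.1,
      DP step ∧ ∀ p, I p.1.1 (p.1.2.1.n + 1) (step p))
    (hsz : ∀ a i s, i ≤ T a → I a i s → sz s ≤ B a) :
    ∃ out : ∀ a, β a, DP out ∧ ∀ a, I a (T a) (out a) := by
  obtain ⟨step, hs, hI⟩ := hstep
  let τ : α → Type := fun a => {q : Un × β a // I a q.1.n q.2 ∧ q.1.n ≤ T a}
  let st : ∀ a, τ a → τ a := fun a q =>
    if h : q.1.1.n < T a then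
      ⟨(⟨q.1.1.n + 1⟩, step ⟨⟨a, q.1⟩, q.2.1, h⟩), hI ⟨⟨a, q.1⟩, q.2.1, h⟩, h⟩ else q
  have hc : Poly fun p : Σ a, τ a => p.2.1.1 := (snd (β := τ)).subtype_val.fst.poly
  have hst : DP fun p : Σ a, τ a => st p.1 p.2 := by
    refine dite (p := fun p : Σ a, τ a => p.2.1.1.n < T p.1)
      (hc.unVal.decide_lt (hT.comp poly_fst)) ?_ (snd.restrict _)
    have h1 : Poly fun p : {p : Σ a, τ a // p.2.1.1.n < T p.1} => Un.mk (p.1.2.1.1.n + 1) := by
      have := hc.restrict fun p => p.2.1.1.n < T p.1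
      exact Poly.unMk (this.unVal.add (poly_const 1)) ((PB.unVal this).add (PB.const 1))
    have h2 := hs.comp (g := fun p : {p : Σ a, τ a // p.2.1.1.n < T p.1} =>
        ⟨⟨p.1.1, p.1.2.1⟩, p.1.2.2.1, p.2⟩) (Poly.cast fun _ => rfl)
    exact pair (of_poly h1) h2
  have hin : DP fun a => (⟨(⟨0⟩, init a), h0 a, Nat.zero_le _⟩ : τ a) :=
    pair (of_poly (poly_const (Un.mk 0))) hi
  have h := iterate_inv hin hst hT hT' (B := fun a => 2 * T a + 1 + B a + 1) (by fun_prop)
    fun a i _ => by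
      generalize (st a)^[i] _ = q
      have h1 := hsz a _ _ q.2.2 q.2.1
      have h2 := q.2.2
      have h3 : sz q = sz q.1.1 + sz q.1.2 + 1 := rfl
      rw [h3, sz_un]
      omega
  have key : ∀ a i, i ≤ T a →
      ((st a)^[i] ⟨(⟨0⟩, init a), h0 a, Nat.zero_le _⟩).1.1.n = i := by
    intro a i
    induction i with
    | zero => intro _; rfl
    | succ i ih =>
      intro hi
      rw [Function.iterate_succ_apply']
      have := ih (by omega)
      generalize (st a)^[i] _ = q at this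
      simp only [st]
      rw [dif_pos (by omega)]
      simp [this]
  refine ⟨_, h.subtype_val.snd', fun a => ?_⟩
  have := ((st a)^[T a] ⟨(⟨0⟩, init a), h0 a, Nat.zero_le _⟩).2.1
  rwa [key a _ le_rfl] at this

end DP

/-- `∀` over `Fin` in a form `fun_prop` can use after `simp only [forall_fin_iff]`. -/
theorem forall_fin_iff {k : ℕ} {p : Fin k → Prop} : (∀ i, p i) ↔ ¬ ∃ i, ¬ p i := by simp

/-- Sums over a subset as sums over everything. -/
theorem sum_mem_eq {ι M : Type} [Fintype ι] [DecidableEq ι] [AddCommMonoid M] (S : Finset ι)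
    (f : ι → M) : ∑ c ∈ S, f c = ∑ c, if c ∈ S then f c else 0 := by simp

/-! ### Real numbers that are casts of computable rationals -/

/-- `f a` is the cast of a polynomial-time computable rational number. -/
@[fun_prop]
def PR {α : Type} [PEnc α] (f : α → ℝ) : Prop := ∃ q : α → ℚ, Poly q ∧ ∀ a, f a = q a

namespace PR
variable {f g : α → ℝ} {n : α → ℕ}

theorem congr (h : PR f) (e : ∀ a, f a = g a) : PR g := by
  rwa [← funext e]

@[fun_prop] theorem comp (h : PR f) {u : α' → α} (hu : Poly u) : PR fun b => f (u b) := by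
  obtain ⟨q, hq, e⟩ := h
  exact ⟨fun b => q (u b), hq.comp hu, fun b => e _⟩

@[fun_prop] theorem ratCast {q : α → ℚ} (h : Poly q) : PR fun a => (q a : ℝ) :=
  ⟨q, h, fun _ => rfl⟩

@[fun_prop] theorem natCast {k : α → ℕ} (h : Poly k) : PR fun a => (k a : ℝ) :=
  ⟨fun a => k a, h.natCastRat, fun _ => by simp⟩

@[fun_prop] theorem intCast {k : α → ℤ} (h : Poly k) : PR fun a => (k a : ℝ) :=
  ⟨fun a => k a, h.intCastRat, fun _ => by simp⟩

@[fun_prop] theorem zero : PR fun _ : α => (0 : ℝ) :=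
  (natCast (poly_const 0)).congr fun _ => by simp

@[fun_prop] theorem one : PR fun _ : α => (1 : ℝ) :=
  (natCast (poly_const 1)).congr fun _ => by simp

@[fun_prop] theorem ofNat (k : ℕ) [k.AtLeastTwo] : PR fun _ : α => (OfNat.ofNat k : ℝ) :=
  natCast (poly_const k)

@[fun_prop] theorem add (hf : PR f) (hg : PR g) : PR fun a => f a + g a := by
  obtain ⟨p, hp, e⟩ := hf
  obtain ⟨q, hq, e'⟩ := hg
  exact ⟨_, hp.ratAdd hq, fun a => by simp [e, e']⟩

@[fun_prop] theorem sub (hf : PR f) (hg : PR g) : PR fun a => f a - g a := by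
  obtain ⟨p, hp, e⟩ := hf
  obtain ⟨q, hq, e'⟩ := hg
  exact ⟨_, hp.ratSub hq, fun a => by simp [e, e']⟩

@[fun_prop] theorem mul (hf : PR f) (hg : PR g) : PR fun a => f a * g a := by
  obtain ⟨p, hp, e⟩ := hf
  obtain ⟨q, hq, e'⟩ := hg
  exact ⟨_, hp.ratMul hq, fun a => by simp [e, e']⟩

@[fun_prop] theorem div (hf : PR f) (hg : PR g) : PR fun a => f a / g a := by
  obtain ⟨p, hp, e⟩ := hf
  obtain ⟨q, hq, e'⟩ := hg
  exact ⟨_, hp.ratDiv hq, fun a => by simp [e, e']⟩

@[fun_prop] theorem neg (hf : PR f) : PR fun a => -f a := by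
  obtain ⟨p, hp, e⟩ := hf
  exact ⟨_, hp.ratNeg, fun a => by simp [e]⟩

@[fun_prop] theorem inv (hf : PR f) : PR fun a => (f a)⁻¹ := by
  obtain ⟨p, hp, e⟩ := hf
  exact ⟨_, hp.ratInv, fun a => by simp [e]⟩

@[fun_prop] theorem abs (hf : PR f) : PR fun a => |f a| := by
  obtain ⟨p, hp, e⟩ := hf
  exact ⟨_, hp.ratAbs, fun a => by simp [e]⟩

@[fun_prop] theorem min (hf : PR f) (hg : PR g) : PR fun a => min (f a) (g a) := by
  obtain ⟨p, hp, e⟩ := hf
  obtain ⟨q, hq, e'⟩ := hg
  exact ⟨_, hp.ratMin hq, fun a => by simp [e, e']⟩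

@[fun_prop] theorem max (hf : PR f) (hg : PR g) : PR fun a => max (f a) (g a) := by
  obtain ⟨p, hp, e⟩ := hf
  obtain ⟨q, hq, e'⟩ := hg
  exact ⟨_, hp.ratMax hq, fun a => by simp [e, e']⟩

@[fun_prop] theorem pow (hf : PR f) (hn : Poly n) (hb : PB n) : PR fun a => f a ^ n a := by
  obtain ⟨p, hp, e⟩ := hf
  exact ⟨_, hp.monoidPow hn hb, fun a => by simp [e]⟩

@[fun_prop] theorem ite {p : α → Prop} [DecidablePred p] (hp : Poly fun a => decide (p a))
    (hf : PR f) (hg : PR g) : PR fun a => if p a then f a else g a := by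
  obtain ⟨u, hu, e⟩ := hf
  obtain ⟨v, hv, e'⟩ := hg
  exact ⟨_, Poly.ite hp hu hv, fun a => by by_cases h : p a <;> simp [h, e, e']⟩

@[fun_prop] theorem sum_fin {F : ∀ a, Fin (n a) → ℝ} (hn : Poly n) (hb : PB n)
    (h : PR fun p : Σ a, Fin (n a) => F p.1 p.2) : PR fun a => ∑ i, F a i := by
  obtain ⟨q, hq, e⟩ := h
  exact ⟨fun a => ∑ i, q ⟨a, i⟩, Poly.sum_fin (f := fun a i => q ⟨a, i⟩) hn hb hq, fun a => by
    push_cast
    exact sum_congr rfl fun i _ => e ⟨a, i⟩⟩

@[fun_prop] theorem floor (hf : PR f) : Poly fun a => ⌊f a⌋ := by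
  obtain ⟨p, hp, e⟩ := hf
  exact hp.ratFloor.congr fun a => by rw [e, Rat.floor_cast]

@[fun_prop] theorem ceil (hf : PR f) : Poly fun a => ⌈f a⌉ := by
  obtain ⟨p, hp, e⟩ := hf
  exact hp.ratCeil.congr fun a => by rw [e, Rat.ceil_cast]

@[fun_prop] theorem natCeil (hf : PR f) : Poly fun a => ⌈f a⌉₊ :=
  hf.ceil.toNat.congr fun _ => Int.ceil_toNat _

@[fun_prop] theorem natFloor (hf : PR f) : Poly fun a => ⌊f a⌋₊ :=
  hf.floor.toNat.congr fun _ => Int.floor_toNat _

@[fun_prop] theorem decide_le (hf : PR f) (hg : PR g) [∀ a, Decidable (f a ≤ g a)] :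
    Poly fun a => decide (f a ≤ g a) := by
  obtain ⟨p, hp, e⟩ := hf
  obtain ⟨q, hq, e'⟩ := hg
  exact Poly.decide_congr (hp.decide_ratLe hq) fun a => by rw [e, e', Rat.cast_le]

@[fun_prop] theorem decide_lt (hf : PR f) (hg : PR g) [∀ a, Decidable (f a < g a)] :
    Poly fun a => decide (f a < g a) := by
  obtain ⟨p, hp, e⟩ := hf
  obtain ⟨q, hq, e'⟩ := hg
  exact Poly.decide_congr (hp.decide_ratLt hq) fun a => by rw [e, e', Rat.cast_lt]

theorem decide_eq (hf : PR f) (hg : PR g) [∀ a, Decidable (f a = g a)] :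
    Poly fun a => decide (f a = g a) := by
  obtain ⟨p, hp, e⟩ := hf
  obtain ⟨q, hq, e'⟩ := hg
  exact Poly.decide_congr (hp.decide_eq hq) fun a => by rw [e, e', Rat.cast_inj]

/-- A `PR` family as an opaque function. -/
theorem gen (h : PR f) : ∃ t : α → ℝ, PR t ∧ ∀ a, f a = t a := ⟨f, h, fun _ => rfl⟩

end PR

/-- Vectors of `PR` numbers. -/
def PRV {n : α → ℕ} (v : ∀ a, Fin (n a) → ℝ) : Prop :=
  ∃ L : α → ℕ → ℚ, (Poly fun p : α × ℕ => L p.1 p.2) ∧ ∀ a i, v a i = L a i

/-- Matrices of `PR` numbers. -/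
def PRM {n n' : α → ℕ} (M : ∀ a, Matrix (Fin (n a)) (Fin (n' a)) ℝ) : Prop :=
  ∃ L : α → ℕ → ℕ → ℚ, (Poly fun p : α × ℕ × ℕ => L p.1 p.2.1 p.2.2) ∧ ∀ a i j, M a i j = L a i j

namespace PRV
variable {n : α → ℕ} {v w : ∀ a, Fin (n a) → ℝ}

theorem of_pr (hn : Poly n) (hb : PB n) (h : PR fun p : Σ a, Fin (n a) => v p.1 p.2) : PRV v := by
  obtain ⟨q, hq, e⟩ := h
  obtain ⟨L, hL, eL⟩ := (DP.fn' (v := fun a i => q ⟨a, i⟩) hn hb hq).ent
  exact ⟨L, hL, fun a i => by rw [← eL]; exact e ⟨a, i⟩⟩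

theorem app (h : PRV v) {i : ∀ a, Fin (n a)} (hi : DP i) : PR fun a => v a (i a) := by
  obtain ⟨L, hL, e⟩ := h
  exact ⟨fun a => L a (i a), hL.comp (Poly.id'.pair hi.val), fun a => e _ _⟩

theorem comp (h : PRV v) {u : α' → α} (hu : Poly u) : PRV fun b => v (u b) := by
  obtain ⟨L, hL, e⟩ := h
  exact ⟨fun b => L (u b), by fun_prop, fun b i => e _ _⟩

theorem natCast {c : ∀ a, Fin (n a) → ℕ} (h : DP c) : PRV fun a i => (c a i : ℝ) := by
  obtain ⟨L, hL, e⟩ := h.ent
  exact ⟨fun a i => L a i, by fun_prop, fun a i => by simp [e]⟩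

theorem dot (hn : Poly n) (hb : PB n) (hv : PRV v) (hw : PRV w) : PR fun a => v a ⬝ᵥ w a := by
  obtain ⟨L, hL, e⟩ := hv
  obtain ⟨L', hL', e'⟩ := hw
  simp only [dotProduct, e, e']
  fun_prop

theorem single (hn : Poly n) (hb : PB n) {i : ∀ a, Fin (n a)} (hi : DP i) :
    PRV fun a => (Pi.single (i a) 1 : Fin (n a) → ℝ) := by
  obtain ⟨i', hi', e⟩ := poly_gen hi.val
  refine of_pr hn hb ?_
  simp only [Pi.single_apply, Fin.ext_iff, e]
  fun_prop

theorem pv (hn : Poly n) (hb : PB n) {i j : ∀ a, Fin (n a)} (hi : DP i) (hj : DP j) :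
    PRV fun a => pv (i a) (j a) := by
  obtain ⟨L, hL, e⟩ := single hn hb hi
  obtain ⟨L', hL', e'⟩ := single hn hb hj
  refine of_pr hn hb ?_
  simp only [R37.pv, Pi.sub_apply, e, e']
  fun_prop

end PRV

namespace PRM
variable {n n' n'' : α → ℕ} {M M' : ∀ a, Matrix (Fin (n a)) (Fin (n' a)) ℝ}

theorem of_pr (hn : Poly n) (hb : PB n) (hn' : Poly n') (hb' : PB n')
    (h : PR fun q : Σ p : (Σ a, Fin (n a)), Fin (n' p.1) => M q.1.1 q.1.2 q.2) : PRM M := by
  obtain ⟨q, hq, e⟩ := h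
  obtain ⟨L, hL, eL⟩ := (DP.fn₂ (v := fun a i j => q ⟨⟨a, i⟩, j⟩) hn hb hn' hb' hq).ent₂
  exact ⟨L, hL, fun a i j => by rw [← eL]; exact e ⟨⟨a, i⟩, j⟩⟩

theorem app (h : PRM M) {i : ∀ a, Fin (n a)} {j : ∀ a, Fin (n' a)} (hi : DP i) (hj : DP j) :
    PR fun a => M a (i a) (j a) := by
  obtain ⟨L, hL, e⟩ := h
  exact ⟨fun a => L a (i a) (j a), hL.comp (Poly.id'.pair (hi.val.pair hj.val)), fun a => e _ _ _⟩

theorem comp (h : PRM M) {u : α' → α} (hu : Poly u) : PRM fun b => M (u b) := by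
  obtain ⟨L, hL, e⟩ := h
  exact ⟨fun b => L (u b), by fun_prop, fun b i j => e _ _ _⟩

theorem congr (h : PRM M) (e : ∀ a, M a = M' a) : PRM M' := by rwa [← funext e]

theorem ratCast {Q : ∀ a, Matrix (Fin (n a)) (Fin (n' a)) ℚ} (h : DP Q) :
    PRM fun a => (Q a).map (Rat.cast : ℚ → ℝ) := by
  obtain ⟨L, hL, e⟩ := DP.ent₂ (v := Q) h
  exact ⟨L, hL, fun a i j => by simp [e]⟩

/-- The rational matrices behind a `PRM` family. -/
theorem exists_rat (hn : Poly n) (hb : PB n) (hn' : Poly n') (hb' : PB n') (h : PRM M) :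
    ∃ Q : ∀ a, Matrix (Fin (n a)) (Fin (n' a)) ℚ, DP Q ∧
      ∀ a, M a = (Q a).map (Rat.cast : ℚ → ℝ) := by
  obtain ⟨L, hL, e⟩ := h
  refine ⟨fun a => Matrix.of fun i j => L a i j,
    DP.fn₂ (v := fun a i j => L a i j) hn hb hn' hb' (by fun_prop), fun a => ?_⟩
  ext i j
  simp [e]

theorem add (h : PRM M) (h' : PRM M') : PRM fun a => M a + M' a := by
  obtain ⟨L, hL, e⟩ := h
  obtain ⟨L', hL', e'⟩ := h'
  exact ⟨fun a i j => L a i j + L' a i j, by fun_prop, fun a i j => by simp [e, e']⟩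

theorem sub (h : PRM M) (h' : PRM M') : PRM fun a => M a - M' a := by
  obtain ⟨L, hL, e⟩ := h
  obtain ⟨L', hL', e'⟩ := h'
  exact ⟨fun a i j => L a i j - L' a i j, by fun_prop, fun a i j => by simp [e, e']⟩

theorem smul {c : α → ℝ} (hc : PR c) (h : PRM M) : PRM fun a => c a • M a := by
  obtain ⟨L, hL, e⟩ := h
  obtain ⟨q, hq, e'⟩ := hc
  exact ⟨fun a i j => q a * L a i j, by fun_prop, fun a i j => by simp [e, e']⟩

theorem transpose (h : PRM M) : PRM fun a => (M a)ᵀ := by
  obtain ⟨L, hL, e⟩ := h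
  exact ⟨fun a i j => L a j i, by fun_prop, fun a i j => by simp [e]⟩

theorem one : PRM fun a => (1 : Matrix (Fin (n a)) (Fin (n a)) ℝ) :=
  ⟨fun _ i j => if i = j then 1 else 0, by fun_prop, fun a i j => by
    simp only [Matrix.one_apply, Fin.ext_iff]
    split_ifs <;> simp⟩

theorem diagonal {v : ∀ a, Fin (n a) → ℝ} (hv : PRV v) : PRM fun a => diagonal (v a) := by
  obtain ⟨L, hL, e⟩ := hv
  exact ⟨fun a i j => if i = j then L a i else 0, by fun_prop, fun a i j => by
    simp only [Matrix.diagonal_apply, Fin.ext_iff, e]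
    split_ifs <;> simp⟩

theorem mul (hn : Poly n) (hb : PB n) (hn' : Poly n') (hb' : PB n') (hn'' : Poly n'')
    (hb'' : PB n'') (h : PRM M) {K : ∀ a, Matrix (Fin (n' a)) (Fin (n'' a)) ℝ} (hK : PRM K) :
    PRM fun a => M a * K a := by
  obtain ⟨L, hL, e⟩ := h
  obtain ⟨L', hL', e'⟩ := hK
  refine of_pr hn hb hn'' hb'' ?_
  simp only [Matrix.mul_apply, e, e']
  fun_prop

theorem mulVec (hn : Poly n) (hb : PB n) (hn' : Poly n') (hb' : PB n') (h : PRM M)
    {v : ∀ a, Fin (n' a) → ℝ} (hv : PRV v) : PRV fun a => M a *ᵥ v a := by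
  obtain ⟨L, hL, e⟩ := h
  obtain ⟨L', hL', e'⟩ := hv
  refine PRV.of_pr hn hb ?_
  simp only [Matrix.mulVec, dotProduct, e, e']
  fun_prop

theorem trace (hn : Poly n) (hb : PB n) {K : ∀ a, Matrix (Fin (n a)) (Fin (n a)) ℝ} (h : PRM K) :
    PR fun a => (K a).trace := by
  obtain ⟨L, hL, e⟩ := h
  simp only [Matrix.trace, Matrix.diag, e]
  fun_prop

end PRM

/-! ### Families of graphs -/

/-- A polynomial-time family of multigraphs. -/
structure PG {n m : α → ℕ} (G : ∀ a, MG (Fin (n a)) (Fin (m a))) : Prop where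
  np : Poly n
  nb : PB n
  mp : Poly m
  mb : PB m
  src : DP fun a => (G a).src
  tgt : DP fun a => (G a).tgt

namespace PG
variable {n m : α → ℕ} {G : ∀ a, MG (Fin (n a)) (Fin (m a))}

theorem comp (h : PG G) {u : α' → α} (hu : Poly u) : PG fun b => G (u b) :=
  ⟨h.np.comp hu, h.nb.comp hu, h.mp.comp hu, h.mb.comp hu, h.src.comp hu, h.tgt.comp hu⟩

theorem b (h : PG G) {e : ∀ a, Fin (m a)} (he : DP e) : PRV fun a => (G a).b (e a) :=
  PRV.pv h.np h.nb (h.src.app he) (h.tgt.app he)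

theorem lap (h : PG G) {c : ∀ a, Fin (m a) → ℝ} (hc : PRV c) : PRM fun a => (G a).lap (c a) := by
  obtain ⟨s, hs, es⟩ := h.src.entF
  obtain ⟨t, ht, et⟩ := h.tgt.entF
  obtain ⟨L, hL, e⟩ := hc
  have := h.np; have := h.nb; have := h.mp; have := h.mb
  refine PRM.of_pr h.np h.nb h.np h.nb ?_
  simp only [MG.lap, MG.b, pv, Matrix.sum_apply, Matrix.smul_apply, vecMulVec_apply, Pi.sub_apply,
    Pi.single_apply, Fin.ext_iff, es, et, e, smul_eq_mul]
  fun_prop

/-- The bilinear form `b_eᵀ M b_f`. -/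
theorem form (h : PG G) {M : ∀ a, Matrix (Fin (n a)) (Fin (n a)) ℝ} (hM : PRM M)
    {e f : ∀ a, Fin (m a)} (he : DP e) (hf : DP f) :
    PR fun a => (G a).b (e a) ⬝ᵥ M a *ᵥ (G a).b (f a) :=
  PRV.dot h.np h.nb (h.b he) (hM.mulVec h.np h.nb h.np h.nb (h.b hf))

end PG

end Crest.Agent.R37
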