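import Crest.Agent.R37.Defs

set_option autoImplicit false
open Finset Matrix Crest.CombinatoricsR.Multigraph
open scoped Classical

noncomputable section
namespace Crest.Agent.R37
variable {V ι : Type} [Fintype V] [DecidableEq V] [Fintype ι] {d : V → V → ℕ}

namespace BallN

omit [Fintype V] [DecidableEq V] in
theorem sepC_le (hd : PMet d) (b : V) (J : Finset ℕ) (u v : V) : sepC d b J u v ≤ d u v := by
  have h1 := hd.tri b u v
  have h2 := hd.tri b v u
  have h3 := hd.symm u v
  unfold sepC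
  calc _ ≤ #(Ioc (min (d b u) (d b v)) (max (d b u) (d b v))) := by
        refine card_le_card fun x hx => ?_
        rw [mem_filter] at hx
        rw [mem_Ioc]
        omega
    _ ≤ d u v := by
        rw [Nat.card_Ioc]
        omega

omit [Fintype V] [DecidableEq V] in
theorem sepC_mono (b : V) {J J' : Finset ℕ} (h : J' ⊆ J) (u v : V) :
    sepC d b J' u v ≤ sepC d b J u v :=
  card_le_card (filter_subset_filter _ h)

omit [Fintype V] [DecidableEq V] in
theorem near_of_sepC (hd : PMet d) {b : V} {J : Finset ℕ} {u v : V} {s : ℕ} (hs : d u v ≤ s)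
    (h : sepC d b J u v ≠ 0) : Near d b J s u := by
  have h1 := hd.tri b u v
  have h2 := hd.tri b v u
  have h3 := hd.symm u v
  unfold sepC at h
  obtain ⟨x, hx⟩ := card_ne_zero.mp h
  rw [mem_filter] at hx
  exact ⟨x, hx.1, by omega, by omega⟩

omit [Fintype V] [DecidableEq V] in
/-- Close points are separated by the cuts of one claim only. -/
theorem small (hd : PMet d) {C : Claims ι V} {B : Finset V} {s : ℕ} (hI : C.Inv d B s) {u v : V}
    (hu : u ∈ B) (hs : d u v ≤ s) : ∑ j, sepC d (C.b j) (C.J j) u v ≤ d u v := by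
  by_cases h : ∀ j, sepC d (C.b j) (C.J j) u v = 0
  · simp [h]
  · push Not at h
    obtain ⟨j, hj⟩ := h
    rw [sum_eq_single j]
    · exact sepC_le hd _ _ _ _
    · intro j' _ hne
      by_contra h'
      exact hne (hI.L u hu j' j (near_of_sepC hd hs h') (near_of_sepC hd hs hj))
    · intro h'
      exact absurd (mem_univ j) h'

omit [Fintype ι] in
theorem one_near (hd : PMet d) {Gd : Finset V} {r : ℕ}
    (sep : ∀ t ∈ Gd, ∀ t' ∈ Gd, t ≠ t' → 4 * r < d t t') (u : V) :
    ∑ t, (if t ∈ Gd ∧ d t u < r then r else 0) ≤ r := by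
  rw [← sum_filter, sum_const, smul_eq_mul]
  have : #(univ.filter fun t => t ∈ Gd ∧ d t u < r) ≤ 1 := by
    rw [card_le_one]
    intro a ha b hb
    rw [mem_filter] at ha hb
    by_contra hne
    have h1 := sep a ha.2.1 b hb.2.1 hne
    have h2 := hd.tri a u b
    have h3 := hd.symm u b
    omega
  calc _ ≤ 1 * r := Nat.mul_le_mul_right _ this
    _ = r := one_mul r

omit [Fintype ι] in
theorem new_le (hd : PMet d) {Gd : Finset V} {r : ℕ}
    (sep : ∀ t ∈ Gd, ∀ t' ∈ Gd, t ≠ t' → 4 * r < d t t') (u v : V) :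
    ∑ t, sepC d t (if t ∈ Gd then Icc 1 r else ∅) u v ≤ 2 * r := by
  have h1 := one_near hd sep u
  have h2 := one_near hd sep v
  have h3 : ∑ t, sepC d t (if t ∈ Gd then Icc 1 r else ∅) u v ≤
      ∑ t, ((if t ∈ Gd ∧ d t u < r then r else 0) + (if t ∈ Gd ∧ d t v < r then r else 0)) := by
    refine sum_le_sum fun t _ => ?_
    by_cases ht : t ∈ Gd
    · by_cases h0 : sepC d t (Icc 1 r) u v = 0
      · simp [ht, h0]
      · have hle : sepC d t (Icc 1 r) u v ≤ r := by
          unfold sepC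
          calc _ ≤ #(Icc 1 r) := card_filter_le _ _
            _ = r := by simp
        unfold sepC at h0
        obtain ⟨x, hx⟩ := card_ne_zero.mp h0
        rw [mem_filter, mem_Icc] at hx
        simp only [ht, if_true, true_and]
        split_ifs <;> omega
    · simp [ht, sepC]
  rw [sum_add_distrib] at h3
  omega

end BallN

open BallN in
/-- The invariants pass to a child, together with new claims around good net points. -/
theorem ball_new (hd : PMet d) {C : Claims ι V} {B Ba : Finset V} {s r : ℕ} (hr : 1 ≤ r)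
    (hs : 5 * r ≤ s) (hI : C.Inv d B s) (hB : Ba ⊆ B) {J' : ι → Finset ℕ}
    (hJ : ∀ j, J' j ⊆ C.J j) (hsp : ∀ j, ∀ x ∈ J' j, Splits d (C.b j) x Ba) {Gd : Finset V}
    (hG : Gd ⊆ Ba) (sep : ∀ t ∈ Gd, ∀ t' ∈ Gd, t ≠ t' → 4 * r < d t t')
    (safe : ∀ t ∈ Gd, ∀ j, ¬ Near d (C.b j) (J' j) (3 * r) t)
    (big : ∀ t ∈ Gd, ∃ v ∈ Ba, r ≤ d t v) : (C.ext J' Gd r).Inv d Ba r := by
  -- membership in the radius set of a new claim
  have hnew : ∀ t x, x ∈ (C.ext J' Gd r).J (Sum.inr t) ↔ t ∈ Gd ∧ 1 ≤ x ∧ x ≤ r := by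
    intro t x
    by_cases ht : t ∈ Gd <;> simp [Claims.ext, ht]
  -- a point near an inherited and near a new claim
  have mix : ∀ u j t, Near d (C.b j) (J' j) r u →
      Near d ((C.ext J' Gd r).b (Sum.inr t)) ((C.ext J' Gd r).J (Sum.inr t)) r u → False := by
    rintro u j t ⟨x, hx, h1, h2⟩ ⟨y, hy, -, h4⟩
    rw [hnew] at hy
    change d t u ≤ y + r at h4
    have a1 := hd.tri (C.b j) u t
    have a2 := hd.tri (C.b j) t u
    have a3 := hd.symm u t
    exact safe t hy.1 j ⟨x, hx, by omega, by omega⟩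
  have mixH : ∀ j t, (C.ext J' Gd r).NoSplit d Ba (Sum.inl j) (Sum.inr t) ∨
      (C.ext J' Gd r).NoSplit d Ba (Sum.inr t) (Sum.inl j) := by
    intro j t
    by_cases ht : t ∈ Gd
    · left
      rintro x hx ⟨u, hu, v, hv, h1, h2⟩
      rw [mem_filter] at hu hv
      change x ∈ J' j at hx
      have hu' : d t u ≤ r := hu.2
      have hv' : d t v ≤ r := hv.2
      change d (C.b j) u < x at h1
      change x ≤ d (C.b j) v at h2
      have a1 := hd.tri (C.b j) u t
      have a2 := hd.tri (C.b j) t v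
      have a3 := hd.symm u t
      exact safe t ht j ⟨x, hx, by omega, by omega⟩
    · right
      intro x hx
      rw [hnew] at hx
      exact absurd hx.1 ht
  refine ⟨?_, ?_, ?_, ?_⟩
  · rintro (j | t) x hx
    · exact ⟨(hI.S j x (hJ j hx)).1, hsp j x hx⟩
    · rw [hnew] at hx
      obtain ⟨v, hv, hrv⟩ := big t hx.1
      refine ⟨hx.2.2, t, hG hx.1, v, hv, ?_, ?_⟩
      · change d t t < x
        rw [hd.refl]
        omega
      · change x ≤ d t v
        omega
  · rintro u hu (j | t) (j' | t') h h'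
    · obtain ⟨x, hx, h1, h2⟩ := h
      obtain ⟨x', hx', h1', h2'⟩ := h'
      change x ≤ d (C.b j) u + r at h1
      change d (C.b j) u ≤ x + r at h2
      change x' ≤ d (C.b j') u + r at h1'
      change d (C.b j') u ≤ x' + r at h2'
      rw [hI.L u (hB hu) j j' ⟨x, hJ j hx, by omega, by omega⟩
        ⟨x', hJ j' hx', by omega, by omega⟩]
    · exact (mix u j t' h h').elim
    · exact (mix u j' t h' h).elim
    · obtain ⟨x, hx, -, h2⟩ := h
      obtain ⟨x', hx', -, h2'⟩ := h'
      rw [hnew] at hx hx'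
      change d t u ≤ x + r at h2
      change d t' u ≤ x' + r at h2'
      by_contra hne
      have h1 := sep t hx.1 t' hx'.1 fun e => hne (by rw [e])
      have a1 := hd.tri t u t'
      have a2 := hd.symm u t'
      omega
  · rintro (j | t) (j' | t') hne
    · have key : ∀ a b, C.NoSplit d B a b →
          (C.ext J' Gd r).NoSplit d Ba (Sum.inl a) (Sum.inl b) := by
        rintro a b h x hx ⟨u, hu, v, hv, h1, h2⟩
        rw [mem_filter] at hu hv
        exact h x (hJ a hx) ⟨u, mem_filter.mpr ⟨hB hu.1, hu.2⟩, v,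
          mem_filter.mpr ⟨hB hv.1, hv.2⟩, h1, h2⟩
      exact (hI.H j j' fun e => hne (by rw [e])).imp (key j j') (key j' j)
    · exact mixH j t'
    · exact (mixH j' t).symm
    · by_cases ht' : t' ∈ Gd
      · left
        rintro x hx ⟨u, hu, v, -, h1, -⟩
        rw [hnew] at hx
        rw [mem_filter] at hu
        have hu' : d t' u ≤ r := hu.2
        change d t u < x at h1
        have h2 := sep t hx.1 t' ht' fun e => hne (by rw [e])
        have a1 := hd.tri t u t'
        have a2 := hd.symm u t'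
        omega
      · right
        intro x hx
        rw [hnew] at hx
        exact absurd hx.1 ht'
  · intro u hu v hv huv
    rw [Fintype.sum_sum_type]
    have h1 : ∑ t, sepC d ((C.ext J' Gd r).b (Sum.inr t)) ((C.ext J' Gd r).J (Sum.inr t)) u v
        ≤ 2 * r := new_le hd sep u v
    have h2 : ∑ j, sepC d ((C.ext J' Gd r).b (Sum.inl j)) ((C.ext J' Gd r).J (Sum.inl j)) u v
        ≤ ∑ j, sepC d (C.b j) (C.J j) u v := sum_le_sum fun j _ => sepC_mono _ (hJ j) u v
    by_cases h : s ≤ d u v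
    · have := hI.D u (hB hu) v (hB hv) h
      omega
    · have := small hd hI (hB hu) (v := v) (by omega)
      omega

theorem ext_card (C : Claims ι V) (J' : ι → Finset ℕ) (Gd : Finset V) (r : ℕ) :
    ∑ j, #((C.ext J' Gd r).J j) = ∑ j, #(J' j) + r * #Gd := by
  rw [Fintype.sum_sum_type]
  have : ∑ t, #((C.ext J' Gd r).J (Sum.inr t)) = ∑ t, (if t ∈ Gd then r else 0) := by
    refine sum_congr rfl fun t _ => ?_
    by_cases ht : t ∈ Gd <;> simp [Claims.ext, ht]
  rw [this, ← sum_filter, sum_const, smul_eq_mul, mul_comm]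
  simp [Claims.ext]

/-- Two points are separated by at most `4 d` claimed cuts. -/
theorem Claims.Inv.sep_le (hd : PMet d) {C : Claims ι V} {B : Finset V} {s : ℕ}
    (hI : C.Inv d B s) {u v : V} (hu : u ∈ B) (hv : v ∈ B) :
    ∑ j, sepC d (C.b j) (C.J j) u v ≤ 4 * d u v := by
  by_cases h : s ≤ d u v
  · have := hI.D u hu v hv h
    omega
  · have := BallN.small hd hI hu (v := v) (by omega)
    omega

/-- Cuts crossed by `k` edges of `A` are paid by the lengths of the edges of `A`. -/
theorem Claims.Inv.pay {E : Type} [Fintype E] [DecidableEq E] (G : MG V E) (hd : PMet d)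
    {C : Claims ι V} {B : Finset V} {s : ℕ} (hI : C.Inv d B s) {A : Finset E}
    (hA : ∀ e ∈ A, G.src e ∈ B ∧ G.tgt e ∈ B) {St : ι → Finset ℕ} (hSt : ∀ j, St j ⊆ C.J j)
    {k : ℕ} (hk : ∀ j, ∀ x ∈ St j, k ≤ #(A ∩ G.cut (univ.filter fun v => d (C.b j) v < x))) :
    k * ∑ j, #(St j) ≤ 4 * ∑ e ∈ A, d (G.src e) (G.tgt e) := by
  have hc : ∀ j x, #(A ∩ G.cut (univ.filter fun v => d (C.b j) v < x)) =
      ∑ e ∈ A, if (d (C.b j) (G.src e) < x ∧ x ≤ d (C.b j) (G.tgt e)) ∨
        (d (C.b j) (G.tgt e) < x ∧ x ≤ d (C.b j) (G.src e)) then 1 else 0 := by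
    intro j x
    rw [← card_filter]
    congr 1
    ext e
    simp only [MG.cut, cutEdges, mem_inter, mem_filter, mem_univ, true_and, not_lt]
    tauto
  calc k * ∑ j, #(St j) = ∑ j, ∑ _x ∈ St j, k := by
        rw [mul_sum]
        refine sum_congr rfl fun j _ => ?_
        rw [sum_const, smul_eq_mul, mul_comm]
    _ ≤ ∑ j, ∑ x ∈ St j, #(A ∩ G.cut (univ.filter fun v => d (C.b j) v < x)) :=
        sum_le_sum fun j _ => sum_le_sum fun x hx => hk j x hx
    _ = ∑ j, ∑ e ∈ A, sepC d (C.b j) (St j) (G.src e) (G.tgt e) := by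
        refine sum_congr rfl fun j _ => ?_
        simp only [hc]
        rw [sum_comm]
        refine sum_congr rfl fun e _ => ?_
        rw [sepC, card_filter]
    _ ≤ ∑ j, ∑ e ∈ A, sepC d (C.b j) (C.J j) (G.src e) (G.tgt e) :=
        sum_le_sum fun j _ => sum_le_sum fun e _ => BallN.sepC_mono _ (hSt j) _ _
    _ ≤ ∑ e ∈ A, 4 * d (G.src e) (G.tgt e) := by
        rw [sum_comm]
        exact sum_le_sum fun e he => hI.sep_le hd (hA e he).1 (hA e he).2
    _ = _ := by rw [mul_sum]

end Crest.Agent.R37
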