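import Crest.Agent.R37.BallA
import Crest.Agent.R37.BallN

set_option autoImplicit false
open Finset Matrix Crest.CombinatoricsR.Multigraph
open scoped Classical

noncomputable section
namespace Crest.Agent.R37
variable {V E : Type} [Fintype V] [DecidableEq V] [Fintype E] [DecidableEq E]

namespace Ball

/-- Edges of `F` inside `B`. -/
def inn (G : MG V E) (F : Finset E) (B : Finset V) : Finset E :=
  F.filter fun e => G.src e ∈ B ∧ G.tgt e ∈ B

section add
variable {Λ : Type} [DecidableEq Λ]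

omit [Fintype V] in
theorem sum_inter (f : V → Λ) (B T : Finset V) :
    ∑ a ∈ B.image f, #(T ∩ B.filter fun v => f v = a) = #(T ∩ B) := by
  rw [card_eq_sum_card_fiberwise (f := f) (s := T ∩ B) (t := B.image f)
    fun x hx => mem_coe.2 (mem_image_of_mem f (mem_inter.1 (mem_coe.1 hx)).2)]
  refine sum_congr rfl fun a _ => ?_
  rw [inter_filter]

omit [Fintype V] [DecidableEq V] in
theorem sum_image_card (f g : V → Λ) (h : ∀ u v, g u = g v → f u = f v) (B : Finset V) :
    ∑ a ∈ B.image f, #((B.filter fun v => f v = a).image g) = #(B.image g) := by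
  rw [← card_biUnion]
  · congr 1
    ext y
    simp only [mem_biUnion, mem_image, mem_filter]
    constructor
    · rintro ⟨a, -, v, ⟨hv, -⟩, rfl⟩
      exact ⟨v, hv, rfl⟩
    · rintro ⟨v, hv, rfl⟩
      exact ⟨f v, ⟨v, hv, rfl⟩, v, ⟨hv, rfl⟩, rfl⟩
  · intro a _ a' _ hne
    rw [Function.onFun, disjoint_left]
    intro y h1 h2
    obtain ⟨u, hu, rfl⟩ := mem_image.1 h1
    obtain ⟨v, hv, e⟩ := mem_image.1 h2
    exact hne ((mem_filter.1 hu).2.symm.trans ((h v u e).symm.trans (mem_filter.1 hv).2))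

omit [Fintype V] [Fintype E] [DecidableEq E] in
theorem sum_inn (G : MG V E) (F : Finset E) (f : V → Λ) (B : Finset V) (w : E → ℕ) :
    ∑ a ∈ B.image f, ∑ e ∈ inn G F (B.filter fun v => f v = a), w e +
      ∑ e ∈ (inn G F B).filter fun e => f (G.src e) ≠ f (G.tgt e), w e = ∑ e ∈ inn G F B, w e := by
  rw [← sum_filter_add_sum_filter_not (inn G F B) (fun e => f (G.src e) = f (G.tgt e))]
  congr 1
  rw [← sum_fiberwise_of_maps_to (g := fun e => f (G.src e)) (t := B.image f)
    (s := (inn G F B).filter fun e => f (G.src e) = f (G.tgt e))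
    fun e he => mem_image_of_mem f (mem_filter.1 (mem_filter.1 he).1).2.1]
  refine sum_congr rfl fun a _ => sum_congr ?_ fun _ _ => rfl
  ext e
  simp only [inn, mem_filter]
  constructor
  · rintro ⟨h1, ⟨h2, h3⟩, h4, h5⟩
    exact ⟨⟨⟨h1, h2, h4⟩, h3.trans h5.symm⟩, h3⟩
  · rintro ⟨⟨⟨h1, h2, h4⟩, h5⟩, h3⟩
    exact ⟨h1, ⟨h2, h3⟩, h4, h5.symm.trans h3⟩

omit [Fintype V] [DecidableEq V] [DecidableEq Λ] in
theorem nest_le {lab : ℕ → V → Λ}
    (nest : ∀ i u v, lab i u = lab i v → lab (i + 1) u = lab (i + 1) v) {i j : ℕ} (hij : i ≤ j)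
    (u v : V) (h : lab i u = lab i v) : lab j u = lab j v := by
  induction j, hij using Nat.le_induction with
  | base => exact h
  | succ j _ ih => exact nest j u v ih

/-- `B` is a class of `f`. -/
def IsCls (f : V → Λ) (B : Finset V) : Prop := B.Nonempty ∧ ∀ u ∈ B, ∀ v, v ∈ B ↔ f v = f u

omit [Fintype V] [DecidableEq V] in
theorem IsCls.card_image {f : V → Λ} {B : Finset V} (h : IsCls f B) : #(B.image f) = 1 := by
  obtain ⟨u, hu⟩ := h.1
  refine card_eq_one.2 ⟨f u, ?_⟩
  ext y
  simp only [mem_image, mem_singleton]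
  constructor
  · rintro ⟨v, hv, rfl⟩
    exact (h.2 u hu v).1 hv
  · rintro rfl
    exact ⟨u, hu, rfl⟩

omit [Fintype V] [DecidableEq V] in
theorem isCls_filter {f : V → Λ} {B : Finset V} (hB : ∀ u ∈ B, ∀ v, f v = f u → v ∈ B) {a : Λ}
    (ha : a ∈ B.image f) : IsCls f (B.filter fun v => f v = a) := by
  obtain ⟨w, hw, rfl⟩ := mem_image.1 ha
  refine ⟨⟨w, mem_filter.2 ⟨hw, rfl⟩⟩, fun u hu v => ?_⟩
  rw [mem_filter] at hu ⊢
  exact ⟨fun h => h.2.trans hu.2.symm, fun h => ⟨hB u hu.1 v h, h.trans hu.2⟩⟩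

/-- a splitting cut is crossed by `k` edges inside the class -/
theorem cross (G : MG V E) (F : Finset E) {d : V → V → ℕ} {f : V → Λ} {k : ℕ}
    (conn : ∀ u v (S : Finset V), f u = f v → u ∈ S → v ∉ S →
      k ≤ #((F ∩ G.cut S).filter fun e => f (G.src e) = f u ∧ f (G.tgt e) = f u))
    {B : Finset V} (hB : IsCls f B) {b : V} {x : ℕ} (h : Splits d b x B) :
    k ≤ #(inn G F B ∩ G.cut (univ.filter fun v => d b v < x)) := by
  obtain ⟨u, hu, v, hv, h1, h2⟩ := h
  refine (conn u v (univ.filter fun v => d b v < x) ((hB.2 u hu v).1 hv).symm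
    (mem_filter.2 ⟨mem_univ _, h1⟩) fun h => not_lt.2 h2 (mem_filter.1 h).2).trans
    (card_le_card fun e he => ?_)
  rw [mem_filter, mem_inter] at he
  exact mem_inter.2 ⟨mem_filter.2 ⟨he.1.1, (hB.2 u hu _).2 he.2.1, (hB.2 u hu _).2 he.2.2⟩, he.1.2⟩

theorem arith {k c r X n J St J' g Y Z D DA m : ℕ} (hm : 1 ≤ m)
    (h1 : r * n + 160 * c * J ≤ 160 * c * (St + J' + r * g) + 920 * c * r * (m - 1))
    (h2 : k * St ≤ 4 * DA)
    (h3 : k * (X + 160 * c * (J' + r * g)) + 920 * c * k * Y ≤ 640 * c * D + 920 * c * k * Z) :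
    k * (X + r * n + 160 * c * J) + 920 * c * k * (Y + r * 1) ≤
      640 * c * (D + DA) + 920 * c * k * (Z + r * m) := by
  obtain ⟨m, rfl⟩ : ∃ m', m = m' + 1 := ⟨m - 1, by omega⟩
  rw [Nat.add_sub_cancel] at h1
  have h4 := Nat.mul_le_mul_left k h1
  have h5 := Nat.mul_le_mul_left (160 * c) h2
  nlinarith

theorem main (G : MG V E) (F : Finset E) {d : V → V → ℕ}
    (hd : PMet d) (lab : ℕ → V → Λ) (k c : ℕ) (r : ℕ → ℕ) (N : ℕ → Finset V) (hc : 1 ≤ c)
    (hr : ∀ i, 1 ≤ r i) (hrr : ∀ i, 8 * c * r i ≤ r (i + 1))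
    (nest : ∀ i u v, lab i u = lab i v → lab (i + 1) u = lab (i + 1) v)
    (conn : ∀ i u v (S : Finset V), lab i u = lab i v → u ∈ S → v ∉ S →
      k ≤ #((F ∩ G.cut S).filter fun e => lab i (G.src e) = lab i u ∧ lab i (G.tgt e) = lab i u))
    (sep : ∀ i, ∀ t ∈ N i, ∀ t' ∈ N i, t ≠ t' → lab i t = lab i t' → 4 * r i < d t t')
    (mate : ∀ i, ∀ t ∈ N i, ∃ t' ∈ N i, lab (i + 1) t' = lab (i + 1) t ∧ lab i t' ≠ lab i t ∧
      d t t' ≤ 4 * c * r i) (i : ℕ) :
    ∀ B : Finset V, IsCls (lab i) B → ∀ (ι : Type) [Fintype ι] (C : Claims ι V) (s : ℕ),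
      C.Inv d B s → (∀ i', i' + 1 = i → 8 * c * r i' ≤ s) →
      k * (∑ i' ∈ range i, r i' * #(N i' ∩ B) + 160 * c * ∑ j, #(C.J j)) +
          920 * c * k * ∑ i' ∈ range i, r i' * #(B.image (lab (i' + 1))) ≤
        640 * c * ∑ e ∈ inn G F B, d (G.src e) (G.tgt e) +
          920 * c * k * ∑ i' ∈ range i, r i' * #(B.image (lab i')) := by
  induction i with
  | zero =>
    intro B hB ι _ C s hI _
    have h := hI.pay G hd (A := inn G F B) (fun e he => (mem_filter.1 he).2) (St := C.J)
      (fun _ => Subset.rfl) (k := k) fun j x hx => cross G F (conn 0) hB (hI.S j x hx).2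
    have h5 := Nat.mul_le_mul_left (160 * c) h
    simp only [range_zero, sum_empty]
    nlinarith
  | succ i ih =>
    intro B hB ι _ C s hI hs
    have hs' := hs i rfl
    have hcl : ∀ u ∈ B, ∀ v, lab i v = lab i u → v ∈ B := fun u hu v h =>
      (hB.2 u hu v).2 (nest i v u h)
    obtain ⟨J', St, Gd, hJ1, hJ2, hS1, hS2, hG1, hG2, hcount⟩ :=
      ball_assign hd hc (hr i) hs' hI (lab i) (N := N i ∩ B) inter_subset_right
        (fun t ht t' ht' => sep i t (mem_inter.1 ht).1 t' (mem_inter.1 ht').1)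
        fun t ht => by
          obtain ⟨t', h1, h2, h3, h4⟩ := mate i t (mem_inter.1 ht).1
          exact ⟨t', mem_inter.2 ⟨h1, (hB.2 t (mem_inter.1 ht).2 t').2 h2⟩, h3, h4⟩
    -- the children
    have hchild : ∀ a ∈ B.image (lab i),
        k * (∑ i' ∈ range i, r i' * #(N i' ∩ B.filter fun v => lab i v = a) +
          160 * c * (∑ j, #(J' j a) + r i * #(Gd ∩ B.filter fun v => lab i v = a))) +
          920 * c * k * ∑ i' ∈ range i, r i' *
            #((B.filter fun v => lab i v = a).image (lab (i' + 1))) ≤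
        640 * c * ∑ e ∈ inn G F (B.filter fun v => lab i v = a), d (G.src e) (G.tgt e) +
          920 * c * k * ∑ i' ∈ range i, r i' *
            #((B.filter fun v => lab i v = a).image (lab i')) := by
      intro a ha
      have hlab : ∀ t ∈ Gd ∩ B.filter fun v => lab i v = a, lab i t = a := fun t ht =>
        (mem_filter.1 (mem_inter.1 ht).2).2
      have hInv := ball_new hd (hr i) (s := s) (by nlinarith [hr i]) hI
        (filter_subset (fun v => lab i v = a) B) (J' := fun j => J' j a) (fun j => hJ1 j a)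
        (fun j => hJ2 j a) (Gd := Gd ∩ B.filter fun v => lab i v = a) inter_subset_right
        (fun t ht t' ht' hne => sep i t (mem_inter.1 (hG1 (mem_inter.1 ht).1)).1 t'
          (mem_inter.1 (hG1 (mem_inter.1 ht').1)).1 hne ((hlab t ht).trans (hlab t' ht').symm))
        (fun t ht j => by
          have := (hG2 t (mem_inter.1 ht).1).1 j
          rwa [hlab t ht] at this)
        fun t ht => by
          obtain ⟨v, hv, h1, h2⟩ := (hG2 t (mem_inter.1 ht).1).2
          exact ⟨v, mem_filter.2 ⟨hv, h1.trans (hlab t ht)⟩, h2⟩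
      have h := ih _ (isCls_filter hcl ha) (ι ⊕ V) _ _ hInv fun i' hi' => hi' ▸ hrr i'
      rwa [ext_card] at h
    have hsum := sum_le_sum hchild
    simp only [sum_add_distrib, ← mul_sum, mul_add] at hsum
    rw [sum_comm (s := B.image (lab i)) (t := range i), sum_comm (s := B.image (lab i))
      (t := range i), sum_comm (s := B.image (lab i)) (t := range i)] at hsum
    simp only [← mul_sum, sum_inter] at hsum
    have e1 : ∑ i' ∈ range i, r i' * ∑ a ∈ B.image (lab i),
        #((B.filter fun v => lab i v = a).image (lab (i' + 1)))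
        = ∑ i' ∈ range i, r i' * #(B.image (lab (i' + 1))) :=
      sum_congr rfl fun i' hi' => by
        rw [sum_image_card _ _ (nest_le nest (mem_range.1 hi'))]
    have e2 : ∑ i' ∈ range i, r i' * ∑ a ∈ B.image (lab i),
        #((B.filter fun v => lab i v = a).image (lab i'))
        = ∑ i' ∈ range i, r i' * #(B.image (lab i')) :=
      sum_congr rfl fun i' hi' => by
        rw [sum_image_card _ _ (nest_le nest (mem_range.1 hi').le)]
    have e3 : Gd ∩ B = Gd := inter_eq_left.2 (hG1.trans inter_subset_right)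
    rw [e1, e2, e3, ← mul_add, ← mul_add, ← mul_add] at hsum
    -- the settled cuts
    have hpay := hI.pay G hd (A := (inn G F B).filter fun e => lab i (G.src e) ≠ lab i (G.tgt e))
      (fun e he => (mem_filter.1 (mem_filter.1 he).1).2) hS1 (k := k) fun j x hx => by
        refine (cross G F (conn (i + 1)) hB (hI.S j x (hS1 j hx)).2).trans
          (card_le_card fun e he => ?_)
        rw [mem_inter] at he
        refine mem_inter.2 ⟨mem_filter.2 ⟨he.1, fun hl => hS2 j x hx (lab i (G.src e)) ?_⟩, he.2⟩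
        have h1 : G.src e ∈ B.filter fun v => lab i v = lab i (G.src e) :=
          mem_filter.2 ⟨(mem_filter.1 he.1).2.1, rfl⟩
        have h2 : G.tgt e ∈ B.filter fun v => lab i v = lab i (G.src e) :=
          mem_filter.2 ⟨(mem_filter.1 he.1).2.2, hl.symm⟩
        have h3 := he.2
        simp only [MG.cut, cutEdges, mem_filter, mem_univ, true_and] at h3
        by_cases h4 : d (C.b j) (G.src e) < x
        · exact ⟨_, h1, _, h2, h4, not_lt.1 fun h5 => by tauto⟩
        · exact ⟨_, h2, _, h1, by tauto, not_lt.1 h4⟩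
    rw [sum_range_succ, sum_range_succ, sum_range_succ, hB.card_image,
      ← sum_inn G F (lab i) B]
    exact arith (card_pos.2 (hB.1.image _)) hcount hpay hsum

end add

end Ball

open Ball

/-- The ball lemma. -/
theorem ball (G : MG V E) (F : Finset E) {Λ : Type} [DecidableEq Λ] {d : V → V → ℕ}
    (hd : PMet d) (lab : ℕ → V → Λ) (k c I : ℕ) (r ch : ℕ → ℕ) (N : ℕ → Finset V) (hc : 1 ≤ c)
    (hr : ∀ i, 1 ≤ r i) (hrr : ∀ i, 8 * c * r i ≤ r (i + 1))
    (nest : ∀ i u v, lab i u = lab i v → lab (i + 1) u = lab (i + 1) v)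
    (conn : ∀ i u v (S : Finset V), lab i u = lab i v → u ∈ S → v ∉ S →
      k ≤ #((F ∩ G.cut S).filter fun e => lab i (G.src e) = lab i u ∧ lab i (G.tgt e) = lab i u))
    (sep : ∀ i, ∀ t ∈ N i, ∀ t' ∈ N i, t ≠ t' → lab i t = lab i t' → 4 * r i < d t t')
    (mate : ∀ i, ∀ t ∈ N i, ∃ t' ∈ N i, lab (i + 1) t' = lab (i + 1) t ∧ lab i t' ≠ lab i t ∧
      d t t' ≤ 4 * c * r i)
    (hch : ∀ i, #(univ.image (lab i)) ≤ ch i + 1) :
    k * ∑ i ∈ range I, r i * #(N i) ≤
      1000 * c * (∑ e ∈ F, d (G.src e) (G.tgt e) + k * ∑ i ∈ range I, r i * ch i) := by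
  rcases isEmpty_or_nonempty V with hV | hV
  · have : ∀ i, N i = ∅ := fun i => eq_empty_of_isEmpty _
    simp [this]
  have hcls : ∀ a ∈ univ.image (lab I),
      k * ∑ i' ∈ range I, r i' * #(N i' ∩ univ.filter fun v => lab I v = a) +
        920 * c * k * ∑ i' ∈ range I, r i' *
          #((univ.filter fun v => lab I v = a).image (lab (i' + 1))) ≤
      640 * c * ∑ e ∈ inn G F (univ.filter fun v => lab I v = a), d (G.src e) (G.tgt e) +
        920 * c * k * ∑ i' ∈ range I, r i' *
          #((univ.filter fun v => lab I v = a).image (lab i')) := by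
    intro a ha
    have h := main G F hd lab k c r N hc hr hrr nest conn sep mate I _
      (isCls_filter (fun _ _ v _ => mem_univ v) ha) Empty
      ⟨Empty.elim, Empty.elim, Empty.elim⟩ (r I)
      ⟨fun j => j.elim, fun _ _ j => j.elim, fun j => j.elim, fun u _ v _ h => by
        simp only [univ_eq_empty, sum_empty]
        omega⟩ fun i' hi' => hi' ▸ hrr i'
    simpa only [univ_eq_empty, sum_empty, mul_zero, add_zero] using h
  have hsum := sum_le_sum hcls
  simp only [sum_add_distrib, ← mul_sum] at hsum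
  rw [sum_comm (s := univ.image (lab I)) (t := range I), sum_comm (s := univ.image (lab I))
    (t := range I), sum_comm (s := univ.image (lab I)) (t := range I)] at hsum
  simp only [← mul_sum, sum_inter, inter_univ] at hsum
  have e1 : ∑ i' ∈ range I, r i' ≤ ∑ i' ∈ range I, r i' * ∑ a ∈ univ.image (lab I),
      #((univ.filter fun v => lab I v = a).image (lab (i' + 1))) :=
    sum_le_sum fun i' hi' => by
      rw [sum_image_card _ _ (nest_le nest (mem_range.1 hi'))]
      exact Nat.le_mul_of_pos_right _ (card_pos.2 (univ_nonempty.image _))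
  have e2 : ∑ i' ∈ range I, r i' * ∑ a ∈ univ.image (lab I),
      #((univ.filter fun v => lab I v = a).image (lab i'))
      ≤ ∑ i' ∈ range I, r i' * ch i' + ∑ i' ∈ range I, r i' := by
    rw [← sum_add_distrib]
    refine sum_le_sum fun i' hi' => ?_
    rw [sum_image_card _ _ (nest_le nest (mem_range.1 hi').le), ← Nat.mul_succ]
    exact Nat.mul_le_mul_left _ (hch i')
  have e3 : ∑ a ∈ univ.image (lab I), ∑ e ∈ inn G F (univ.filter fun v => lab I v = a),
      d (G.src e) (G.tgt e) ≤ ∑ e ∈ F, d (G.src e) (G.tgt e) :=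
    (Nat.le_add_right _ _).trans ((sum_inn G F (lab I) univ _).le.trans
      (sum_le_sum_of_subset (filter_subset _ _)))
  have h1 := Nat.mul_le_mul_left (920 * c * k) e1
  have h2 := Nat.mul_le_mul_left (920 * c * k) e2
  have h3 := Nat.mul_le_mul_left (640 * c) e3
  nlinarith [Nat.zero_le (c * ∑ e ∈ F, d (G.src e) (G.tgt e)),
    Nat.zero_le (c * k * ∑ i' ∈ range I, r i' * ch i')]

end Crest.Agent.R37
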