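import Crest.Agent.R37.Defs

set_option autoImplicit false
set_option linter.unusedSectionVars false
open Finset Matrix Crest.CombinatoricsR.Multigraph
open scoped Classical

noncomputable section
namespace Crest.Agent.R37

namespace BallA

section count
variable {V : Type} {N : Finset V} {ρ : V → ℕ} {l K : ℕ}

/-- `t` lies in a heavy slot -/
def Hv (N : Finset V) (ρ : V → ℕ) (l K : ℕ) (t : V) : Prop :=
  K < #(N.filter fun u => ρ u / l = ρ t / l)

theorem light_one (hl : 0 < l) (m k : ℕ) {T : Finset V}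
    (hT : ∀ t ∈ T, t ∈ N ∧ ¬ Hv N ρ l K t ∧ m ≤ ρ t + k * l ∧ ρ t ≤ m + k * l) :
    #T ≤ K * (2 * k + 1) := by
  refine (card_le_mul_card_image_of_maps_to (f := fun t => ρ t / l)
    (t := Icc (m / l - k) (m / l + k)) (fun t ht => ?_) K fun σ _ => ?_).trans
    (Nat.mul_le_mul_left _ (by rw [Nat.card_Icc]; omega))
  · have h1 := Nat.div_le_div_right (c := l) (hT t ht).2.2.1
    have h2 := Nat.div_le_div_right (c := l) (hT t ht).2.2.2
    rw [Nat.add_mul_div_right _ _ hl] at h1 h2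
    exact mem_Icc.2 ⟨Nat.sub_le_iff_le_add.2 h1, h2⟩
  · rcases (T.filter fun t => ρ t / l = σ).eq_empty_or_nonempty with h | ⟨t, ht⟩
    · rw [h]; exact Nat.zero_le _
    · obtain ⟨ht1, rfl⟩ := mem_filter.1 ht
      exact (card_le_card (filter_subset_filter _ fun u hu => (hT u hu).1)).trans
        (not_lt.1 (hT t ht1).2.1)

theorem light_many (hl : 0 < l) {μ : Type} (M : Finset μ) (mk : μ → ℕ) (k : ℕ) {T : Finset V}
    (hT : ∀ t ∈ T, t ∈ N ∧ ¬ Hv N ρ l K t ∧ ∃ m ∈ M, mk m ≤ ρ t + k * l ∧ ρ t ≤ mk m + k * l) :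
    #T ≤ #M * (K * (2 * k + 1)) := by
  refine (card_le_card (t := M.biUnion fun m =>
    T.filter fun t => mk m ≤ ρ t + k * l ∧ ρ t ≤ mk m + k * l) fun t ht => ?_).trans
    (card_biUnion_le_card_mul _ _ _ fun m _ => light_one (N := N) (ρ := ρ) hl (mk m) k
      fun t ht => ?_)
  · obtain ⟨m, hm, h⟩ := (hT t ht).2.2
    exact mem_biUnion.2 ⟨m, hm, mem_filter.2 ⟨ht, h⟩⟩
  · obtain ⟨h1, h2⟩ := mem_filter.1 ht
    exact ⟨(hT t h1).1, (hT t h1).2.1, h2⟩

theorem loss_count (hl : 0 < l) (w : ℕ) {X : Finset ℕ} {S : Finset V}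
    (hX : ∀ x ∈ X, ∃ t ∈ N, Hv N ρ l K t ∧ x ≤ ρ t + w ∧ ρ t ≤ x + w)
    (hS : ∀ x ∈ X, ∀ t ∈ N, Hv N ρ l K t → x ≤ ρ t + (l + w) → ρ t ≤ x + (l + w) → t ∈ S) :
    K * #X ≤ (l + 2 * w) * #S := by
  set A := (N.filter fun t => Hv N ρ l K t ∧ ∃ x ∈ X, x ≤ ρ t + w ∧ ρ t ≤ x + w).image
    fun t => ρ t / l with hA
  have h1 : #X ≤ #A * (l + 2 * w) := by
    refine (card_le_card (t := A.biUnion fun σ => Ico (l * σ - w) (l * σ + l + w))
      fun x hx => ?_).trans (card_biUnion_le_card_mul _ _ _ fun σ _ => by rw [Nat.card_Ico]; omega)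
    obtain ⟨t, ht, h1, h2⟩ := hX x hx
    refine mem_biUnion.2 ⟨_, mem_image_of_mem _ (mem_filter.2 ⟨ht, h1, x, hx, h2⟩), ?_⟩
    have := Nat.div_add_mod (ρ t) l
    have := Nat.mod_lt (ρ t) hl
    rw [mem_Ico]
    omega
  have h2 : K * #A ≤ #S := by
    refine (mul_card_image_le_card_of_maps_to (f := fun t => ρ t / l)
      (s := S.filter fun t => ρ t / l ∈ A) (fun t ht => (mem_filter.1 ht).2) K
      fun σ hσ => ?_).trans (card_filter_le _ _)
    obtain ⟨t, ht, rfl⟩ := mem_image.1 hσ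
    obtain ⟨ht1, ht2, x, hx, h3⟩ := mem_filter.1 ht
    refine (le_of_lt ht2).trans (card_le_card fun u hu => ?_)
    obtain ⟨hu1, hu2⟩ := mem_filter.1 hu
    have := Nat.div_add_mod (ρ t) l
    have := Nat.mod_lt (ρ t) hl
    have h4 := Nat.div_add_mod (ρ u) l
    have := Nat.mod_lt (ρ u) hl
    rw [hu2] at h4
    exact mem_filter.2 ⟨mem_filter.2 ⟨hS x hx u hu1 (by rw [Hv, hu2]; exact ht2) (by omega)
      (by omega), hu2 ▸ hσ⟩, hu2⟩
  calc K * #X ≤ K * (#A * (l + 2 * w)) := Nat.mul_le_mul_left _ h1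
    _ = (l + 2 * w) * (K * #A) := by ring
    _ ≤ _ := Nat.mul_le_mul_left _ h2

theorem sum_card_le {ι α : Type} [Fintype ι] {S : ι → Finset α} {T : Finset α}
    (h1 : ∀ j, S j ⊆ T) (h2 : ∀ a j j', a ∈ S j → a ∈ S j' → j = j') : ∑ j, #(S j) ≤ #T := by
  rw [← card_biUnion fun j _ j' _ hne => disjoint_left.2 fun a ha ha' => hne (h2 a j j' ha ha')]
  exact card_le_card (biUnion_subset.2 fun j _ => h1 j)

end count

variable {V ι Λ : Type} [DecidableEq V] [Fintype ι] [DecidableEq Λ] {d : V → V → ℕ}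

theorem Near.mono {b t : V} {J J' : Finset ℕ} {s s' : ℕ} (h : Near d b J s t) (hJ : J ⊆ J')
    (hs : s ≤ s') : Near d b J' s' t := by
  obtain ⟨x, hx, h1, h2⟩ := h
  exact ⟨x, hJ hx, by omega, by omega⟩

theorem Splits.mono {b : V} {x : ℕ} {B B' : Finset V} (h : Splits d b x B) (hB : B ⊆ B') :
    Splits d b x B' := by
  obtain ⟨u, hu, v, hv, h1⟩ := h
  exact ⟨u, hB hu, v, hB hv, h1⟩

/-- Assignment of the radii `X ⊆ [0, R]` to children: two radii in different children are separated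
by the outer end of a split inner child. -/
theorem assign (b : V) (B : Finset V) (lab : V → Λ) (X : Finset ℕ) :
    ∃ J' : Λ → Finset ℕ, (∀ a, J' a ⊆ X) ∧
      (∀ a, ∀ x ∈ J' a, Splits d b x (B.filter fun v => lab v = a)) ∧
      #X ≤ #(X.filter fun x => ∀ a, ¬ Splits d b x (B.filter fun v => lab v = a))
        + ∑ a ∈ B.image lab, #(J' a) ∧
      ∀ a a', a ≠ a' → ∀ x ∈ J' a, ∀ x' ∈ J' a',
        (x ≤ (B.filter fun v => lab v = a).sup (d b) ∧ (B.filter fun v => lab v = a).sup (d b) < x') ∨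
        (x' ≤ (B.filter fun v => lab v = a').sup (d b) ∧
          (B.filter fun v => lab v = a').sup (d b) < x) := by
  obtain ⟨idx, hidx⟩ := Set.countable_iff_exists_injOn.1 (B.image lab).countable_toSet
  let lo : Λ → ℕ := fun a => sInf (d b '' (B.filter fun v => lab v = a))
  let pr : Λ → ℕ ×ₗ ℕ := fun a => toLex (lo a, idx a)
  have him : ∀ a x, Splits d b x (B.filter fun v => lab v = a) → a ∈ B.image lab :=
    fun a x ⟨u, hu, _⟩ => mem_image.2 ⟨u, mem_filter.1 hu⟩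
  have key : ∀ a a' x x', pr a < pr a' → Splits d b x (B.filter fun v => lab v = a) →
      Splits d b x' (B.filter fun v => lab v = a') →
      (∀ a'', Splits d b x' (B.filter fun v => lab v = a'') → pr a' ≤ pr a'') →
      x ≤ (B.filter fun v => lab v = a).sup (d b) ∧ (B.filter fun v => lab v = a).sup (d b) < x' := by
    rintro a a' x x' h ⟨u, hu, v, hv, -, h2⟩ ⟨u', hu', -, -, h3, -⟩ h4
    have h5 : lo a ≤ lo a' := Prod.Lex.monotone_fst _ _ h.le
    have h6 : lo a' ≤ d b u' := Nat.sInf_le ⟨u', hu', rfl⟩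
    obtain ⟨w, hw, e⟩ : lo a ∈ d b '' (B.filter fun v => lab v = a) := Nat.sInf_mem ⟨_, u, hu, rfl⟩
    refine ⟨h2.trans (le_sup hv), (Finset.sup_lt_iff (Nat.zero_lt_of_lt h3)).2 fun z hz =>
      not_le.1 fun hz' => (h4 a ⟨w, hw, z, hz, by omega, hz'⟩).not_gt h⟩
  refine ⟨fun a => X.filter fun x => Splits d b x (B.filter fun v => lab v = a) ∧
    ∀ a', Splits d b x (B.filter fun v => lab v = a') → pr a ≤ pr a',
    fun a => filter_subset _ _, fun a x hx => (mem_filter.1 hx).2.1, ?_,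
    fun a a' hne x hx x' hx' => ?_⟩
  · refine le_trans (card_le_card fun x hx => ?_)
      ((card_union_le _ _).trans (Nat.add_le_add_left card_biUnion_le _))
    rcases ((B.image lab).filter fun a =>
      Splits d b x (B.filter fun v => lab v = a)).eq_empty_or_nonempty with h | h
    · exact mem_union_left _ (mem_filter.2 ⟨hx, fun a ha =>
        filter_eq_empty_iff.1 h (him a x ha) ha⟩)
    · obtain ⟨a, ha, hmin⟩ := exists_min_image _ pr h
      exact mem_union_right _ (mem_biUnion.2 ⟨a, (mem_filter.1 ha).1, mem_filter.2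
        ⟨hx, (mem_filter.1 ha).2, fun a' ha' => hmin a' (mem_filter.2 ⟨him a' x ha', ha'⟩)⟩⟩)
  · obtain ⟨-, h1, h2⟩ := mem_filter.1 hx
    obtain ⟨-, h3, h4⟩ := mem_filter.1 hx'
    rcases lt_trichotomy (pr a) (pr a') with h | h | h
    · exact Or.inl (key a a' x x' h h1 h3 h4)
    · exact absurd (hidx (him a x h1) (him a' x' h3) (congrArg (fun p => (ofLex p).2) h)) hne
    · exact Or.inr (key a' a x' x h h3 h1 h2)

theorem arith {c r n j ls st jj g sf u ch : ℕ} (hc : 1 ≤ c) (h1 : j ≤ ls + (st + jj))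
    (h2 : 2 * ls ≤ r * sf) (h3 : n ≤ sf + u) (h4 : u ≤ 60 * c * sf + 100 * c * ch)
    (h5 : sf ≤ g + ch) (h6 : 2 ≤ ch ∨ (n = 0 ∧ sf = 0)) :
    r * n + 160 * c * j ≤ 160 * c * (st + jj + r * g) + 920 * c * r * (ch - 1) := by
  have a1 := Nat.mul_le_mul_left (160 * c) h1
  have a2 := Nat.mul_le_mul_left (80 * c) h2
  rcases h6 with h6 | ⟨rfl, rfl⟩
  · obtain ⟨e, rfl⟩ := Nat.exists_eq_add_of_le' h6
    have a3 := Nat.mul_le_mul_left r (h3.trans (Nat.add_le_add_left h4 _))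
    have a4 := Nat.mul_le_mul_left (141 * c * r) h5
    have a5 := Nat.mul_le_mul_right (r * sf) hc
    rw [show e + 2 - 1 = e + 1 from rfl]
    nlinarith [Nat.zero_le (c * r * g), Nat.zero_le (c * r * e), Nat.zero_le (c * r)]
  · nlinarith [Nat.zero_le (c * r * g), Nat.zero_le (920 * c * r * (ch - 1))]

end BallA

open BallA

variable {V ι Λ : Type} [DecidableEq V] [Fintype ι] [DecidableEq Λ] {d : V → V → ℕ}

/-- Passing the claims of a part `B` to its children (the fibres of `lab`). -/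
theorem ball_assign (hd : PMet d) {C : Claims ι V} {B : Finset V} {s c r : ℕ} (hc : 1 ≤ c)
    (hr : 1 ≤ r) (hs : 8 * c * r ≤ s) (hI : C.Inv d B s) (lab : V → Λ) {N : Finset V}
    (hN : N ⊆ B) (sep : ∀ t ∈ N, ∀ t' ∈ N, t ≠ t' → lab t = lab t' → 4 * r < d t t')
    (mate : ∀ t ∈ N, ∃ t' ∈ N, lab t' ≠ lab t ∧ d t t' ≤ 4 * c * r) :
    ∃ (J' : ι → Λ → Finset ℕ) (St : ι → Finset ℕ) (Gd : Finset V),
      (∀ j a, J' j a ⊆ C.J j) ∧
      (∀ j a, ∀ x ∈ J' j a, Splits d (C.b j) x (B.filter fun v => lab v = a)) ∧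
      (∀ j, St j ⊆ C.J j) ∧
      (∀ j, ∀ x ∈ St j, ∀ a, ¬ Splits d (C.b j) x (B.filter fun v => lab v = a)) ∧
      Gd ⊆ N ∧
      (∀ t ∈ Gd, (∀ j, ¬ Near d (C.b j) (J' j (lab t)) (3 * r) t) ∧
        ∃ v ∈ B, lab v = lab t ∧ r ≤ d t v) ∧
      r * #N + 160 * c * ∑ j, #(C.J j) ≤
        160 * c * (∑ j, #(St j) + ∑ a ∈ B.image lab, ∑ j, #(J' j a) + r * #Gd) +
          920 * c * r * (#(B.image lab) - 1) := by
  obtain ⟨l, hl⟩ : ∃ l, l = 4 * c * r := ⟨_, rfl⟩
  have hl4 : 4 * r ≤ l := by rw [hl]; nlinarith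
  have hls : 2 * l ≤ s := by rw [hl]; linarith
  have hl0 : 0 < l := by omega
  rw [← hl] at mate
  -- hollowing
  let Rm : ι → ℕ → Prop := fun j x => ∃ t ∈ N, Hv N (d (C.b j)) l (20 * c) t ∧
    x ≤ d (C.b j) t + 3 * r ∧ d (C.b j) t ≤ x + 3 * r
  choose J' p1 p2 p3 p4 using fun j =>
    assign (d := d) (C.b j) B lab ((C.J j).filter fun x => ¬ Rm j x)
  have q1 : ∀ j a, J' j a ⊆ C.J j := fun j a => (p1 j a).trans (filter_subset _ _)
  have light : ∀ j, ∀ t ∈ N, Near d (C.b j) (J' j (lab t)) (3 * r) t →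
      ¬ Hv N (d (C.b j)) l (20 * c) t := fun j t ht ⟨x, hx, h⟩ hv =>
    (mem_filter.1 (p1 j _ hx)).2 ⟨t, ht, hv, h⟩
  have uniq : ∀ j j', ∀ t ∈ N, Near d (C.b j) (C.J j) s t →
      Near d (C.b j') (J' j' (lab t)) (3 * r) t → j = j' := fun j j' t ht h h' =>
    hI.L t (hN ht) j j' h (Near.mono h' (q1 _ _) (by omega))
  let sf := N.filter fun t => ∀ j, ¬ Near d (C.b j) (J' j (lab t)) (3 * r) t
  let S : ι → Finset V := fun j => sf.filter fun t => Near d (C.b j) (C.J j) s t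
  let Cj : ι → Finset Λ := fun j => (B.image lab).filter fun a =>
    (B.filter fun v => lab v = a).sup (d (C.b j)) ≤ C.R j ∧
      ∃ x ∈ C.J j, Splits d (C.b j) x (B.filter fun v => lab v = a)
  let U : ι → Finset V := fun j => N.filter fun t => Near d (C.b j) (J' j (lab t)) (3 * r) t
  have hS : ∑ j, #(S j) ≤ #sf := sum_card_le (fun j => filter_subset _ _) fun t j j' h h' =>
    hI.L t (hN (filter_subset _ _ (mem_filter.1 h).1)) j j' (mem_filter.1 h).2 (mem_filter.1 h').2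
  have hC : ∑ j, #(Cj j) ≤ #(B.image lab) := by
    refine sum_card_le (fun j => filter_subset _ _) fun a j j' h h' => by_contra fun hne => ?_
    have aux : ∀ j j', a ∈ Cj j → a ∈ Cj j' → ¬ C.NoSplit d B j j' := fun j j' h h' hn => by
      obtain ⟨x, hx, h1⟩ := (mem_filter.1 h).2.2
      exact hn x hx (Splits.mono h1 fun v hv => mem_filter.2
        ⟨(mem_filter.1 hv).1, (le_sup hv).trans (mem_filter.1 h').2.1⟩)
    exact (hI.H j j' hne).elim (aux j j' h h') (aux j' j h' h)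
  have hloss : ∀ j, 2 * #((C.J j).filter (Rm j)) ≤ r * #(S j) := fun j => by
    have h := loss_count (N := N) (ρ := d (C.b j)) (K := 20 * c) hl0 (3 * r)
      (X := (C.J j).filter (Rm j)) (S := S j) (fun x hx => (mem_filter.1 hx).2)
      fun x hx t ht hv h1 h2 => by
        have hn : Near d (C.b j) (C.J j) s t := ⟨x, (mem_filter.1 hx).1, by omega, by omega⟩
        refine mem_filter.2 ⟨mem_filter.2 ⟨ht, fun j' h' => ?_⟩, hn⟩
        obtain rfl := uniq j j' t ht hn h'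
        exact light j t ht h' hv
    have h2 : l + 2 * (3 * r) ≤ 10 * c * r := by rw [hl]; nlinarith
    refine Nat.le_of_mul_le_mul_left (c := 10 * c) ?_ (by omega)
    linarith [Nat.mul_le_mul_right #(S j) h2]
  have hU : ∀ j, #(U j) ≤ 60 * c * #(S j) + 100 * c * #(Cj j) := fun j => by
    let P : V → Prop := fun t => ∃ t' ∈ S j, d (C.b j) t' ≤ d (C.b j) t + 1 * l ∧
      d (C.b j) t ≤ d (C.b j) t' + 1 * l
    have h1 := light_many (N := N) (ρ := d (C.b j)) (K := 20 * c) hl0 (S j) (d (C.b j)) 1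
      (T := (U j).filter P) fun t ht => by
        obtain ⟨h, h'⟩ := mem_filter.1 ht
        exact ⟨(mem_filter.1 h).1, light j t (mem_filter.1 h).1 (mem_filter.1 h).2, h'⟩
    have h2 := light_many (N := N) (ρ := d (C.b j)) (K := 20 * c) hl0 (Cj j)
      (fun a => (B.filter fun v => lab v = a).sup (d (C.b j))) 2
      (T := (U j).filter fun t => ¬ P t) fun t ht => by
        obtain ⟨h, h'⟩ := mem_filter.1 ht
        obtain ⟨htN, hn⟩ := mem_filter.1 h
        refine ⟨htN, light j t htN hn, ?_⟩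
        obtain ⟨x, hx, a1, a2⟩ := hn
        obtain ⟨t', ht', hne, hdd⟩ := mate t htN
        have b1 := hd.tri (C.b j) t t'
        have b2 := hd.tri (C.b j) t' t
        rw [hd.symm t' t] at b2
        have hn' : Near d (C.b j) (C.J j) s t' := ⟨x, q1 _ _ hx, by omega, by omega⟩
        obtain ⟨j', hj'⟩ : ∃ j', Near d (C.b j') (J' j' (lab t')) (3 * r) t' :=
          by_contra fun hh => h' ⟨t', mem_filter.2 ⟨mem_filter.2 ⟨ht', not_exists.1 hh⟩, hn'⟩,
            by omega, by omega⟩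
        obtain rfl := uniq j j' t' ht' hn' hj'
        obtain ⟨x', hx', a3, a4⟩ := hj'
        have c1 := (hI.S j x (q1 _ _ hx)).1
        have c2 := (hI.S j x' (q1 _ _ hx')).1
        rcases p4 j _ _ hne x' hx' x hx with ⟨e1, e2⟩ | ⟨e1, e2⟩
        · exact ⟨lab t', mem_filter.2 ⟨mem_image_of_mem _ (hN ht'), by omega, x', q1 _ _ hx',
            p2 _ _ _ hx'⟩, by omega, by omega⟩
        · exact ⟨lab t, mem_filter.2 ⟨mem_image_of_mem _ (hN htN), by omega, x, q1 _ _ hx,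
            p2 _ _ _ hx⟩, by omega, by omega⟩
    rw [← card_filter_add_card_filter_not (s := U j) P]
    linarith
  refine ⟨J', fun j => ((C.J j).filter fun x => ¬ Rm j x).filter fun x =>
      ∀ a, ¬ Splits d (C.b j) x (B.filter fun v => lab v = a),
    sf.filter fun t => ∃ v ∈ B, lab v = lab t ∧ r ≤ d t v, q1, p2,
    fun j => (filter_subset _ _).trans (filter_subset _ _), fun j x hx => (mem_filter.1 hx).2,
    (filter_subset _ _).trans (filter_subset _ _),
    fun t ht => ⟨(mem_filter.1 (mem_filter.1 ht).1).2, (mem_filter.1 ht).2⟩, ?_⟩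
  refine arith (ls := ∑ j, #((C.J j).filter (Rm j))) (sf := #sf) (u := ∑ j, #(U j)) hc
    ?_ ?_ ?_ ?_ ?_ ?_
  · rw [sum_comm, ← sum_add_distrib, ← sum_add_distrib]
    refine sum_le_sum fun j _ => ?_
    rw [← card_filter_add_card_filter_not (s := C.J j) (Rm j)]
    exact Nat.add_le_add_left (p3 j) _
  · rw [mul_sum]
    exact (sum_le_sum fun j _ => hloss j).trans
      ((mul_sum _ _ _).symm.trans_le (Nat.mul_le_mul_left _ hS))
  · refine le_trans (card_le_card fun t ht => ?_)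
      ((card_union_le _ _).trans (Nat.add_le_add_left card_biUnion_le _))
    rcases Classical.em (∃ j, Near d (C.b j) (J' j (lab t)) (3 * r) t) with ⟨j, h⟩ | h
    · exact mem_union_right _ (mem_biUnion.2 ⟨j, mem_univ _, mem_filter.2 ⟨ht, h⟩⟩)
    · exact mem_union_left _ (mem_filter.2 ⟨ht, not_exists.1 h⟩)
  · refine (sum_le_sum fun j _ => hU j).trans ?_
    rw [sum_add_distrib, ← mul_sum, ← mul_sum]
    exact Nat.add_le_add (Nat.mul_le_mul_left _ hS) (Nat.mul_le_mul_left _ hC)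
  · rw [← card_filter_add_card_filter_not (s := sf) fun t => ∃ v ∈ B, lab v = lab t ∧ r ≤ d t v]
    refine Nat.add_le_add_left (card_le_card_of_injOn lab (fun t ht => ?_)
      fun t ht t' ht' e => by_contra fun hne => ?_) _
    · exact mem_image_of_mem _ (hN (filter_subset _ _ (mem_filter.1 ht).1))
    · have h1 := filter_subset _ _ (mem_filter.1 ht).1
      have h2 := filter_subset _ _ (mem_filter.1 ht').1
      have h3 := sep t h1 t' h2 hne e
      exact (mem_filter.1 ht).2 ⟨t', hN h2, e.symm, by omega⟩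
  · rcases N.eq_empty_or_nonempty with h | ⟨t, ht⟩
    · exact Or.inr ⟨card_eq_zero.2 h, card_eq_zero.2 (subset_empty.1 (h ▸ filter_subset _ _))⟩
    · obtain ⟨t', ht', hne, -⟩ := mate t ht
      exact Or.inl (one_lt_card.2 ⟨_, mem_image_of_mem _ (hN ht'), _,
        mem_image_of_mem _ (hN ht), hne⟩)

end Crest.Agent.R37
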