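import Crest.Agent.R37.Defs

set_option autoImplicit false
set_option linter.unusedSectionVars false
open Finset Matrix Crest.CombinatoricsR.Multigraph
open scoped Classical

noncomputable section
namespace Crest.Agent.R37
namespace MG
variable {V E : Type} [Fintype V] [DecidableEq V] [Fintype E] [DecidableEq E] (G : MG V E)

theorem conn_refl (A : Finset E) (u : V) : G.Conn A u u := SimpleGraph.Reachable.refl u

theorem Conn.symm {G : MG V E} {A : Finset E} {u v : V} (h : G.Conn A u v) : G.Conn A v u :=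
  SimpleGraph.Reachable.symm h

theorem Conn.trans {G : MG V E} {A : Finset E} {u v w : V} (h : G.Conn A u v)
    (h' : G.Conn A v w) : G.Conn A u w := SimpleGraph.Reachable.trans h h'

theorem Conn.mono {G : MG V E} {A B : Finset E} {u v : V} (h : G.Conn A u v) (hAB : A ⊆ B) :
    G.Conn B u v :=
  SimpleGraph.Reachable.mono (G := adjGraph G.src G.tgt A) (G' := adjGraph G.src G.tgt B)
    (fun _ _ hab => ⟨hab.1, hab.2.imp fun _ he => ⟨hAB he.1, he.2⟩⟩) h

theorem conn_of_mem {A : Finset E} {e : E} (he : e ∈ A) : G.Conn A (G.src e) (G.tgt e) :=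
  SimpleGraph.Adj.reachable (G := adjGraph G.src G.tgt A) ⟨G.ne e, e, he, Or.inl ⟨rfl, rfl⟩⟩

/-- Induction along a path. -/
theorem Conn.PC_ind {G : MG V E} {A : Finset E} {u v : V} (h : G.Conn A u v) {P : V → Prop}
    (hs : ∀ e ∈ A, (P (G.src e) ↔ P (G.tgt e))) (h0 : P u) : P v := by
  rw [Conn, SimpleGraph.reachable_iff_reflTransGen] at h
  induction h with
  | refl => exact h0
  | tail _ hbc ih =>
    obtain ⟨-, e, he, ⟨rfl, rfl⟩ | ⟨rfl, rfl⟩⟩ := hbc
    · exact (hs e he).1 ih
    · exact (hs e he).2 ih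

/-- Induction along a path: a set closed under the edges of `A` is a union of components. -/
theorem Conn.mem_of_closed {G : MG V E} {A : Finset E} {u v : V} (h : G.Conn A u v) {S : Finset V}
    (hS : ∀ e ∈ A, e ∉ G.cut S) (hu : u ∈ S) : v ∈ S := by
  refine h.PC_ind (P := fun w => w ∈ S) (fun e he => ?_) hu
  have := hS e he
  simp only [cut, cutEdges, mem_filter, mem_univ, true_and] at this
  tauto

theorem not_conn_empty {u v : V} (h : u ≠ v) : ¬ G.Conn ∅ u v := fun hc =>
  h (hc.PC_ind (P := fun w => u = w) (fun e he => absurd he (notMem_empty e)) rfl)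

theorem PC_mem_comp {A : Finset E} {u v : V} : v ∈ G.comp A u ↔ G.Conn A u v := by
  simp [comp]

theorem comp_eq_iff {A : Finset E} {u v : V} : G.comp A u = G.comp A v ↔ G.Conn A u v := by
  constructor
  · intro h
    rw [← PC_mem_comp, h, PC_mem_comp]
    exact G.conn_refl A v
  · intro h
    ext w
    rw [PC_mem_comp, PC_mem_comp]
    exact ⟨h.symm.trans, h.trans⟩

theorem mem_cut {S : Finset V} {e : E} :
    e ∈ G.cut S ↔ (G.src e ∈ S ∧ G.tgt e ∉ S) ∨ (G.src e ∉ S ∧ G.tgt e ∈ S) := by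
  simp [cut, cutEdges]

theorem cut_compl (S : Finset V) : G.cut Sᶜ = G.cut S := by
  ext e
  simp only [mem_cut, mem_compl]
  tauto

theorem cutEdges_eq (F : Finset E) (S : Finset V) : cutEdges G.src G.tgt F S = F ∩ G.cut S := by
  ext e
  simp [cut, cutEdges]

theorem PC_biUnion {A B : Finset E} (h : A ⊆ B) (u : V) :
    (G.comp A u).biUnion (G.comp B) = G.comp B u := by
  ext w
  simp only [mem_biUnion, PC_mem_comp]
  exact ⟨fun ⟨a, h1, h2⟩ => (h1.mono h).trans h2, fun h1 => ⟨u, G.conn_refl A u, h1⟩⟩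

theorem PC_image {A B : Finset E} (h : A ⊆ B) :
    (univ.image (G.comp A)).image (fun S => S.biUnion (G.comp B)) = univ.image (G.comp B) := by
  rw [image_image]
  exact image_congr fun u _ => G.PC_biUnion h u

theorem PC_lt {A B : Finset E} (h : A ⊆ B) {u v : V} (hB : G.Conn B u v) (hA : ¬ G.Conn A u v) :
    G.ncomp B < G.ncomp A := by
  rw [ncomp, ← G.PC_image h]
  refine lt_of_le_of_ne card_image_le fun he => hA ?_
  have := card_image_iff.1 he (mem_coe.2 (mem_image_of_mem _ (mem_univ u)))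
    (mem_coe.2 (mem_image_of_mem _ (mem_univ v)))
  refine G.comp_eq_iff.1 (this ?_)
  simp only [G.PC_biUnion h]
  exact G.comp_eq_iff.2 hB

theorem PC_conn_insert {A : Finset E} {e : E} {u v : V} (h : G.Conn (insert e A) u v) :
    G.Conn A u v ∨ (G.Conn A u (G.src e) ∧ G.Conn A (G.tgt e) v) ∨
      (G.Conn A u (G.tgt e) ∧ G.Conn A (G.src e) v) := by
  refine h.PC_ind (P := fun v => G.Conn A u v ∨ (G.Conn A u (G.src e) ∧ G.Conn A (G.tgt e) v) ∨
      (G.Conn A u (G.tgt e) ∧ G.Conn A (G.src e) v)) (fun f hf => ?_) (Or.inl (G.conn_refl A u))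
  rcases mem_insert.1 hf with rfl | hf
  · constructor
    · rintro (h | ⟨h, -⟩ | ⟨h, -⟩)
      · exact Or.inr (Or.inl ⟨h, G.conn_refl _ _⟩)
      · exact Or.inr (Or.inl ⟨h, G.conn_refl _ _⟩)
      · exact Or.inl h
    · rintro (h | ⟨h, -⟩ | ⟨h, -⟩)
      · exact Or.inr (Or.inr ⟨h, G.conn_refl _ _⟩)
      · exact Or.inl h
      · exact Or.inr (Or.inr ⟨h, G.conn_refl _ _⟩)
  · have hc := G.conn_of_mem hf
    constructor
    · rintro (h | ⟨h, h'⟩ | ⟨h, h'⟩)
      · exact Or.inl (h.trans hc)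
      · exact Or.inr (Or.inl ⟨h, h'.trans hc⟩)
      · exact Or.inr (Or.inr ⟨h, h'.trans hc⟩)
    · rintro (h | ⟨h, h'⟩ | ⟨h, h'⟩)
      · exact Or.inl (h.trans hc.symm)
      · exact Or.inr (Or.inl ⟨h, h'.trans hc.symm⟩)
      · exact Or.inr (Or.inr ⟨h, h'.trans hc.symm⟩)

theorem PC_le_insert (A : Finset E) (e : E) : G.ncomp A ≤ G.ncomp (insert e A) + 1 := by
  have h1 : #((univ.image (G.comp A)).erase (G.comp A (G.tgt e))) ≤ G.ncomp (insert e A) := by
    refine card_le_card_of_injOn (fun S => S.biUnion (G.comp (insert e A))) ?_ ?_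
    · intro S hS
      rw [← G.PC_image (subset_insert e A)]
      exact mem_coe.2 (mem_image_of_mem _ (mem_of_mem_erase (mem_coe.1 hS)))
    · intro S hS T hT hST
      obtain ⟨hS1, hS2⟩ := mem_erase.1 (mem_coe.1 hS)
      obtain ⟨hT1, hT2⟩ := mem_erase.1 (mem_coe.1 hT)
      obtain ⟨u, -, rfl⟩ := mem_image.1 hS2
      obtain ⟨v, -, rfl⟩ := mem_image.1 hT2
      simp only [G.PC_biUnion (subset_insert e A)] at hST
      rcases G.PC_conn_insert (G.comp_eq_iff.1 hST) with h | h | h
      · exact G.comp_eq_iff.2 h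
      · exact absurd (G.comp_eq_iff.2 h.2.symm) hT1
      · exact absurd (G.comp_eq_iff.2 h.1) hS1
  rw [card_erase_of_mem (mem_image_of_mem _ (mem_univ _))] at h1
  unfold ncomp at *
  omega

theorem ncomp_anti {A B : Finset E} (h : A ⊆ B) : G.ncomp B ≤ G.ncomp A := by
  rw [ncomp, ← G.PC_image h]
  exact card_image_le

theorem ncomp_pos [Nonempty V] (A : Finset E) : 1 ≤ G.ncomp A :=
  card_pos.2 (univ_nonempty.image _)

theorem ncomp_le_one_iff {A : Finset E} : G.ncomp A ≤ 1 ↔ ∀ u v, G.Conn A u v := by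
  rw [ncomp, card_le_one]
  constructor
  · intro h u v
    exact G.comp_eq_iff.1
      (h _ (mem_image_of_mem _ (mem_univ u)) _ (mem_image_of_mem _ (mem_univ v)))
  · intro h S hS T hT
    obtain ⟨u, -, rfl⟩ := mem_image.1 hS
    obtain ⟨v, -, rfl⟩ := mem_image.1 hT
    exact G.comp_eq_iff.2 (h u v)

theorem ncomp_empty : G.ncomp ∅ = Fintype.card V := by
  rw [ncomp, card_image_of_injective, card_univ]
  intro u v h
  by_contra hne
  exact G.not_conn_empty hne (G.comp_eq_iff.1 h)

theorem ncomp_insert_of_conn {A : Finset E} {e : E} (h : G.Conn A (G.src e) (G.tgt e)) :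
    G.ncomp (insert e A) = G.ncomp A := by
  have : G.comp (insert e A) = G.comp A := by
    funext u
    ext v
    rw [PC_mem_comp, PC_mem_comp]
    refine ⟨fun hc => ?_, fun hc => hc.mono (subset_insert e A)⟩
    rcases G.PC_conn_insert hc with h1 | h1 | h1
    · exact h1
    · exact (h1.1.trans h).trans h1.2
    · exact (h1.1.trans h.symm).trans h1.2
  rw [ncomp, this, ncomp]

theorem ncomp_insert_of_not_conn {A : Finset E} {e : E} (h : ¬ G.Conn A (G.src e) (G.tgt e)) :
    G.ncomp (insert e A) + 1 = G.ncomp A :=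
  le_antisymm (G.PC_lt (subset_insert e A) (G.conn_of_mem (mem_insert_self e A)) h)
    (G.PC_le_insert A e)

theorem ncomp_le_add (A B : Finset E) : G.ncomp A ≤ G.ncomp (A ∪ B) + #(B \ A) := by
  rw [← union_sdiff_self_eq_union]
  induction B \ A using Finset.induction_on with
  | empty => simp
  | insert e D he ih =>
    rw [union_insert, card_insert_of_notMem he]
    have := G.PC_le_insert (A ∪ D) e
    omega

theorem PC_diminish {A B : Finset E} (h : A ⊆ B) (D : Finset E) :
    G.ncomp (A ∪ D) + G.ncomp B ≤ G.ncomp (B ∪ D) + G.ncomp A := by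
  induction D using Finset.induction_on with
  | empty => simp [add_comm]
  | insert e D he ih =>
    rw [union_insert, union_insert]
    by_cases hc : G.Conn (A ∪ D) (G.src e) (G.tgt e)
    · rw [G.ncomp_insert_of_conn hc,
        G.ncomp_insert_of_conn (hc.mono (union_subset_union_left h))]
      exact ih
    · have h1 := G.ncomp_insert_of_not_conn hc
      have h2 := G.PC_le_insert (B ∪ D) e
      omega

theorem ncomp_supermod (A B : Finset E) :
    G.ncomp A + G.ncomp B ≤ G.ncomp (A ∪ B) + G.ncomp (A ∩ B) := by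
  have := G.PC_diminish (inter_subset_right : A ∩ B ⊆ B) A
  rwa [union_eq_right.2 inter_subset_left, union_comm B A] at this

theorem PC_sum_compl {A B : Finset E} (h : A ⊆ B) (y : E → ℕ) :
    ∑ e ∈ Aᶜ, y e = ∑ e ∈ Bᶜ, y e + ∑ e ∈ B \ A, y e := by
  rw [← sum_union (disjoint_left.2 fun e h1 h2 => mem_compl.1 h1 (mem_sdiff.1 h2).1)]
  congr 1
  ext e
  have := @h e
  simp only [mem_compl, mem_union, mem_sdiff]
  tauto

theorem PC_val_super (k : ℕ) {y y' : E → ℕ} (h : y ≤ y') (A B : Finset E) :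
    G.val k y A + G.val k y' B ≤ G.val k y' (A ∪ B) + G.val k y (A ∩ B) := by
  have h1 := PC_sum_compl (subset_union_right : B ⊆ A ∪ B) y'
  have h2 := PC_sum_compl (inter_subset_left : A ∩ B ⊆ A) y
  rw [union_sdiff_right] at h1
  rw [sdiff_inter_self_left] at h2
  have h3 : ∑ e ∈ A \ B, y e ≤ ∑ e ∈ A \ B, y' e := sum_le_sum fun e _ => h e
  have h4 := Nat.mul_le_mul_left k (G.ncomp_supermod A B)
  rw [mul_add, mul_add] at h4
  unfold val
  omega

theorem PC_val_add (k : ℕ) (y z : E → ℕ) (A : Finset E) :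
    G.val k (y + z) A = G.val k y A - (∑ e ∈ Aᶜ, z e : ℕ) := by
  unfold val
  simp only [Pi.add_apply, sum_add_distrib]
  omega

theorem val_le_df (k : ℕ) (y : E → ℕ) (A : Finset E) : G.val k y A ≤ G.df k y :=
  le_sup' (G.val k y) (mem_univ A)

theorem pc_iff_df {k : ℕ} {y : E → ℕ} : G.PC k y ↔ G.df k y ≤ k := by
  rw [df, sup'_le_iff]
  refine ⟨fun h A _ => ?_, fun h A => ?_⟩
  · have := h A
    unfold val
    omega
  · have := h A (mem_univ A)
    unfold val at this
    omega

theorem PC_union_max {k : ℕ} {y : E → ℕ} {A B : Finset E} (hA : G.val k y A = G.df k y)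
    (hB : G.val k y B = G.df k y) : G.val k y (A ∪ B) = G.df k y := by
  have h1 := G.PC_val_super k (le_refl y) A B
  have h2 := G.val_le_df k y (A ∪ B)
  have h3 := G.val_le_df k y (A ∩ B)
  omega

theorem val_Astar (k : ℕ) (y : E → ℕ) : G.val k y (G.Astar k y) = G.df k y := by
  obtain ⟨A0, -, h0⟩ := exists_mem_eq_sup' (univ_nonempty (α := Finset E)) (G.val k y)
  have h0' : G.val k y A0 = G.df k y := h0.symm
  have h1 : G.val k y (A0 ∪ G.Astar k y) = G.df k y := by
    refine Finset.sup_induction (p := fun S => G.val k y (A0 ∪ S) = G.df k y) (by simpa using h0')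
      (fun S hS T hT => ?_) fun A hA => G.PC_union_max h0' (mem_filter.1 hA).2
    have := G.PC_union_max hS hT
    rwa [← union_union_distrib_left] at this
  have h2 : A0 ⊆ G.Astar k y := le_sup (f := id) (mem_filter.2 ⟨mem_univ A0, h0'⟩)
  rwa [union_eq_right.2 h2] at h1

theorem subset_Astar {k : ℕ} {y : E → ℕ} {A : Finset E} (h : G.val k y A = G.df k y) :
    A ⊆ G.Astar k y := le_sup (f := id) (mem_filter.2 ⟨mem_univ A, h⟩)

theorem mem_Astar {k : ℕ} {y : E → ℕ} {e : E} : e ∈ G.Astar k y ↔ G.Sp k y e := by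
  refine ⟨G.conn_of_mem, fun h => G.subset_Astar (A := insert e (G.Astar k y)) ?_
    (mem_insert_self _ _)⟩
  refine le_antisymm (G.val_le_df _ _ _) ?_
  have h1 := PC_sum_compl (subset_insert e (G.Astar k y)) y
  rw [← G.val_Astar, val, val, G.ncomp_insert_of_conn h]
  omega

theorem Astar_mono (k : ℕ) {y y' : E → ℕ} (h : y ≤ y') : G.Astar k y ⊆ G.Astar k y' := by
  refine subset_union_left.trans (G.subset_Astar (A := G.Astar k y ∪ G.Astar k y') ?_)
  have h1 := G.PC_val_super k h (G.Astar k y) (G.Astar k y')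
  have h2 := G.val_le_df k y' (G.Astar k y ∪ G.Astar k y')
  have h3 := G.val_le_df k y (G.Astar k y ∩ G.Astar k y')
  rw [G.val_Astar, G.val_Astar] at h1
  omega

theorem Sp.mono {G : MG V E} {k : ℕ} {y y' : E → ℕ} {e : E} (h : G.Sp k y e) (hy : y ≤ y') :
    G.Sp k y' e := Conn.mono h (G.Astar_mono k hy)

theorem ind_mono {F F' : Finset E} (h : F ⊆ F') : ind F ≤ ind F' := fun e => by
  unfold ind
  by_cases he : e ∈ F
  · simp [he, h he]
  · simp [he]

theorem sum_ind (F A : Finset E) : ∑ e ∈ A, ind F e = #(F ∩ A) := by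
  simp [ind, inter_comm]

/-- Adding weight on spanned edges changes nothing. -/
theorem add_of_sp {k : ℕ} {y z : E → ℕ} (h : ∀ e, 0 < z e → G.Sp k y e) :
    G.df k (y + z) = G.df k y ∧ G.Astar k (y + z) = G.Astar k y := by
  have h1 : ∑ e ∈ (G.Astar k y)ᶜ, z e = 0 := sum_eq_zero fun e he => by
    by_contra h0
    exact mem_compl.1 he (G.mem_Astar.2 (h e (Nat.pos_of_ne_zero h0)))
  have h2 := G.PC_val_add k y z (G.Astar k y)
  have h3 := G.PC_val_add k y z (G.Astar k (y + z))
  have h4 := G.val_le_df k (y + z) (G.Astar k y)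
  have h5 := G.val_le_df k y (G.Astar k (y + z))
  rw [G.val_Astar] at h2 h3
  refine ⟨by omega, Subset.antisymm (G.subset_Astar (by omega))
    (G.Astar_mono k (le_add_of_nonneg_right fun _ => Nat.zero_le _))⟩

theorem sp_iff_df {k : ℕ} {y : E → ℕ} {e : E} :
    G.Sp k y e ↔ G.df k (y + Pi.single e 1) = G.df k y := by
  refine ⟨fun h => (G.add_of_sp fun f hf => ?_).1, fun h => ?_⟩
  · by_cases hfe : f = e
    · rwa [hfe]
    · simp [hfe] at hf
  · have h3 := G.PC_val_add k y (Pi.single e 1) (G.Astar k (y + Pi.single e 1))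
    have h5 := G.val_le_df k y (G.Astar k (y + Pi.single e 1))
    rw [G.val_Astar] at h3
    refine G.mem_Astar.1 (G.subset_Astar (A := G.Astar k (y + Pi.single e 1)) (by omega) ?_)
    by_contra he
    have h6 := single_le_sum (f := (Pi.single e 1 : E → ℕ)) (fun _ _ => Nat.zero_le _)
      (mem_compl.2 he)
    rw [Pi.single_eq_same] at h6
    omega

theorem not_sp_zero {k : ℕ} (hk : 1 ≤ k) (e : E) : ¬ G.Sp k 0 e := by
  intro h
  have h1 := G.ncomp_anti (singleton_subset_iff.2 (G.mem_Astar.2 h))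
  have h2 := G.ncomp_insert_of_not_conn (G.not_conn_empty (G.ne e))
  have h3 := G.val_le_df k 0 ∅
  rw [← G.val_Astar, val, val] at h3
  simp only [Pi.zero_apply, sum_const_zero, Nat.cast_zero, sub_zero, Nat.cast_le] at h3
  have h4 := Nat.le_of_mul_le_mul_left h3 hk
  rw [insert_empty_eq] at h2
  omega

/-- Every component of `Astar` is `k`-edge-connected by the weight inside it. -/
theorem conn_inside {k : ℕ} {y : E → ℕ} {u v : V} (h : G.Conn (G.Astar k y) u v) {S : Finset V}
    (hu : u ∈ S) (hv : v ∉ S) :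
    k ≤ ∑ e ∈ (G.cut S).filter (fun e => G.Conn (G.Astar k y) u (G.src e) ∧
      G.Conn (G.Astar k y) u (G.tgt e)), y e := by
  set A := G.Astar k y with hA
  have h1 : ¬ G.Conn (A \ G.cut (S ∩ G.comp A u)) u v := fun hc =>
    hv (mem_inter.1 (hc.mem_of_closed (S := S ∩ G.comp A u) (fun e he => (mem_sdiff.1 he).2)
      (mem_inter.2 ⟨hu, G.PC_mem_comp.2 (G.conn_refl A u)⟩))).1
  have h2 := Nat.mul_le_mul_left k (Nat.succ_le_of_lt (G.PC_lt sdiff_subset h h1))
  have h3 := G.val_le_df k y (A \ G.cut (S ∩ G.comp A u))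
  have h4 := PC_sum_compl (sdiff_subset : A \ G.cut (S ∩ G.comp A u) ⊆ A) y
  rw [← G.val_Astar, ← hA, val, val] at h3
  rw [Nat.mul_succ] at h2
  refine le_trans (by omega : k ≤ ∑ e ∈ A \ (A \ G.cut (S ∩ G.comp A u)), y e)
    (sum_le_sum_of_subset fun e he => ?_)
  rw [sdiff_sdiff_self_left, mem_inter, mem_cut] at he
  have hc := G.conn_of_mem he.1
  simp only [mem_inter, PC_mem_comp] at he
  rw [mem_filter, mem_cut]
  rcases he.2 with ⟨⟨a1, a2⟩, a3⟩ | ⟨a3, a1, a2⟩
  · exact ⟨Or.inl ⟨a1, fun a4 => a3 ⟨a4, a2.trans hc⟩⟩, a2, a2.trans hc⟩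
  · exact ⟨Or.inr ⟨fun a4 => a3 ⟨a4, a2.trans hc.symm⟩, a1⟩, a2.trans hc.symm, a2⟩

theorem cross_le [Nonempty V] (k : ℕ) (y : E → ℕ) :
    ∑ e ∈ (G.Astar k y)ᶜ, y e + k ≤ k * G.ncomp (G.Astar k y) := by
  have h1 := G.val_le_df k y univ
  have h2 := Nat.mul_le_mul_left k (G.ncomp_pos univ)
  rw [← G.val_Astar, val, val, compl_univ, sum_empty] at h1
  omega

theorem slack {k σ : ℕ} {F F' : Finset E} (h : G.PC (k + σ) (ind F)) (hF : F' ⊆ F) :
    σ * (G.ncomp (G.Astar k (ind F')) - 1) ≤ #(F \ F') := by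
  rcases isEmpty_or_nonempty V with hV | hV
  · simp [ncomp]
  have h1 := h (G.Astar k (ind F'))
  have h2 := G.cross_le k (ind F')
  rw [sum_ind] at h1 h2
  have h3 : #(F ∩ (G.Astar k (ind F'))ᶜ) ≤ #(F' ∩ (G.Astar k (ind F'))ᶜ) + #(F \ F') := by
    refine le_trans (card_le_card fun e he => ?_) (card_union_le _ _)
    simp only [mem_inter, mem_union, mem_sdiff] at he ⊢
    tauto
  rw [add_mul] at h1
  rw [Nat.mul_sub_one]
  omega

theorem pc_of_cut {k : ℕ} {y : E → ℕ}
    (h : ∀ S : Finset V, S.Nonempty → S ≠ univ → 2 * k ≤ ∑ e ∈ G.cut S, y e) : G.PC k y := by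
  intro A
  by_cases h1 : G.ncomp A ≤ 1
  · have := Nat.mul_le_mul_left k h1
    omega
  have h2 : ∀ S ∈ univ.image (G.comp A),
      2 * k ≤ ∑ e ∈ Aᶜ, if e ∈ G.cut S then y e else 0 := by
    intro S hS
    obtain ⟨u, -, rfl⟩ := mem_image.1 hS
    have hu : ∀ v, G.comp A u = univ → G.Conn A u v := fun v hv =>
      G.PC_mem_comp.1 (hv ▸ mem_univ v)
    refine (h _ ⟨u, G.PC_mem_comp.2 (G.conn_refl A u)⟩ fun hv =>
      h1 (G.ncomp_le_one_iff.2 fun a b => (hu a hv).symm.trans (hu b hv))).trans ?_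
    rw [← sum_filter]
    refine sum_le_sum_of_subset fun e he => mem_filter.2 ⟨mem_compl.2 fun heA => ?_, he⟩
    have hc := G.conn_of_mem heA
    rw [mem_cut] at he
    simp only [PC_mem_comp] at he
    rcases he with ⟨a1, a2⟩ | ⟨a2, a1⟩
    · exact a2 (a1.trans hc)
    · exact a2 (a1.trans hc.symm)
  have h3 := sum_le_sum h2
  rw [sum_const, smul_eq_mul, sum_comm] at h3
  have h4 : ∀ e ∈ Aᶜ, (∑ S ∈ univ.image (G.comp A), if e ∈ G.cut S then y e else 0) ≤
      2 * y e := by
    intro e _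
    rw [← sum_filter, sum_const, smul_eq_mul]
    refine Nat.mul_le_mul_right _ (le_trans (card_le_card
      (t := {G.comp A (G.src e), G.comp A (G.tgt e)}) fun S hS => ?_) card_le_two)
    obtain ⟨hS1, hS2⟩ := mem_filter.1 hS
    obtain ⟨u, -, rfl⟩ := mem_image.1 hS1
    rw [mem_cut] at hS2
    simp only [PC_mem_comp] at hS2
    rw [mem_insert, mem_singleton, comp_eq_iff, comp_eq_iff]
    tauto
  have h5 := h3.trans (sum_le_sum h4)
  rw [← mul_sum, mul_comm, mul_assoc] at h5
  unfold ncomp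
  omega

theorem PC.mono {G : MG V E} {k k' : ℕ} {y y' : E → ℕ} (h : G.PC k y) (hk : k' ≤ k)
    (hy : y ≤ y') : G.PC k' y' := by
  intro A
  have h1 := h A
  have h2 : ∑ e ∈ Aᶜ, y e ≤ ∑ e ∈ Aᶜ, y' e := sum_le_sum fun e _ => hy e
  rcases hc : G.ncomp A with _ | c
  · simp
  · have h3 := Nat.mul_le_mul_right c hk
    rw [hc, Nat.mul_succ] at h1
    rw [Nat.mul_succ]
    omega

theorem PC.conn {G : MG V E} {k : ℕ} {F : Finset E} (h : G.PC k (ind F)) (hk : 1 ≤ k) (u v : V) :
    G.Conn F u v := by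
  have h1 := h F
  rw [sum_ind, inter_compl, card_empty, zero_add] at h1
  exact G.ncomp_le_one_iff.1 (Nat.le_of_mul_le_mul_left (by simpa using h1) hk) u v

theorem PC.conn_univ {G : MG V E} {k : ℕ} {y : E → ℕ} (h : G.PC k y) (hk : 1 ≤ k) (u v : V) :
    G.Conn univ u v := by
  have h1 := h univ
  rw [compl_univ, sum_empty, zero_add] at h1
  exact G.ncomp_le_one_iff.1 (Nat.le_of_mul_le_mul_left (by simpa using h1) hk) u v

theorem pc_one_iff {F : Finset E} : G.PC 1 (ind F) ↔ ∀ u v, G.Conn F u v := by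
  refine ⟨fun h => h.conn le_rfl, fun h A => ?_⟩
  have h1 := G.ncomp_le_add A F
  have h2 : G.ncomp (A ∪ F) ≤ 1 :=
    G.ncomp_le_one_iff.2 fun u v => (h u v).mono subset_union_right
  rw [sum_ind, ← sdiff_eq_inter_compl]
  omega

theorem pc_smul {k N : ℕ} (hN : 0 < N) {y : E → ℕ} :
    G.PC (k * N) (fun e => N * y e) ↔ G.PC k y := by
  refine forall_congr' fun A => ?_
  rw [← mul_sum, mul_comm k N, mul_assoc, ← mul_add]
  exact Nat.mul_le_mul_left_iff hN

/-- Edges spanned by strictly shorter edges may all be deleted at once. -/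
theorem pc_delete {k : ℕ} {F X : Finset E} {L : E → ℕ} (h : G.PC k (ind F)) (hX : X ⊆ F)
    (hsp : ∀ e ∈ X, G.Sp k (ind (F.filter fun f => L f < L e)) e) : G.PC k (ind (F \ X)) := by
  have key : ∀ t : ℕ,
      G.df k (ind (F.filter fun f => L f < t)) = G.df k (ind ((F \ X).filter fun f => L f < t)) ∧
      G.Astar k (ind (F.filter fun f => L f < t)) =
        G.Astar k (ind ((F \ X).filter fun f => L f < t)) := by
    intro t
    induction t with
    | zero => simp
    | succ t ih =>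
      have e1 : ind (F.filter fun f => L f < t + 1) =
          ind ((F \ X).filter fun f => L f < t + 1) + ind (X.filter fun f => L f < t + 1) := by
        funext e
        have := @hX e
        by_cases h1 : e ∈ X <;> by_cases h2 : e ∈ F <;> by_cases h3 : L e < t + 1 <;>
          simp_all [ind]
      rw [e1]
      refine G.add_of_sp fun e he => ?_
      have he' : e ∈ X.filter fun f => L f < t + 1 := by
        by_contra h0
        simp only [ind, if_neg h0, lt_irrefl] at he
      obtain ⟨h1, h2⟩ := mem_filter.1 he'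
      have h3 : G.Sp k (ind (F.filter fun f => L f < t)) e :=
        (hsp e h1).mono (ind_mono (monotone_filter_right _ fun f _ hf => by omega))
      rw [Sp, ih.2] at h3
      exact Sp.mono h3 (ind_mono (monotone_filter_right _ fun f _ hf => by omega))
  have h1 := (key (univ.sup L + 1)).1
  have h2 : ∀ f, L f < univ.sup L + 1 := fun f => Nat.lt_succ_of_le (le_sup (mem_univ f))
  rw [filter_true_of_mem fun f _ => h2 f, filter_true_of_mem fun f _ => h2 f] at h1
  rw [pc_iff_df] at h ⊢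
  rwa [← h1]

/-- In a connected graph every proper cut is nonempty. -/
theorem cut_nonempty (hc : ∀ u v, G.Conn univ u v) {S : Finset V} (h : S.Nonempty)
    (h' : S ≠ univ) : (G.cut S).Nonempty := by
  by_contra h0
  rw [not_nonempty_iff_eq_empty] at h0
  obtain ⟨u, hu⟩ := h
  exact h' (eq_univ_of_forall fun v =>
    (hc u v).mem_of_closed (fun e _ => by rw [h0]; exact notMem_empty e) hu)

theorem PC_forest (A : Finset E) : (∃ e ∈ A, G.Conn (A.erase e) (G.src e) (G.tgt e)) ∨
    G.ncomp A + #A = Fintype.card V := by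
  induction A using Finset.induction_on with
  | empty => exact Or.inr (by simp [ncomp_empty])
  | insert e A he ih =>
    by_cases hc : G.Conn A (G.src e) (G.tgt e)
    · exact Or.inl ⟨e, mem_insert_self _ _, by rwa [erase_insert he]⟩
    rcases ih with ⟨f, hf, h⟩ | h
    · exact Or.inl ⟨f, mem_insert_of_mem hf, h.mono (erase_subset_erase f (subset_insert e A))⟩
    · have := G.ncomp_insert_of_not_conn hc
      rw [card_insert_of_notMem he]
      exact Or.inr (by omega)

/-- A connected edge set with at least `n` edges has a redundant edge. -/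
theorem exists_erase_conn {A : Finset E} (hc : ∀ u v, G.Conn A u v) (hn : 1 ≤ Fintype.card V)
    (hA : Fintype.card V ≤ #A) : ∃ e ∈ A, ∀ u v, G.Conn (A.erase e) u v := by
  have : Nonempty V := Fintype.card_pos_iff.1 hn
  rcases G.PC_forest A with ⟨e, he, h⟩ | h
  · refine ⟨e, he, G.ncomp_le_one_iff.1 ?_⟩
    rw [← G.ncomp_insert_of_conn h, insert_erase he]
    exact G.ncomp_le_one_iff.2 hc
  · have := G.ncomp_pos A
    omega

theorem card_le_of_conn {A : Finset E} (hc : ∀ u v, G.Conn A u v) : Fintype.card V ≤ #A + 1 := by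
  have h1 := G.ncomp_le_add ∅ A
  rw [ncomp_empty, empty_union, sdiff_empty] at h1
  have h2 := G.ncomp_le_one_iff.2 hc
  omega

end MG
end Crest.Agent.R37
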