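import Crest.Agent.R37.Enc
import Crest.Agent.R37.PC

set_option autoImplicit false
open Finset Matrix Crest.CombinatoricsR.Multigraph
open Crest.Agent.Lib.PolyTime
open scoped Classical

noncomputable section
namespace Crest.Agent.R37

/-- The edges `(i, j)`, `i < j`, each repeated `μ i j` times. -/
def edgeList {n : ℕ} (μ : Fin n → Fin n → ℕ) : List (Fin n × Fin n) :=
  (List.finRange n).flatMap fun i => (List.finRange n).flatMap fun j =>
    if i < j then List.replicate (μ i j) (i, j) else []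

theorem mem_edgeList {n : ℕ} {μ : Fin n → Fin n → ℕ} {p : Fin n × Fin n} :
    p ∈ edgeList μ ↔ p.1 < p.2 ∧ 1 ≤ μ p.1 p.2 := by
  obtain ⟨a, b⟩ := p
  simp only [edgeList, List.mem_flatMap, List.mem_finRange, true_and]
  constructor
  · rintro ⟨i, j, h⟩
    split_ifs at h with hij
    · obtain ⟨h1, h2⟩ := List.mem_replicate.1 h
      obtain ⟨rfl, rfl⟩ := Prod.mk.inj h2
      exact ⟨hij, Nat.one_le_iff_ne_zero.2 h1⟩
    · simp at h
  · rintro ⟨h1, h2⟩
    refine ⟨a, b, ?_⟩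
    rw [if_pos h1]
    exact List.mem_replicate.2 ⟨Nat.one_le_iff_ne_zero.1 h2, rfl⟩

theorem Build_sum_flatMap {β γ : Type} (l : List β) (g : β → List γ) (f : γ → ℕ) :
    ((l.flatMap g).map f).sum = (l.map fun b => ((g b).map f).sum).sum := by
  induction l with
  | nil => rfl
  | cons x xs ih => simp [ih]

theorem Build_sum_edgeList {n : ℕ} (μ : Fin n → Fin n → ℕ) (f : Fin n × Fin n → ℕ) :
    ∑ e : Fin (edgeList μ).length, f ((edgeList μ).get e) =
      ∑ i, ∑ j, if i < j then μ i j * f (i, j) else 0 := by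
  have h1 : ∑ e : Fin (edgeList μ).length, f ((edgeList μ).get e) = ((edgeList μ).map f).sum := by
    rw [← List.sum_ofFn]
    congr 1
    apply List.ext_getElem <;> simp
  rw [h1, edgeList, Build_sum_flatMap, ← List.ofFn_eq_map, List.sum_ofFn]
  refine sum_congr rfl fun i _ => ?_
  rw [Build_sum_flatMap, ← List.ofFn_eq_map, List.sum_ofFn]
  refine sum_congr rfl fun j _ => ?_
  split_ifs <;> simp

/-- The multigraph of a table of multiplicities. -/
def ofMult {n : ℕ} (μ : Fin n → Fin n → ℕ) : MG (Fin n) (Fin (edgeList μ).length) where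
  src e := ((edgeList μ).get e).1
  tgt e := ((edgeList μ).get e).2
  ne e := (mem_edgeList.1 (List.get_mem _ e)).1.ne

theorem card_cut_ofMult {n : ℕ} {μ : Fin n → Fin n → ℕ} (hs : ∀ i j, μ i j = μ j i)
    (S : Finset (Fin n)) : #((ofMult μ).cut S) = ∑ i ∈ S, ∑ j ∈ Sᶜ, μ i j := by
  have h1 := Build_sum_edgeList μ
    (fun p => if (p.1 ∈ S ∧ p.2 ∉ S) ∨ (p.1 ∉ S ∧ p.2 ∈ S) then 1 else 0)
  have h2 : #((ofMult μ).cut S) = ∑ e : Fin (edgeList μ).length,
      if (((edgeList μ).get e).1 ∈ S ∧ ((edgeList μ).get e).2 ∉ S) ∨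
        (((edgeList μ).get e).1 ∉ S ∧ ((edgeList μ).get e).2 ∈ S) then 1 else 0 := by
    rw [MG.cut, cutEdges, card_filter]
    rfl
  have h3 : ∑ i ∈ S, ∑ j ∈ Sᶜ, μ i j = ∑ i, ∑ j, if i ∈ S ∧ j ∉ S then μ i j else 0 := by
    rw [sum_mem_eq]
    refine sum_congr rfl fun i _ => ?_
    rw [sum_mem_eq]
    by_cases hi : i ∈ S <;> simp [hi]
  have h4 : ∑ i, ∑ j, (if i ∈ S ∧ j ∉ S then μ i j else 0) =
      ∑ i, ∑ j, (if i < j then (if i ∈ S ∧ j ∉ S then μ i j else 0) else 0) +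
      ∑ i, ∑ j, (if j < i then (if i ∈ S ∧ j ∉ S then μ i j else 0) else 0) := by
    rw [← sum_add_distrib]
    refine sum_congr rfl fun i _ => ?_
    rw [← sum_add_distrib]
    refine sum_congr rfl fun j _ => ?_
    rcases lt_trichotomy i j with h | rfl | h
    · simp [h, h.not_gt]
    · simp
    · simp [h, h.not_gt]
  rw [h2, h1, h3, h4, sum_comm (f := fun i j => if j < i then _ else 0), ← sum_add_distrib]
  refine sum_congr rfl fun i _ => ?_
  rw [← sum_add_distrib]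
  refine sum_congr rfl fun j _ => ?_
  by_cases hij : i < j <;> by_cases hi : i ∈ S <;> by_cases hj : j ∈ S <;>
    simp [hij, hi, hj, hs j i]

theorem PG.ofMult {α : Type} [PEnc α] {n : α → ℕ} (hn : Poly n) (hb : PB n)
    {μ : ∀ a, Fin (n a) → Fin (n a) → ℕ} (hμ : DP μ) {B : α → ℕ} (hB : PB B)
    (hle : ∀ a i j, μ a i j ≤ B a) : PG fun a => ofMult (μ a) := by
  obtain ⟨L, hL, eL⟩ := hμ.ent₂
  obtain ⟨K, hK, hKb, hBK⟩ := hB.exists_clock
  have h1 : Poly fun a => (List.range (n a)).flatMap fun i => (List.range (n a)).flatMap fun j =>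
      if i < j then List.replicate (min (L a i j) (K a)) (i, j) else [] := by
    refine (hn.range hb).flatMap (f := fun a i => (List.range (n a)).flatMap fun j =>
      if i < j then List.replicate (min (L a i j) (K a)) (i, j) else []) ?_
    refine ((hn.comp Poly.id'.fst).range (hb.comp Poly.id'.fst)).flatMap
      (f := fun (p : α × ℕ) j =>
        if p.2 < j then List.replicate (min (L p.1 p.2 j) (K p.1)) (p.2, j) else []) ?_
    refine Poly.ite (by fun_prop) (Poly.replicate (by fun_prop) ?_ (by fun_prop)) (by fun_prop)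
    exact (hKb.comp Poly.id'.fst.fst).mono fun _ => min_le_right _ _
  have h2 : Poly fun a => (edgeList (μ a)).map fun p => ((p.1 : ℕ), (p.2 : ℕ)) := by
    refine h1.congr fun a => ?_
    rw [edgeList, List.map_flatMap, ← List.map_coe_finRange_eq_range, List.flatMap_map]
    refine List.flatMap_congr fun i _ => ?_
    rw [List.map_flatMap, List.flatMap_map]
    refine List.flatMap_congr fun j _ => ?_
    rw [← eL, min_eq_left ((hle a i j).trans (hBK a))]
    by_cases hij : i < j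
    · simp [hij]
    · simp [hij]
  refine ⟨hn, hb, h2.length.congr fun a => by simp, (PB.length h2).mono fun a => by simp, ?_, ?_⟩
  · refine (h2.map (f := fun _ p => p.1) (by fun_prop)).enc'.congr fun a => ?_
    have : List.ofFn (R37.ofMult (μ a)).src = (edgeList (μ a)).map fun p => p.1 := by
      apply List.ext_getElem <;> simp [R37.ofMult]
    rw [enc_fun, this, List.map_map]
    exact enc_map_congr fun _ _ => rfl
  · refine (h2.map (f := fun _ p => p.2) (by fun_prop)).enc'.congr fun a => ?_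
    have : List.ofFn (R37.ofMult (μ a)).tgt = (edgeList (μ a)).map fun p => p.2 := by
      apply List.ext_getElem <;> simp [R37.ofMult]
    rw [enc_fun, this, List.map_map]
    exact enc_map_congr fun _ _ => rfl

/-- The reduced multiplicities. -/
def redMult {n : ℕ} (k : ℕ) (μ : Fin n → Fin n → ℕ) : Fin n → Fin n → ℕ :=
  fun i j => min (μ i j) k * (2 * n ^ 2) / k

theorem redMult_le {n : ℕ} (k : ℕ) (μ : Fin n → Fin n → ℕ) (i j : Fin n) :
    redMult k μ i j ≤ 2 * n ^ 2 :=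
  Nat.div_le_of_le_mul (Nat.mul_le_mul_right _ (min_le_right _ _))

theorem Build_symm {n : ℕ} (k : ℕ) {μ : Fin n → Fin n → ℕ} (hs : ∀ i j, μ i j = μ j i) (i j : Fin n) :
    redMult k μ i j = redMult k μ j i := by
  unfold redMult
  rw [hs i j]

theorem Build_upper {n : ℕ} (k : ℕ) (μ : Fin n → Fin n → ℕ) (i j : Fin n) :
    k * redMult k μ i j ≤ 2 * n ^ 2 * μ i j :=
  (Nat.mul_div_le _ _).trans ((Nat.mul_le_mul_right _ (min_le_left _ _)).trans (mul_comm _ _).le)

theorem Build_lower {n k : ℕ} (hk : 1 ≤ k) (μ : Fin n → Fin n → ℕ) (i j : Fin n) :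
    2 * n ^ 2 * min (μ i j) k ≤ k * (redMult k μ i j + 1) :=
  (mul_comm _ _).le.trans (Nat.lt_mul_div_succ _ hk).le

theorem pc_redMult {n k : ℕ} (hk : 1 ≤ k) {μ : Fin n → Fin n → ℕ} (hs : ∀ i j, μ i j = μ j i)
    (h : ∀ S : Finset (Fin n), S.Nonempty → S ≠ univ → k ≤ ∑ i ∈ S, ∑ j ∈ Sᶜ, μ i j) :
    (ofMult (redMult k μ)).PC (n ^ 2 / 2) (ind univ) := by
  refine MG.pc_of_cut _ fun S h1 h2 => ?_
  rw [MG.sum_ind, univ_inter, card_cut_ofMult (Build_symm k hs)]
  have h3 : k ≤ ∑ i ∈ S, ∑ j ∈ Sᶜ, min (μ i j) k := by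
    by_cases h4 : ∀ i ∈ S, ∀ j ∈ Sᶜ, μ i j ≤ k
    · refine (h S h1 h2).trans (sum_le_sum fun i hi => sum_le_sum fun j hj => ?_)
      rw [min_eq_left (h4 i hi j hj)]
    · push Not at h4
      obtain ⟨i, hi, j, hj, h4⟩ := h4
      refine le_trans ?_ (single_le_sum (f := fun i => ∑ j ∈ Sᶜ, min (μ i j) k)
        (fun _ _ => Nat.zero_le _) hi)
      refine le_trans ?_ (single_le_sum (f := fun j => min (μ i j) k)
        (fun _ _ => Nat.zero_le _) hj)
      rw [min_eq_right h4.le]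
  have h4 : 2 * n ^ 2 * ∑ i ∈ S, ∑ j ∈ Sᶜ, min (μ i j) k ≤
      k * ∑ i ∈ S, ∑ j ∈ Sᶜ, (redMult k μ i j + 1) := by
    simp only [mul_sum]
    exact sum_le_sum fun i _ => sum_le_sum fun j _ => Build_lower hk μ i j
  have h5 : 2 * n ^ 2 ≤ ∑ i ∈ S, ∑ j ∈ Sᶜ, (redMult k μ i j + 1) :=
    Nat.le_of_mul_le_mul_left ((mul_comm _ _).le.trans ((Nat.mul_le_mul_left _ h3).trans h4)) hk
  simp only [sum_add_distrib, sum_const, smul_eq_mul, mul_one] at h5
  have h6 : #S * #Sᶜ ≤ n ^ 2 := by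
    rw [sq]
    exact Nat.mul_le_mul (by simpa using card_le_univ S) (by simpa using card_le_univ Sᶜ)
  omega

/-- From a thin tree of the reduced multigraph to the statement about pairs. -/
theorem pairs_of_tree {n k : ℕ} (hn : 2 ≤ n) (hk : 1 ≤ k) {μ : Fin n → Fin n → ℕ}
    (hs : ∀ i j, μ i j = μ j i) {C : ℝ} (hC : 0 < C)
    {T : Finset (Fin (edgeList (redMult k μ)).length)} (h₁ : #T + 1 = n)
    (h₂ : ∀ u v, (ofMult (redMult k μ)).Conn T u v)
    (h₃ : ∀ S : Finset (Fin n), S.Nonempty → S ≠ univ →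
      (#(T ∩ (ofMult (redMult k μ)).cut S) : ℝ) ≤
        C / (n ^ 2 / 2 : ℕ) * #((ofMult (redMult k μ)).cut S))
    {T' : Finset (Fin n × Fin n)}
    (hT' : ∀ p, p ∈ T' ↔ ∃ e ∈ T, (ofMult (redMult k μ)).src e = p.1 ∧
      (ofMult (redMult k μ)).tgt e = p.2) :
    (∀ p ∈ T', p.1 < p.2 ∧ 1 ≤ μ p.1 p.2) ∧ T'.card + 1 = n ∧
      (adjGraph Prod.fst Prod.snd T').Connected ∧
      ∀ S : Finset (Fin n), S.Nonempty → S ≠ Finset.univ →
        ((cutEdges Prod.fst Prod.snd T' S).card : ℝ) ≤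
          6 * C / k * ((∑ i ∈ S, ∑ j ∈ Sᶜ, μ i j : ℕ) : ℝ) := by
  have hcut := card_cut_ofMult (Build_symm k hs)
  have hmem : ∀ e, ((ofMult (redMult k μ)).src e, (ofMult (redMult k μ)).tgt e) ∈
      edgeList (redMult k μ) := fun e => List.get_mem _ e
  generalize ofMult (redMult k μ) = G at h₂ h₃ hT' hcut hmem
  have hT : T' = T.image fun e => (G.src e, G.tgt e) := by
    ext p
    simp only [hT', mem_image, Prod.ext_iff]
  have hadj : ∀ T₀ : Finset (Fin (edgeList (redMult k μ)).length),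
      (T₀.image fun e => (G.src e, G.tgt e)) = T' →
      adjGraph G.src G.tgt T₀ = adjGraph Prod.fst Prod.snd T' := by
    rintro T₀ rfl
    ext u v
    simp [adjGraph]
  refine ⟨fun p hp => ?_, ?_, ?_, fun S h1 h2 => ?_⟩
  · obtain ⟨e, -, e1, e2⟩ := (hT' p).1 hp
    obtain ⟨h1, h2⟩ := mem_edgeList.1 (hmem e)
    rw [e1, e2] at h1 h2
    refine ⟨h1, Nat.one_le_iff_ne_zero.2 fun h0 => ?_⟩
    simp [redMult, h0] at h2
  · obtain ⟨T₀, -, h4, h5⟩ := exists_subset_injOn_image_eq_of_surjOn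
      (f := fun e => (G.src e, G.tgt e)) (T : Set (Fin (edgeList (redMult k μ)).length)) T'
      (by rw [hT, coe_image]; exact Set.surjOn_image _ _)
    have h6 : n ≤ #T₀ + 1 := by
      have := G.card_le_of_conn (A := T₀) fun u v => by
        have := h₂ u v
        rwa [MG.Conn, hadj T hT.symm, ← hadj T₀ h5] at this
      simpa using this
    have h7 : #T' = #T₀ := by rw [← h5, card_image_of_injOn h4]
    have h8 : #T' ≤ #T := hT ▸ card_image_le
    omega
  · have : Nonempty (Fin n) := ⟨⟨0, by omega⟩⟩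
    rw [← hadj T hT.symm]
    exact ⟨h₂⟩
  · have h4 : #(cutEdges Prod.fst Prod.snd T' S) ≤ #(T ∩ G.cut S) := by
      refine le_trans (card_le_card (t := (T ∩ G.cut S).image fun e => (G.src e, G.tgt e))
        fun p hp => ?_) card_image_le
      obtain ⟨h5, h6⟩ := mem_filter.1 hp
      obtain ⟨e, he, e1, e2⟩ := (hT' p).1 h5
      refine mem_image.2 ⟨e, mem_inter.2 ⟨he, G.mem_cut.2 ?_⟩, Prod.ext e1 e2⟩
      rwa [e1, e2]
    have h5 : k * ∑ i ∈ S, ∑ j ∈ Sᶜ, redMult k μ i j ≤ 2 * n ^ 2 * ∑ i ∈ S, ∑ j ∈ Sᶜ, μ i j := by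
      simp only [mul_sum]
      exact sum_le_sum fun i _ => sum_le_sum fun j _ => Build_upper k μ i j
    have h6 : 4 ≤ n ^ 2 := by nlinarith
    have h7 : k * #(G.cut S) ≤ 6 * (n ^ 2 / 2) * ∑ i ∈ S, ∑ j ∈ Sᶜ, μ i j := by
      rw [hcut]
      exact h5.trans (Nat.mul_le_mul_right _ (by omega))
    have h8 : (0 : ℝ) < (n ^ 2 / 2 : ℕ) := by exact_mod_cast (by omega : 0 < n ^ 2 / 2)
    have h9 : (0 : ℝ) < k := by exact_mod_cast hk
    refine (Nat.cast_le.2 h4).trans ((h₃ S h1 h2).trans ?_)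
    generalize n ^ 2 / 2 = q at h7 h8
    generalize ∑ i ∈ S, ∑ j ∈ Sᶜ, μ i j = M at h7
    have h10 : (k : ℝ) * #(G.cut S) ≤ 6 * q * M := by exact_mod_cast h7
    rw [div_mul_eq_mul_div, div_mul_eq_mul_div, div_le_div_iff₀ h8 h9]
    nlinarith

end Crest.Agent.R37
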