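import Crest.Agent.R37.PC

set_option autoImplicit false
set_option linter.unusedSectionVars false
open Finset Matrix Crest.CombinatoricsR.Multigraph
open scoped Classical

noncomputable section
namespace Crest.Agent.R37
variable {V E : Type} [Fintype V] [DecidableEq V] [Fintype E] [DecidableEq E]

/-- Leverage scores of a subspace. -/
theorem Cert_lev {J : Type} [Fintype J] (W : Submodule ℝ (EuclideanSpace ℝ J)) :
    ∃ lev : J → ℝ, (∀ i, 0 ≤ lev i) ∧ ∑ i, lev i = Module.finrank ℝ W ∧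
      ∀ x ∈ W, ∀ i, x i ^ 2 ≤ lev i * ∑ j, x j ^ 2 := by
  let w := stdOrthonormalBasis ℝ W
  refine ⟨fun i => ∑ k, (w k : EuclideanSpace ℝ J) i ^ 2,
    fun i => sum_nonneg fun _ _ => sq_nonneg _, ?_, fun x hx i => ?_⟩
  · rw [sum_comm]
    have h : ∀ k, ∑ i, (w k : EuclideanSpace ℝ J) i ^ 2 = 1 := fun k => by
      rw [← EuclideanSpace.real_norm_sq_eq, ← Submodule.coe_norm, w.orthonormal.1 k, one_pow]
    simp [h]
  · have h1 : x i = ∑ k, (w k : EuclideanSpace ℝ J) i * inner ℝ (w k) (⟨x, hx⟩ : W) := by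
      have := congrArg (fun y : W => (y : EuclideanSpace ℝ J) i) (w.sum_repr' ⟨x, hx⟩)
      simp only [Submodule.coe_sum, Submodule.coe_smul, WithLp.ofLp_sum, WithLp.ofLp_smul,
        Finset.sum_apply, Pi.smul_apply, smul_eq_mul] at this
      rw [← this]
      exact sum_congr rfl fun k _ => mul_comm _ _
    have h2 := w.sum_sq_inner_right ⟨x, hx⟩
    rw [Submodule.coe_norm, EuclideanSpace.real_norm_sq_eq] at h2
    rw [h1, ← h2]
    exact sum_mul_sq_le_sq_mul_sq _ _ _

/-- Foster's bound: the weighted effective resistances sum to at most the number of terminals. -/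
theorem foster {I : Type} (s : Finset I) (a b : I → V) (N : Finset V)
    (hN : ∀ i ∈ s, a i ∈ N ∧ b i ∈ N) (M : I → ℝ) (hM : ∀ i ∈ s, 0 ≤ M i) :
    ∃ ρ : I → ℝ, (∀ i, 0 ≤ ρ i) ∧ ∑ i ∈ s, M i * ρ i ≤ #N ∧
      ∀ i ∈ s, 0 < M i → ∀ z : V → ℝ,
        (z (a i) - z (b i)) ^ 2 ≤ ρ i * ∑ j ∈ s, M j * (z (a j) - z (b j)) ^ 2 := by
  let T : (N → ℝ) →ₗ[ℝ] EuclideanSpace ℝ s :=
    { toFun := fun y => WithLp.toLp 2 fun i =>
        √(M i) * (y ⟨a i, (hN i i.2).1⟩ - y ⟨b i, (hN i i.2).2⟩)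
      map_add' := fun y y' => by ext i; simp; ring
      map_smul' := fun c y => by ext i; simp; ring }
  obtain ⟨lev, h0, h1, h2⟩ := Cert_lev (LinearMap.range T)
  refine ⟨fun i => if h : i ∈ s then lev ⟨i, h⟩ / M i else 0, fun i => ?_, ?_, fun i hi hp z => ?_⟩
  · beta_reduce
    split_ifs with h
    · exact div_nonneg (h0 _) (hM i h)
    · exact le_rfl
  · have h3 : (Module.finrank ℝ (LinearMap.range T) : ℝ) ≤ #N := by
      have := LinearMap.finrank_range_le T
      rw [Module.finrank_fintype_fun_eq_card, Fintype.card_coe] at this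
      exact_mod_cast this
    rw [← sum_coe_sort s]
    refine le_trans (sum_le_sum fun i _ => ?_) (h1.le.trans h3)
    beta_reduce
    rw [dif_pos i.2]
    by_cases h : M i = 0
    · rw [h, zero_mul]
      exact h0 _
    · rw [mul_div_cancel₀ _ h]
  · have h3 := h2 (T fun v => z v) ⟨_, rfl⟩ ⟨i, hi⟩
    have h4 : ∀ j : s, (T fun v => z v) j ^ 2 = M j * (z (a j) - z (b j)) ^ 2 := fun j => by
      change (√(M j) * (z (a j) - z (b j))) ^ 2 = _
      rw [mul_pow, Real.sq_sqrt (hM j j.2)]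
    simp only [h4] at h3
    rw [sum_coe_sort s fun j => M j * (z (a j) - z (b j)) ^ 2] at h3
    beta_reduce
    rw [dif_pos hi, div_mul_eq_mul_div, le_div_iff₀' hp]
    exact h3

namespace MG
variable {G : MG V E}

/-- Edge walks with their lengths. -/
inductive CertW (G : MG V E) (L : E → ℕ) : V → V → ℕ → Prop
  | refl (u : V) : CertW G L u u 0
  | fwd (e : E) {u : V} {n : ℕ} : CertW G L (G.tgt e) u n → CertW G L (G.src e) u (L e + n)
  | bwd (e : E) {u : V} {n : ℕ} : CertW G L (G.src e) u n → CertW G L (G.tgt e) u (L e + n)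

omit [Fintype V] [DecidableEq V] [Fintype E] [DecidableEq E] in
theorem CertW.trans {L : E → ℕ} {u v w : V} {n m : ℕ} (h : CertW G L u v n)
    (h' : CertW G L v w m) : CertW G L u w (n + m) := by
  induction h with
  | refl u => simpa using h'
  | fwd e _ ih => rw [add_assoc]; exact .fwd e (ih h')
  | bwd e _ ih => rw [add_assoc]; exact .bwd e (ih h')

omit [Fintype V] [DecidableEq V] [Fintype E] [DecidableEq E] in
theorem CertW.symm {L : E → ℕ} {u v : V} {n : ℕ} (h : CertW G L u v n) : CertW G L v u n := by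
  induction h with
  | refl u => exact .refl u
  | fwd e _ ih => rw [add_comm]; exact ih.trans (.bwd e (.refl _))
  | bwd e _ ih => rw [add_comm]; exact ih.trans (.fwd e (.refl _))

omit [Fintype V] [DecidableEq V] [Fintype E] [DecidableEq E] in
theorem CertW.le {L : E → ℕ} {u v : V} {n : ℕ} (h : CertW G L u v n) {φ : V → ℝ}
    (hφ : G.Feas (fun e => L e) φ) : φ v - φ u ≤ n := by
  induction h with
  | refl u => simp
  | fwd e _ ih =>
    have := (abs_le.1 (hφ e)).1
    simp only [dz] at this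
    push_cast
    linarith
  | bwd e _ ih =>
    have := (abs_le.1 (hφ e)).2
    simp only [dz] at this
    push_cast
    linarith

omit [Fintype V] [DecidableEq V] [Fintype E] [DecidableEq E] in
theorem CertW.ex {A : Finset E} (L : E → ℕ) {u v : V} (h : G.Conn A u v) :
    ∃ n, CertW G L u v n := by
  obtain ⟨p⟩ := h
  induction p with
  | nil => exact ⟨0, .refl _⟩
  | cons h _ ih =>
    obtain ⟨n, hn⟩ := ih
    obtain ⟨-, e, -, ⟨rfl, rfl⟩ | ⟨rfl, rfl⟩⟩ := h
    · exact ⟨_, .fwd e hn⟩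
    · exact ⟨_, .bwd e hn⟩

/-- The shortest path metric. -/
theorem exists_metric (hc : ∀ u v, G.Conn univ u v) (L : E → ℕ) :
    ∃ d : V → V → ℕ, PMet d ∧ (∀ e, d (G.src e) (G.tgt e) ≤ L e) ∧
      ∀ φ : V → ℝ, G.Feas (fun e => L e) φ → ∀ u v, φ v - φ u ≤ d u v := by
  have hm : ∀ u v, CertW G L u v (sInf {n | CertW G L u v n}) := fun u v =>
    Nat.sInf_mem (s := {n | CertW G L u v n}) (CertW.ex L (hc u v))
  have hle : ∀ {u v n}, CertW G L u v n → sInf {n | CertW G L u v n} ≤ n := fun h => Nat.sInf_le h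
  refine ⟨fun u v => sInf {n | CertW G L u v n}, ⟨fun u => Nat.le_zero.1 (hle (.refl u)),
    fun u v => le_antisymm (hle (hm v u).symm) (hle (hm u v).symm),
    fun u v w => hle ((hm u v).trans (hm v w))⟩, fun e => hle (.fwd e (.refl _)),
    fun φ hφ u v => (hm u v).le hφ⟩

theorem cert_zero : G.Cert 0 0 0 := by
  refine ⟨fun _ _ _ => 0, fun u v e => by simp [dz], fun h ρ _ _ => by simp⟩

theorem Cert.mono {l l' w : E → ℝ} {ν ν' : ℝ} (h : G.Cert l w ν) (hl : l ≤ l') (hν : ν' ≤ ν) :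
    G.Cert l' w ν' := by
  obtain ⟨φ, h1, h2⟩ := h
  exact ⟨φ, fun u v e => (h1 u v e).trans (hl e), fun h ρ h0 hρ => hν.trans (h2 h ρ h0 hρ)⟩

theorem Cert.add {l l' w w' : E → ℝ} {ν ν' : ℝ} (h : G.Cert l w ν) (h' : G.Cert l' w' ν')
    (hw : ∀ e, 0 ≤ w e) (hw' : ∀ e, 0 ≤ w' e) : G.Cert (l + l') (w + w') (ν + ν') := by
  obtain ⟨φ, h1, h2⟩ := h
  obtain ⟨φ', h1', h2'⟩ := h'
  refine ⟨fun u v x => φ u v x + φ' u v x, fun u v e => ?_, fun h ρ h0 hρ => ?_⟩
  · have : G.dz (fun x => φ u v x + φ' u v x) e = G.dz (φ u v) e + G.dz (φ' u v) e := by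
      simp only [dz]
      ring
    rw [this]
    exact (abs_add_le _ _).trans (add_le_add (h1 u v e) (h1' u v e))
  · have a1 := h2 h ρ h0 fun e he => hρ e (add_pos_of_pos_of_nonneg he (hw' e))
    have a2 := h2' h ρ h0 fun e he => hρ e (add_pos_of_nonneg_of_pos (hw e) he)
    refine (add_le_add a1 a2).trans (le_of_eq ?_)
    rw [add_add_add_comm, ← sum_add_distrib, ← sum_add_distrib]
    congr 1
    · refine sum_congr rfl fun u _ => ?_
      rw [← sum_add_distrib]
      exact sum_congr rfl fun v _ => by ring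
    · exact sum_congr rfl fun e _ => by rw [Pi.add_apply, add_mul]

theorem Cert.smul {l w : E → ℝ} {ν c : ℝ} (h : G.Cert l w ν) (hc : 0 < c) :
    G.Cert (c • l) (c • w) (c * ν) := by
  obtain ⟨φ, h1, h2⟩ := h
  refine ⟨fun u v x => c * φ u v x, fun u v e => ?_, fun h ρ h0 hρ => ?_⟩
  · have : G.dz (fun x => c * φ u v x) e = c * G.dz (φ u v) e := by
      simp only [dz]
      ring
    rw [this, abs_mul, abs_of_pos hc]
    exact mul_le_mul_of_nonneg_left (h1 u v e) hc.le
  · have a1 := h2 h ρ h0 fun e he => hρ e (mul_pos hc he)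
    refine (mul_le_mul_of_nonneg_left a1 hc.le).trans (le_of_eq ?_)
    simp only [mul_add, mul_sum]
    congr 1
    · exact sum_congr rfl fun u _ => sum_congr rfl fun v _ => by ring
    · exact sum_congr rfl fun e _ => by rw [Pi.smul_apply, smul_eq_mul, mul_assoc]

/-- How a certificate is refuted: a finite family of demands `(a i, b i)` with conductance
`γ i`. -/
theorem Cert.le {L : E → ℕ} {w : E → ℝ} {ν : ℝ} (h : G.Cert (fun e => L e) w ν)
    {d : V → V → ℕ} (hd : ∀ φ : V → ℝ, G.Feas (fun e => L e) φ → ∀ u v, φ v - φ u ≤ d u v)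
    {I : Type} (s : Finset I) (a b : I → V) (γ : I → ℝ) (hγ : ∀ i ∈ s, 0 ≤ γ i) (ρ : E → ℝ)
    (hρ : ∀ e, 0 < w e → ∀ z : V → ℝ,
      G.dz z e ^ 2 ≤ ρ e * ∑ i ∈ s, γ i * (z (a i) - z (b i)) ^ 2) :
    ν ≤ ∑ i ∈ s, γ i * d (a i) (b i) + ∑ e, w e * ρ e := by
  obtain ⟨φ, h1, h2⟩ := h
  have key : ∀ f : V → V → ℝ,
      ∑ u, ∑ v, (∑ i ∈ s, if a i = u ∧ b i = v then γ i else 0) * f u v =
        ∑ i ∈ s, γ i * f (a i) (b i) := by
    intro f
    simp only [sum_mul]
    rw [sum_congr rfl fun u _ => sum_comm, sum_comm]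
    refine sum_congr rfl fun i _ => ?_
    simp [ite_and]
  have h3 := h2 (fun u v => ∑ i ∈ s, if a i = u ∧ b i = v then γ i else 0) ρ
    (fun u v => sum_nonneg fun i hi => by
      split_ifs
      · exact hγ i hi
      · exact le_rfl)
    (fun e he z => by
      rw [key fun u v => (z u - z v) ^ 2]
      exact hρ e he z)
  rw [key fun u v => φ u v v - φ u v u] at h3
  refine h3.trans (add_le_add (sum_le_sum fun i hi => ?_) le_rfl)
  exact mul_le_mul_of_nonneg_left (hd _ (h1 _ _) _ _) (hγ i hi)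

end MG
end Crest.Agent.R37
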