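import Mathlib
import Crest.Prelude.Def_MultigraphCut

/-!
# Row 37 (thin spanning trees): definitions

Conventions: `V` vertices, `E` edges, `G : MG V E` a loopless multigraph; `n = card V`,
`m = card E`.
-/

set_option autoImplicit false
open Finset Matrix Crest.CombinatoricsR.Multigraph
open scoped Classical

noncomputable section
namespace Crest.Agent.R37

/-- A loopless multigraph. -/
structure MG (V E : Type) where
  src : E → V
  tgt : E → V
  ne : ∀ e, src e ≠ tgt e

/-- Indicator weight of a set of edges. -/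
def ind {E : Type} [DecidableEq E] (F : Finset E) : E → ℕ := fun e => if e ∈ F then 1 else 0

/-- `e_u - e_v`. -/
def pv {V : Type} [DecidableEq V] (u v : V) : V → ℝ := Pi.single u 1 - Pi.single v 1

/-- Real indicator vector of a vertex set. -/
def indR {V : Type} [DecidableEq V] (S : Finset V) : V → ℝ := fun v => if v ∈ S then 1 else 0

/-- Membership of an edge or of the dummy element `none` (which lies in every set). -/
def memO {E : Type} (A : Finset E) : Option E → Prop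
  | none => True
  | some e => e ∈ A

/-- Raise `e` and lower `f` by `c` (nothing happens at `none`). -/
def exch {E : Type} [DecidableEq E] (y : E → ℕ) (e f : Option E) (c : ℕ) : E → ℕ :=
  fun g => y g + (if e = some g then c else 0) - (if f = some g then c else 0)

/-- Pseudometric with natural values. -/
structure PMet {V : Type} (d : V → V → ℕ) : Prop where
  refl : ∀ u, d u u = 0
  symm : ∀ u v, d u v = d v u
  tri : ∀ u v w, d u w ≤ d u v + d v w

namespace MG
variable {V E : Type} [Fintype V] [DecidableEq V] [Fintype E] [DecidableEq E] (G : MG V E)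

/-! ### Partition connectivity -/

/-- `u` and `v` are joined by a path with edges in `A`. -/
def Conn (A : Finset E) (u v : V) : Prop := (adjGraph G.src G.tgt A).Reachable u v

/-- The component of `u` in `(V, A)`. -/
def comp (A : Finset E) (u : V) : Finset V := univ.filter (G.Conn A u)

/-- Number of components of `(V, A)`. -/
def ncomp (A : Finset E) : ℕ := #(univ.image (G.comp A))

/-- All edges leaving `S`. -/
def cut (S : Finset V) : Finset E := cutEdges G.src G.tgt univ S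

/-- `k * (number of components of A) - y (complement of A)`; supermodular in `A`. -/
def val (k : ℕ) (y : E → ℕ) (A : Finset E) : ℤ := (k * G.ncomp A : ℕ) - (∑ e ∈ Aᶜ, y e : ℕ)

/-- The maximum of `val`. -/
def df (k : ℕ) (y : E → ℕ) : ℤ := (univ : Finset (Finset E)).sup' univ_nonempty (G.val k y)

/-- `k`-partition-connectivity of the weighted graph `y`. -/
def PC (k : ℕ) (y : E → ℕ) : Prop := ∀ A : Finset E, k * G.ncomp A ≤ ∑ e ∈ Aᶜ, y e + k

/-- The largest maximiser of `val`. -/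
def Astar (k : ℕ) (y : E → ℕ) : Finset E :=
  (univ.filter fun A => G.val k y A = G.df k y).sup id

/-- The ends of `e` lie in one `k`-partition-connected part of `y`. -/
def Sp (k : ℕ) (y : E → ℕ) (e : E) : Prop := G.Conn (G.Astar k y) (G.src e) (G.tgt e)

/-- Sets on which the inequality of `PC` is an equality. -/
def Tight (K : ℕ) (y : E → ℕ) (A : Finset E) : Prop := K * G.ncomp A = ∑ e ∈ Aᶜ, y e + K

/-- No tight set separates `e` and `f`. -/
def Same (K : ℕ) (y : E → ℕ) (e f : Option E) : Prop :=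
  ∀ A, G.Tight K y A → (memO A e ↔ memO A f)

/-! ### Linear algebra and certificates -/

/-- Incidence vector of an edge. -/
def b (e : E) : V → ℝ := pv (G.src e) (G.tgt e)

/-- Potential difference along an edge. -/
def dz (z : V → ℝ) (e : E) : ℝ := z (G.src e) - z (G.tgt e)

/-- Weighted Laplacian. -/
def lap (c : E → ℝ) : Matrix V V ℝ := ∑ e, c e • vecMulVec (G.b e) (G.b e)

/-- `φ` is 1-Lipschitz for the lengths `l`. -/
def Feas (l : E → ℝ) (φ : V → ℝ) : Prop := ∀ e, |G.dz φ e| ≤ l e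

/-- Every demand graph `h` has (routing cost for the lengths `l`) + (`w`-weighted effective
resistance) at least `ν`. -/
def Cert (l w : E → ℝ) (ν : ℝ) : Prop :=
  ∃ φ : V → V → V → ℝ, (∀ u v, G.Feas l (φ u v)) ∧
    ∀ (h : V → V → ℝ) (ρ : E → ℝ), (∀ u v, 0 ≤ h u v) →
      (∀ e, 0 < w e → ∀ z : V → ℝ, G.dz z e ^ 2 ≤ ρ e * ∑ u, ∑ v, h u v * (z u - z v) ^ 2) →
      ν ≤ ∑ u, ∑ v, h u v * (φ u v v - φ u v u) + ∑ e, w e * ρ e

/-- `j` is (the edge multiset of) a shortest route from `u` to `v` for the lengths `l`. -/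
def Route (l : E → ℝ) (u v : V) (j : E → ℕ) : Prop :=
  ∑ e, j e ≤ Fintype.card V ∧ (∀ S : Finset V, u ∈ S → v ∉ S → ∃ e ∈ G.cut S, 1 ≤ j e) ∧
    ∃ φ : V → ℝ, G.Feas l φ ∧ ∑ e, (j e : ℝ) * l e ≤ φ v - φ u

end MG

/-! ### The ball lemma: families of claimed cuts `{v | d b v < x}` -/

section ball
variable {V ι : Type} [DecidableEq V] (d : V → V → ℕ)

/-- The cut `{v | d b v < x}` splits `B`. -/
def Splits (b : V) (x : ℕ) (B : Finset V) : Prop := ∃ u ∈ B, ∃ v ∈ B, d b u < x ∧ x ≤ d b v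

/-- Some radius of `J` is within `s` of the distance of `t` from `b`. -/
def Near (b : V) (J : Finset ℕ) (s : ℕ) (t : V) : Prop := ∃ x ∈ J, x ≤ d b t + s ∧ d b t ≤ x + s

/-- Number of radii in `J` whose cut separates `u` and `v`. -/
def sepC (b : V) (J : Finset ℕ) (u v : V) : ℕ :=
  #(J.filter fun x => (d b u < x ∧ x ≤ d b v) ∨ (d b v < x ∧ x ≤ d b u))

/-- Claims: centres, outer radii, sets of radii. -/
structure Claims (ι V : Type) where
  b : ι → V
  R : ι → ℕ
  J : ι → Finset ℕ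

/-- No cut of claim `j` splits the part of `B` in the ball of claim `j'`. -/
def Claims.NoSplit (C : Claims ι V) (B : Finset V) (j j' : ι) : Prop :=
  ∀ x ∈ C.J j, ¬ Splits d (C.b j) x (B.filter fun v => d (C.b j') v ≤ C.R j')

/-- The invariants of a family of claims on the part `B` at scale `s`. -/
structure Claims.Inv [Fintype ι] (C : Claims ι V) (B : Finset V) (s : ℕ) : Prop where
  S : ∀ j, ∀ x ∈ C.J j, x ≤ C.R j ∧ Splits d (C.b j) x B
  L : ∀ t ∈ B, ∀ j j', Near d (C.b j) (C.J j) s t → Near d (C.b j') (C.J j') s t → j = j'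
  H : ∀ j j', j ≠ j' → C.NoSplit d B j j' ∨ C.NoSplit d B j' j
  D : ∀ u ∈ B, ∀ v ∈ B, s ≤ d u v → 2 * ∑ j, sepC d (C.b j) (C.J j) u v + s ≤ 8 * d u v

/-- Inherited claims with the radii `J'`, and new claims of radius `r` around the points of
`Gd`. -/
def Claims.ext (C : Claims ι V) (J' : ι → Finset ℕ) (Gd : Finset V) (r : ℕ) : Claims (ι ⊕ V) V where
  b := Sum.elim C.b id
  R := Sum.elim C.R fun _ => r
  J := Sum.elim J' fun t => if t ∈ Gd then Icc 1 r else ∅

end ball

/-! ### The inner solver (multiplicative weights) -/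

/-- `θ = τ₀ = a = 128 / x`. -/
def th (x : ℕ) : ℝ := 128 / x

/-- The exponent `q` with `2 m² ≤ 2 ^ q`. -/
def qq (m : ℕ) : ℕ := 2 * Nat.log 2 m + 3

/-- Capacities: edges of `X` are cheap. -/
def cap {E : Type} [DecidableEq E] (x : ℕ) (X : Finset E) (e : E) : ℕ :=
  if e ∈ X then 1 + x ^ 2 else 1

namespace MG
variable {V E : Type} [Fintype V] [DecidableEq V] [Fintype E] [DecidableEq E] (G : MG V E)

/-- Step size `δ = θ / (8 q n)`. -/
def del (_G : MG V E) (x : ℕ) : ℝ := th x / (8 * qq (Fintype.card E) * Fintype.card V)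

/-- The bound `192 q n (1 + log₂ x)` on the congestion per unit of capacity. -/
def cg (_G : MG V E) (x : ℕ) : ℕ :=
  192 * qq (Fintype.card E) * Fintype.card V * (1 + Nat.log 2 x)

/-- `θ L_G + (θ / n) I + δ ∑ H u v L_{uv}`. -/
def Qm (x : ℕ) (H : V → V → ℝ) : Matrix V V ℝ :=
  th x • G.lap (fun _ => 1) + (th x / Fintype.card V) • (1 : Matrix V V ℝ) +
    G.del x • ∑ u, ∑ v, H u v • vecMulVec (pv u v) (pv u v)

/-- The demand counts `H` give small effective resistances on `F` and are routable. -/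
structure Served (x : ℕ) (F X : Finset E) (H : V → V → ℕ) : Prop where
  res : ∀ e ∈ F, ∀ z : V → ℝ, G.dz z e ^ 2 ≤ th x * (z ⬝ᵥ G.Qm x (fun u v => H u v) *ᵥ z)
  cut : ∀ S : Finset V, (∑ u, ∑ v, if (u ∈ S ↔ v ∈ S) then 0 else H u v) ≤
    G.cg x * ∑ e ∈ G.cut S, cap x X e
  tot : ∑ u, ∑ v, H u v ≤ G.cg x * ∑ e, cap x X e

/-- A certificate of failure, scaled by `U` and rounded up. -/
structure Fail (x U : ℕ) (F X : Finset E) (Δ : E → ℕ) : Prop where
  le : ∀ e, Δ e ≤ U
  tot : ∑ e, cap x X e * Δ e ≤ 2 * U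
  cert : ∃ w : E → ℝ, (∀ e, 0 ≤ w e) ∧ (∀ e, e ∉ F → w e = 0) ∧ ∑ e, w e = U ∧
    G.Cert (fun e => Δ e) w (90 * U / x)

/-- Specification of the inner solver. -/
def InnerOK (x U : ℕ) (F X : Finset E) : (V → V → ℕ) ⊕ (E → ℕ) → Prop
  | .inl H => G.Served x F X H
  | .inr Δ => G.Fail x U F X Δ

/-- Base of the multiplicative weights. -/
def bet (_G : MG V E) (x : ℕ) (X : Finset E) (e : E) : ℝ :=
  1 + 1 / (48 * Fintype.card V * cap x X e)

/-- Current lengths. -/
def len (x : ℕ) (X : Finset E) (c : E → ℕ) (e : E) : ℝ := G.bet x X e ^ c e / cap x X e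

/-- Congestion potential. -/
def PhiC (x : ℕ) (X : Finset E) (c : E → ℕ) : ℝ := ∑ e, G.bet x X e ^ c e

/-- Effective resistance of `e` in `Qm`. -/
def Res (x : ℕ) (H : V → V → ℕ) (e : E) : ℝ :=
  G.b e ⬝ᵥ (G.Qm x fun u v => H u v)⁻¹ *ᵥ G.b e

/-- Resistance potential. -/
def Psi (x : ℕ) (F : Finset E) (H : V → V → ℕ) : ℝ := ∑ e ∈ F, G.Res x H e ^ qq (Fintype.card E)

/-- First-order decrease of `Psi` when the pair `u v` gets more conductance. -/
def gain (x : ℕ) (F : Finset E) (H : V → V → ℕ) (u v : V) : ℝ :=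
  ∑ e ∈ F, G.Res x H e ^ (qq (Fintype.card E) - 1) *
    (G.b e ⬝ᵥ (G.Qm x fun u v => H u v)⁻¹ *ᵥ pv u v) ^ 2

/-- All resistances are small. -/
def Done (x : ℕ) (F : Finset E) (H : V → V → ℕ) : Prop := ∀ e ∈ F, G.Res x H e ≤ th x

/-- One more unit of demand on the pair `u v`. -/
def addH (H : V → V → ℕ) (u v : V) : V → V → ℕ :=
  fun a b => H a b + if a = u ∧ b = v then 1 else 0

/-- One step of the inner solver on states `(H, c)`. -/
def INext (x : ℕ) (F X : Finset E) (s s' : (V → V → ℕ) × (E → ℕ)) : Prop :=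
  ¬ G.Done x F s.1 ∧ ∃ u v j, u ≠ v ∧ G.Route (G.len x X s.2) u v j ∧
    (∑ e, (j e : ℝ) * G.len x X s.2 e) * G.Psi x F s.1 ≤
      th x * G.gain x F s.1 u v * G.PhiC x X s.2 ∧
    s' = (addH s.1 u v, s.2 + j)

/-- No step is possible although some resistance is large. -/
def Stuck (x : ℕ) (F X : Finset E) (s : (V → V → ℕ) × (E → ℕ)) : Prop :=
  ¬ G.Done x F s.1 ∧ ∀ u v, u ≠ v → ∃ j, G.Route (G.len x X s.2) u v j ∧
    th x * G.gain x F s.1 u v * G.PhiC x X s.2 ≤
      (∑ e, (j e : ℝ) * G.len x X s.2 e) * G.Psi x F s.1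

/-- States reachable in `i` steps. -/
inductive IReach (x : ℕ) (F X : Finset E) : ℕ → (V → V → ℕ) × (E → ℕ) → Prop
  | zero : IReach x F X 0 (0, 0)
  | step {i s s'} : IReach x F X i s → G.INext x F X s s' → IReach x F X (i + 1) s'

/-- The rounded certificate. -/
def failD (x U : ℕ) (X : Finset E) (c : E → ℕ) : E → ℕ :=
  fun e => ⌈U * G.len x X c e / G.PhiC x X c⌉₊

/-! ### Rounds and the service -/

/-- Edges that are spanned by much shorter edges. -/
def Xof (κ : ℕ) (F : Finset E) (L : E → ℕ) : Finset E :=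
  F.filter fun e => G.Sp κ (ind (F.filter fun f => 3 * L f ≤ 2 * L e)) e

/-- Specification of a round. -/
structure RoundOK (x κ : ℕ) (F X : Finset E) (H : V → V → ℕ) : Prop where
  sub : X ⊆ F
  pc : G.PC κ (ind (F \ X))
  served : G.Served x F X H

/-- The quadratic form `Q` is dominated by the cuts of `G` and serves `F`. -/
structure QOK (x Z : ℕ) (F : Finset E) (Q : Matrix V V ℝ) : Prop where
  symm : Q.IsSymm
  lower : ∀ z : V → ℝ, z ⬝ᵥ z ≤ Z * (z ⬝ᵥ Q *ᵥ z)
  upper : ∀ z : V → ℝ, z ⬝ᵥ Q *ᵥ z ≤ Z * (z ⬝ᵥ z)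
  cut : ∀ S : Finset V, S.Nonempty → S ≠ univ → indR S ⬝ᵥ Q *ᵥ indR S ≤ #(G.cut S)
  res : ∀ e ∈ F, ∀ z : V → ℝ, x * G.dz z e ^ 2 ≤ z ⬝ᵥ Q *ᵥ z

/-- The averaged and normalised form built from the summed demand counts of `x²` rounds. -/
def Qavg (x : ℕ) (H : V → V → ℕ) : Matrix V V ℝ :=
  (50 * th x * (1 + Nat.log 2 x))⁻¹ • G.Qm x fun u v => (H u v : ℝ) / x ^ 2

end MG

/-! ### Rounding along a barrier (Kadison–Singer type walk with matroid constraints) -/

/-- `ℓ(t) = t + b t (1 - t)`. -/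
def ell (b t : ℝ) : ℝ := t + b * t * (1 - t)

/-- `ℓ'(t)`. -/
def ell' (b t : ℝ) : ℝ := 1 + b * (1 - 2 * t)

/-- Input of the walk. -/
structure KP (V E : Type) where
  G : MG V E
  p : ℕ
  Z : ℕ
  k : ℕ
  F : Finset E
  Q : Matrix V V ℝ

/-- State of the walk: alive edges, values `y / N`, barrier parameters `t / N`. -/
structure KS (E : Type) where
  al : Finset E
  y : E → ℕ
  t : E → ℕ

namespace KP
variable {V E : Type} [Fintype V] [DecidableEq V] [Fintype E] [DecidableEq E] (P : KP V E)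

/-- The large parameter. -/
def B : ℕ := 2 * P.p * (Fintype.card V + Fintype.card E + P.Z + 2)
/-- The grid. -/
def N : ℕ := P.B ^ 63
/-- Threshold for events, in grid units (`ζ = zz / N = B⁻¹¹`). -/
def zz : ℕ := P.B ^ 52
/-- Step size. -/
def eps : ℝ := 1 / (P.B : ℝ) ^ 23
/-- Regularisation of the projection. -/
def lam : ℝ := 1 / (P.B : ℝ) ^ 86
def r0 : ℝ := 1 / P.p
def bb : ℝ := 400 / P.p
/-- The level of partition connectivity in grid units. -/
def KK : ℕ := P.k * P.N

/-- The upper barrier. -/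
def U : Matrix V V ℝ :=
  P.r0 • P.Q + P.G.lap fun e => if e ∈ P.F then ell P.bb (1 / 2 + 2 / P.p) else 0

def cc (s : KS E) (e : E) : ℝ := if e ∈ s.al then ell P.bb (s.t e / P.N) else s.y e / P.N

/-- The slack matrix. -/
def Pm (s : KS E) : Matrix V V ℝ := P.U - P.G.lap (P.cc s)

def Gm (s : KS E) (e f : E) : ℝ := P.G.b e ⬝ᵥ (P.Pm s)⁻¹ *ᵥ P.G.b f

/-- The slack of an alive edge. -/
def sl (s : KS E) (e : E) : ℝ := P.r0 * (s.t e / P.N - s.y e / P.N) - P.Gm s e e

/-- The potential. -/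
def Phi (s : KS E) : ℝ := ∑ e ∈ s.al, 1 / P.sl s e + (P.Pm s)⁻¹.trace

def Km (s : KS E) (f g : E) : ℝ :=
  ∑ e ∈ s.al, P.Gm s e f * P.Gm s e g / P.sl s e ^ 2 +
    ((P.Pm s)⁻¹ *ᵥ P.G.b f) ⬝ᵥ ((P.Pm s)⁻¹ *ᵥ P.G.b g)

/-- `η = ℓ'(t) τ`. -/
def eta (s : KS E) (τ : E → ℝ) (f : E) : ℝ := ell' P.bb (s.t f / P.N) * τ f

/-- The direction of `y` that keeps the slacks fixed to first order when `t` moves along `τ`. -/
def hv (s : KS E) (τ : E → ℝ) (e : E) : ℝ :=
  τ e - (∑ f ∈ s.al, P.Gm s e f ^ 2 * P.eta s τ f) / P.r0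

/-- The alive edges not separated from `e` by a tight set. -/
def cls (s : KS E) (e : E) : Finset E := s.al.filter fun f => P.G.Same P.KK s.y (some e) (some f)

/-- `R` is a system of representatives of the classes other than the class of `none`. -/
structure Reps (s : KS E) (R : Finset E) : Prop where
  mem : ∀ r ∈ R, r ∈ s.al ∧ ¬ P.G.Same P.KK s.y (some r) none
  ex : ∀ e ∈ s.al, ¬ P.G.Same P.KK s.y (some e) none →
    ∃ r ∈ R, P.G.Same P.KK s.y (some r) (some e)
  uniq : ∀ r ∈ R, ∀ r' ∈ R, P.G.Same P.KK s.y (some r) (some r') → r = r'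

/-- The class sums of `hv` as a matrix. -/
def Cm (s : KS E) (R : Finset E) : Matrix E E ℝ :=
  Matrix.of fun r f => if r ∈ R then ∑ e ∈ P.cls s r, P.hv s (Pi.single f 1) e else 0

def dl (s : KS E) : Matrix E E ℝ := diagonal fun f => if f ∈ s.al then (P.Km s f f)⁻¹ else 0

/-- Regularised projection onto the kernel of `Cm`. -/
def Pj (s : KS E) (R : Finset E) : Matrix E E ℝ :=
  1 - P.dl s * (P.Cm s R)ᵀ * (P.Cm s R * P.dl s * (P.Cm s R)ᵀ + P.lam • (1 : Matrix E E ℝ))⁻¹ *
    P.Cm s R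

/-- Candidate directions: `± (column e of Pj)`. -/
def tau (s : KS E) (R : Finset E) (e : E) (σ : Bool) : E → ℝ :=
  fun f => (if σ then 1 else -1) * P.Pj s R f e

def fl (s : KS E) (τ : E → ℝ) (e : E) : ℤ := ⌊P.N * P.eps * P.hv s τ e⌋

/-- The rounded move along `τ`; the class sums of `y` are kept by the representatives. -/
def move (s : KS E) (R : Finset E) (τ : E → ℝ) : KS E where
  al := s.al
  y := fun e => if e ∈ s.al then
      (if e ∈ R then ((s.y e : ℤ) - ∑ f ∈ (P.cls s e).erase e, P.fl s τ f).toNat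
        else ((s.y e : ℤ) + P.fl s τ e).toNat)
    else s.y e
  t := fun e => if e ∈ s.al then ((s.t e : ℤ) + ⌊P.N * P.eps * τ e⌋).toNat else s.t e

/-- Select the edge `e`. -/
def pay (s : KS E) (e : E) : KS E where
  al := s.al.erase e
  y := Function.update s.y e P.N
  t := s.t

/-- Exchange `c` units from `f` to `e`; `f` dies when it reaches `0`. -/
def exSt (_P : KP V E) (s : KS E) (e : Option E) (f : E) (c : ℕ) : KS E where
  al := if c = s.y f then s.al.erase f else s.al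
  y := exch s.y e (some f) c
  t := s.t

/-- The data of a maximal small exchange. -/
structure ExOK (s : KS E) (e : Option E) (f : E) (c : ℕ) : Prop where
  ale : memO s.al e
  alf : f ∈ s.al
  ne : e ≠ some f
  same : P.G.Same P.KK s.y e (some f)
  lt : c < P.zz
  le : c ≤ s.y f
  pc : P.G.PC P.KK (exch s.y e (some f) c)
  max : c = s.y f ∨ ¬ P.G.PC P.KK (exch s.y e (some f) (c + 1))

def NoPay (s : KS E) : Prop := ∀ e ∈ s.al, s.t e + P.zz < P.N

def NoEx (s : KS E) : Prop :=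
  ∀ e : Option E, memO s.al e → ∀ f ∈ s.al, e ≠ some f → P.G.Same P.KK s.y e (some f) →
    P.zz ≤ s.y f ∧ P.G.PC P.KK (exch s.y e (some f) P.zz)

/-- One step of the walk. -/
def Next (s s' : KS E) : Prop :=
  (s.al = ∅ ∧ s' = s) ∨ (∃ e ∈ s.al, P.N ≤ s.t e + P.zz ∧ s' = P.pay s e) ∨
  (∃ e f c, P.ExOK s e f c ∧ s' = P.exSt s e f c) ∨
  (P.NoPay s ∧ P.NoEx s ∧ ∃ R, P.Reps s R ∧ ∃ e ∈ s.al, ∃ σ, s' = P.move s R (P.tau s R e σ) ∧
    ∀ e' ∈ s.al, ∀ σ', P.Phi s' ≤ P.Phi (P.move s R (P.tau s R e' σ')))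

/-- Counts the remaining events. -/
def meas (s : KS E) : ℕ :=
  #s.al * (Fintype.card E + 1) ^ 2 +
    #((univ : Finset (Option E × Option E)).filter fun q => P.G.Same P.KK s.y q.1 q.2)

structure Valid (s : KS E) : Prop where
  pd : (P.Pm s).PosDef
  sl : ∀ e ∈ s.al, 0 < P.sl s e
  ypos : ∀ e ∈ s.al, 0 < s.y e
  tle : ∀ e, s.t e ≤ P.N
  dead : ∀ e, e ∉ s.al → s.y e = 0 ∨ s.y e = P.N
  supp : ∀ e, e ∉ P.F → s.y e = 0
  pc : P.G.PC P.KK s.y

structure Pre : Prop where
  p : 800 ≤ P.p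
  pc : P.G.PC (2 * P.k) (ind P.F)
  q : P.G.QOK (P.p ^ 3) P.Z P.F P.Q

def init : KS E where
  al := P.F
  y := fun e => if e ∈ P.F then P.N / 2 else 0
  t := fun e => if e ∈ P.F then P.N / 2 + 2 * P.N / P.p else 0

/-- The selected edges. -/
def out (s : KS E) : Finset E := univ.filter fun e => s.y e = P.N

end KP

/-! ### Halving -/

/-- The parameter `y = 2 ^ (log₂ κ / 30)`. -/
def yOf (κ : ℕ) : ℕ := 2 ^ (Nat.log 2 κ / 30)

/-- The connectivity after one halving step. -/
def nxt (κ : ℕ) : ℕ := (κ - yOf κ ^ 21) / 2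

end Crest.Agent.R37
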