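import Crest.Agent.R37.PC

set_option autoImplicit false
set_option linter.unusedSectionVars false
open Finset Matrix Crest.CombinatoricsR.Multigraph
open scoped Classical

noncomputable section
namespace Crest.Agent.R37
namespace MG
variable {V E : Type} [Fintype V] [DecidableEq V] [Fintype E] [DecidableEq E] (G : MG V E)

/-- `x` lies in `k` times the graphic polymatroid. -/
def Sparse (k : ℕ) (x : E → ℕ) : Prop :=
  ∀ A : Finset E, ∑ e ∈ A, x e + k * G.ncomp A ≤ k * Fintype.card V

/-- The edges with both ends in `S`. -/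
def inside (S : Finset V) : Finset E := univ.filter fun e => G.src e ∈ S ∧ G.tgt e ∈ S

/-- The `x e` copies of each edge can be oriented with out-degrees at most `k`. -/
def Orient (k : ℕ) (x : E → ℕ) : Prop :=
  ∃ o : E → ℕ, (∀ e, o e ≤ x e) ∧ ∀ v, ∑ e ∈ univ.filter (fun e => G.src e = v), o e +
    ∑ e ∈ univ.filter (fun e => G.tgt e = v), (x e - o e) ≤ k

variable {G} {k : ℕ} {x y : E → ℕ}

theorem OracleM_mem_inside {S : Finset V} {e : E} :
    e ∈ G.inside S ↔ G.src e ∈ S ∧ G.tgt e ∈ S := by simp [inside]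

theorem OracleM_sum_add (A : Finset E) (e : E) (j : ℕ) :
    ∑ f ∈ A, (x + Pi.single e j : E → ℕ) f = ∑ f ∈ A, x f + if e ∈ A then j else 0 := by
  simp only [Pi.add_apply, sum_add_distrib, sum_pi_single']

theorem sparse_zero : G.Sparse k 0 := fun A => by
  simpa [← G.ncomp_empty] using Nat.mul_le_mul_left k (G.ncomp_anti (empty_subset A))

theorem Sparse.mono (h : G.Sparse k x) (hy : y ≤ x) : G.Sparse k y := fun A =>
  (Nat.add_le_add_right (sum_le_sum fun e _ => hy e) _).trans (h A)

theorem OracleM_ncomp_inside {S : Finset V} (hS : S.Nonempty) :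
    Fintype.card V + 1 ≤ G.ncomp (G.inside S) + #S := by
  obtain ⟨u, hu⟩ := hS
  have h1 : ∀ v w, v ∉ S → G.Conn (G.inside S) v w → w = v := fun v w hv h =>
    h.PC_ind (P := fun z => z = v) (fun e he => iff_of_false
      (fun h1 => hv (h1 ▸ (OracleM_mem_inside.1 he).1))
      fun h1 => hv (h1 ▸ (OracleM_mem_inside.1 he).2)) rfl
  have h2 : #(insert u Sᶜ) ≤ G.ncomp (G.inside S) := by
    refine card_le_card_of_injOn (G.comp (G.inside S))
      (fun v _ => mem_coe.2 (mem_image_of_mem _ (mem_univ v))) fun v hv w hw h => ?_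
    have h3 := G.comp_eq_iff.1 h
    rcases mem_insert.1 (mem_coe.1 hv) with rfl | hv
    · rcases mem_insert.1 (mem_coe.1 hw) with rfl | hw
      exacts [rfl, h1 _ _ (mem_compl.1 hw) h3.symm]
    · exact (h1 _ _ (mem_compl.1 hv) h3).symm
  rw [card_insert_of_notMem (by simpa using hu)] at h2
  have h3 := card_add_card_compl S
  omega

theorem sparse_iff : G.Sparse k x ↔
    ∀ S : Finset V, S.Nonempty → ∑ e ∈ G.inside S, x e + k ≤ k * #S := by
  refine ⟨fun h S hS => ?_, fun h A => ?_⟩
  · have h1 := h (G.inside S)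
    have h2 := Nat.mul_le_mul_left k (OracleM_ncomp_inside (G := G) hS)
    rw [mul_add, mul_add, mul_one] at h2
    omega
  · have h1 : Fintype.card V = ∑ S ∈ univ.image (G.comp A), #S := by
      rw [← card_univ, card_eq_sum_card_image (G.comp A)]
      refine sum_congr rfl fun S hS => congrArg _ ?_
      obtain ⟨u, -, rfl⟩ := mem_image.1 hS
      ext v
      rw [mem_filter, G.PC_mem_comp, eq_comm, G.comp_eq_iff, and_iff_right (mem_univ v)]
    rw [h1, mul_sum, ncomp, card_eq_sum_ones, mul_sum, mul_one, ← sum_fiberwise_of_maps_to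
      (g := fun e => G.comp A (G.src e)) (fun e _ => mem_image_of_mem _ (mem_univ _)),
      ← sum_add_distrib]
    refine sum_le_sum fun S hS => le_trans (Nat.add_le_add_right (sum_le_sum_of_subset
      fun e he => ?_) _) (h S ?_)
    · obtain ⟨he', rfl⟩ := mem_filter.1 he
      exact OracleM_mem_inside.2 ⟨G.PC_mem_comp.2 (G.conn_refl _ _),
        G.PC_mem_comp.2 (G.conn_of_mem he')⟩
    · obtain ⟨u, -, rfl⟩ := mem_image.1 hS
      exact ⟨u, G.PC_mem_comp.2 (G.conn_refl _ _)⟩

/-- Hakimi's theorem. -/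
theorem orient_iff : G.Orient k x ↔ ∀ S : Finset V, ∑ e ∈ G.inside S, x e ≤ k * #S := by
  refine ⟨fun ⟨o, ho, h⟩ S => ?_, fun h => ?_⟩
  · have h1 := sum_le_card_nsmul S _ k fun v _ => h v
    rw [sum_add_distrib, sum_fiberwise_eq_sum_filter, sum_fiberwise_eq_sum_filter, smul_eq_mul,
      mul_comm] at h1
    refine le_trans ?_ h1
    rw [← sum_congr rfl fun e _ => Nat.add_sub_cancel' (ho e), sum_add_distrib]
    exact add_le_add (sum_le_sum_of_subset fun e he => by simp [(OracleM_mem_inside.1 he).1])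
      (sum_le_sum_of_subset fun e he => by simp [(OracleM_mem_inside.1 he).2])
  obtain ⟨f, hf, hft⟩ := (all_card_le_biUnion_card_iff_exists_injective
      fun u : Σ e, Fin (x e) => ({G.src u.1, G.tgt u.1} : Finset V) ×ˢ (univ : Finset (Fin k))).1
    fun T => by
      let S : Finset V := T.biUnion fun u => {G.src u.1, G.tgt u.1}
      calc #T ≤ #((G.inside S).sigma fun e => (univ : Finset (Fin (x e)))) :=
            card_le_card fun u hu => mem_sigma.2 ⟨OracleM_mem_inside.2
              ⟨mem_biUnion.2 ⟨u, hu, by simp⟩, mem_biUnion.2 ⟨u, hu, by simp⟩⟩, mem_univ _⟩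
        _ ≤ #(S ×ˢ (univ : Finset (Fin k))) := by simpa [mul_comm] using h S
        _ ≤ _ := card_le_card fun p hp => by
            obtain ⟨u, hu, h1⟩ := mem_biUnion.1 (mem_product.1 hp).1
            exact mem_biUnion.2 ⟨u, hu, mem_product.2 ⟨h1, mem_univ _⟩⟩
  refine ⟨fun e => #{i : Fin (x e) | (f ⟨e, i⟩).1 = G.src e},
    fun e => (card_le_univ _).trans_eq (Fintype.card_fin _), fun v => ?_⟩
  have h1 : #((univ : Finset E).sigma fun e => ({i | (f ⟨e, i⟩).1 = v} : Finset (Fin (x e)))) ≤
      #(univ : Finset (Fin k)) :=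
    card_le_card_of_injOn (fun u => (f u).2) (fun _ _ => mem_coe.2 (mem_univ _))
      fun u hu w hw huw => hf (Prod.ext ((mem_filter.1 (mem_sigma.1 hu).2).2.trans
        (mem_filter.1 (mem_sigma.1 hw).2).2.symm) huw)
  rw [card_sigma, card_fin] at h1
  rw [sum_filter, sum_filter, ← sum_add_distrib]
  refine le_trans (sum_le_sum fun e _ => ?_) h1
  by_cases h2 : G.src e = v
  · rw [if_pos h2, if_neg (fun h3 => G.ne e (h2.trans h3.symm)), h2, add_zero]
  · rw [if_neg h2, zero_add]
    split_ifs with h3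
    · have h4 := card_filter_add_card_filter_not (s := (univ : Finset (Fin (x e))))
        fun i => (f ⟨e, i⟩).1 = G.src e
      rw [card_fin] at h4
      refine (Nat.sub_eq_of_eq_add' h4.symm).trans_le (card_le_card fun i hi => ?_)
      have h5 := (mem_product.1 (hft ⟨e, i⟩)).1
      simp only [mem_filter, mem_univ, true_and, mem_insert, mem_singleton] at hi h5 ⊢
      exact (h5.resolve_left hi).trans h3
    · exact Nat.zero_le _

theorem Sparse.add_iff (h : G.Sparse k x) (e : E) (j : ℕ) :
    G.Sparse k (x + Pi.single e j) ↔ G.Orient k (x + Pi.single e (j + k)) := by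
  rw [sparse_iff] at h
  simp only [sparse_iff, orient_iff, OracleM_sum_add]
  refine ⟨fun h1 S => ?_, fun h1 S hS => ?_⟩
  · rcases S.eq_empty_or_nonempty with rfl | hS
    · simp [inside]
    · have h2 := h1 S hS
      split_ifs at h2 ⊢ <;> omega
  · have h2 := h1 S
    have h3 := h S hS
    split_ifs at h2 ⊢ <;> omega

/-- A maximal sparse vector below `y` computes `df`. -/
theorem df_eq_of_maximal (h : G.Sparse k x) (hy : x ≤ y)
    (hmax : ∀ e, x e < y e → ¬ G.Sparse k (x + Pi.single e 1)) :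
    G.df k y = (k * Fintype.card V : ℕ) - (∑ e, x e : ℕ) := by
  refine le_antisymm (sup'_le _ _ fun A _ => ?_) ?_
  · have h1 := h A
    have h2 := sum_add_sum_compl A x
    have h3 : ∑ e ∈ Aᶜ, x e ≤ ∑ e ∈ Aᶜ, y e := sum_le_sum fun e _ => hy e
    unfold val
    omega
  have key : ∀ D : Finset E, (∀ e ∈ D, x e < y e) →
      ∃ A, D ⊆ A ∧ k * Fintype.card V ≤ ∑ e ∈ A, x e + k * G.ncomp A := by
    intro D
    induction D using Finset.induction_on with
    | empty => exact fun _ => ⟨∅, Subset.refl _, by simp [G.ncomp_empty]⟩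
    | insert e D _ ih =>
      intro hD
      obtain ⟨A, hA, h1⟩ := ih fun f hf => hD f (mem_insert_of_mem hf)
      obtain ⟨B, hB⟩ := not_forall.1 (hmax e (hD e (mem_insert_self _ _)))
      have h2 := h B
      have h3 := h (A ∩ B)
      have h4 := Nat.mul_le_mul_left k (G.ncomp_supermod A B)
      have h5 := sum_union_inter (s₁ := A) (s₂ := B) (f := x)
      rw [mul_add, mul_add] at h4
      rw [OracleM_sum_add] at hB
      split_ifs at hB with he
      · exact ⟨A ∪ B, insert_subset (mem_union_right _ he) (hA.trans subset_union_left), by omega⟩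
      · omega
  obtain ⟨A, hA, h1⟩ := key {e | x e < y e} fun e he => (mem_filter.1 he).2
  have h2 := sum_add_sum_compl A x
  have h3 : ∑ e ∈ Aᶜ, y e ≤ ∑ e ∈ Aᶜ, x e := sum_le_sum fun e he =>
    not_lt.1 fun h4 => mem_compl.1 he (hA (mem_filter.2 ⟨mem_univ e, h4⟩))
  refine le_trans ?_ (G.val_le_df k y A)
  unfold val
  omega

end MG
end Crest.Agent.R37
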