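import Crest.Agent.R37.Enc
import Crest.Agent.R37.OracleM
import Crest.Agent.R309.Feas

set_option autoImplicit false
open Finset Matrix Crest.CombinatoricsR.Multigraph
open Crest.Agent.Lib.PolyTime
open scoped Classical

noncomputable section
namespace Crest.Agent.R37

namespace OracleAux
open Crest.Agent.R309

theorem flows_iff (N : NetL) (hN : N.WF) {ι : Type} [Fintype ι] (f : ι → ℕ × ℕ × ℤ × ℤ)
    (φ : ι ≃ N.E) (hφ : ∀ i, N.1.get (φ i) = f i) :
    N.flows.Nonempty ↔ ∃ z : ι → ℤ, (∀ i, (f i).2.2.1 ≤ z i ∧ z i ≤ (f i).2.2.2) ∧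
      ∀ v < N.2.length, ∑ i, z i * ((if v = (f i).2.1 then 1 else 0) -
        (if v = (f i).1 then 1 else 0)) = N.2.getD v 0 := by
  have hf : ∀ i, (f i).1 < N.2.length ∧ (f i).2.1 < N.2.length := fun i => by
    have := hN _ (List.get_mem _ (φ i))
    rw [hφ] at this
    exact ⟨this.1, this.2.1⟩
  have hdv : ∀ (x : N.E → ℤ) (v : N.V), N.G.dv x v = ∑ i, x (φ i) *
      ((if (v : ℕ) = (f i).2.1 then 1 else 0) - (if (v : ℕ) = (f i).1 then 1 else 0)) := by
    intro x v
    simp only [Net.dv, Finset.sum_apply, Pi.smul_apply, smul_eq_mul]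
    rw [← φ.sum_comp]
    refine sum_congr rfl fun i _ => ?_
    simp only [Net.bd, dl, NetL.G, Pi.sub_apply, Pi.single_apply, Fin.ext_iff, Fin.val_ofNat, hφ,
      Nat.mod_eq_of_lt (Nat.lt_succ_of_lt (hf i).1), Nat.mod_eq_of_lt (Nat.lt_succ_of_lt (hf i).2)]
  constructor
  · rintro ⟨x, hx⟩
    obtain ⟨h1, h2⟩ := Feas.mem_flows.1 hx
    refine ⟨fun i => x (φ i), fun i => ?_, fun v hv => ?_⟩
    · have := h1 (φ i)
      rwa [NetL.lo, NetL.hi, hφ] at this
    · have := congrFun h2 ⟨v, Nat.lt_succ_of_lt hv⟩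
      rwa [hdv] at this
  · rintro ⟨z, h1, h2⟩
    refine ⟨fun e => z (φ.symm e), Feas.mem_flows.2 ⟨fun e => ?_, funext fun v => ?_⟩⟩
    · obtain ⟨i, rfl⟩ := φ.surjective e
      rw [NetL.lo, NetL.hi, hφ, φ.symm_apply_apply]
      exact h1 i
    · rw [hdv]
      simp only [φ.symm_apply_apply]
      rcases lt_or_ge (v : ℕ) N.2.length with h | h
      · exact h2 v h
      · rw [NetL.βf, List.getD_eq_default _ _ h]
        refine sum_eq_zero fun i _ => ?_
        have := hf i
        rw [if_neg (by omega), if_neg (by omega), sub_self, mul_zero]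

variable {n m : ℕ} (G : MG (Fin n) (Fin m)) (k : ℕ) (y : Fin m → ℕ)

/-- The arcs of the network. -/
def arc : Fin m ⊕ Fin n → ℕ × ℕ × ℤ × ℤ :=
  Sum.elim (fun e => (G.src e, G.tgt e, 0, y e)) fun v => (v, n, 0, k)

/-- The network deciding `Orient`. -/
def net : NetL :=
  (List.ofFn (fun e : Fin m => ((G.src e : ℕ), (G.tgt e : ℕ), (0 : ℤ), (y e : ℤ))) ++
      List.ofFn (fun v : Fin n => ((v : ℕ), n, (0 : ℤ), (k : ℤ))),
    List.ofFn (fun v : Fin n => (∑ e, if (G.tgt e : ℕ) = v then (y e : ℤ) else 0) - k) ++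
      [(n : ℤ) * k - ∑ e, (y e : ℤ)])

theorem len₁ : (net G k y).1.length = m + n := by simp [net]

theorem len₂ : (net G k y).2.length = n + 1 := by simp [net]

theorem net_wf : (net G k y).WF := by
  intro p hp
  rw [len₂]
  rcases List.mem_append.1 hp with h | h
  · obtain ⟨e, rfl⟩ := (List.mem_ofFn' _ _).1 h
    exact ⟨(G.src e).2.trans n.lt_succ_self, (G.tgt e).2.trans n.lt_succ_self,
      fun h => G.ne e (Fin.ext h)⟩
  · obtain ⟨v, rfl⟩ := (List.mem_ofFn' _ _).1 h
    exact ⟨v.2.trans n.lt_succ_self, n.lt_succ_self, v.2.ne⟩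

theorem net_get (i : Fin m ⊕ Fin n) :
    (net G k y).1.get ((finSumFinEquiv.trans (finCongr (len₁ G k y).symm)) i) = arc G k y i := by
  rcases i with e | v
  · change (net G k y).1[(e : ℕ)]'(by rw [len₁]; omega) = _
    simp [net, arc]
  · change (net G k y).1[m + (v : ℕ)]'(by rw [len₁]; omega) = _
    simp [net, arc]

theorem sum_arc (z : Fin m ⊕ Fin n → ℤ) (v : Fin n) :
    ∑ i, z i * ((if (v : ℕ) = (arc G k y i).2.1 then 1 else 0) -
      (if (v : ℕ) = (arc G k y i).1 then 1 else 0)) =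
    (∑ e, if G.tgt e = v then z (.inl e) else 0) - (∑ e, if G.src e = v then z (.inl e) else 0) -
      z (.inr v) := by
  rw [Fintype.sum_sum_type, ← sum_sub_distrib, sub_eq_add_neg]
  congr 1
  · refine sum_congr rfl fun e _ => ?_
    simp only [arc, Sum.elim_inl, Fin.val_inj, mul_sub, mul_ite, mul_one, mul_zero, eq_comm]
  · rw [sum_eq_single v]
    · simp [arc, v.2.ne]
    · intro w _ hw
      simp [arc, v.2.ne, Fin.val_inj, hw.symm]
    · simp

theorem sum_arc_sink (z : Fin m ⊕ Fin n → ℤ) :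
    ∑ i, z i * ((if n = (arc G k y i).2.1 then 1 else 0) -
      (if n = (arc G k y i).1 then 1 else 0)) = ∑ v, z (.inr v) := by
  rw [Fintype.sum_sum_type, sum_eq_zero, zero_add]
  · refine sum_congr rfl fun v _ => ?_
    simp [arc, v.2.ne']
  · intro e _
    simp [arc, (G.src e).2.ne', (G.tgt e).2.ne']

theorem getD_lt (v : Fin n) : (net G k y).2.getD v 0 =
    (∑ e, if G.tgt e = v then (y e : ℤ) else 0) - k := by
  simp [net, Fin.val_inj]

theorem getD_sink : (net G k y).2.getD n 0 = (n : ℤ) * k - ∑ e, (y e : ℤ) := by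
  simp [net]

theorem net_iff : (net G k y).flows.Nonempty ↔ G.Orient k y := by
  rw [flows_iff _ (net_wf G k y) (arc G k y) _ (net_get G k y), len₂]
  constructor
  · rintro ⟨z, h1, h2⟩
    have h3 : ∀ e, 0 ≤ z (.inl e) ∧ z (.inl e) ≤ y e := fun e => h1 (.inl e)
    refine ⟨fun e => (z (.inl e)).toNat, fun e => by have := h3 e; dsimp only; omega,
      fun v => ?_⟩
    have h4 := h2 v (v.2.trans n.lt_succ_self)
    rw [sum_arc, getD_lt] at h4
    have h5 : 0 ≤ z (.inr v) := (h1 (.inr v)).1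
    have h6 : ((∑ e ∈ univ.filter (fun e => G.src e = v), (z (.inl e)).toNat : ℕ) : ℤ) =
        ∑ e, if G.src e = v then z (.inl e) else 0 := by
      rw [Nat.cast_sum, sum_filter]
      exact sum_congr rfl fun e _ => by have := h3 e; split_ifs <;> omega
    have h7 : ((∑ e ∈ univ.filter (fun e => G.tgt e = v), (y e - (z (.inl e)).toNat) : ℕ) : ℤ) =
        (∑ e, if G.tgt e = v then (y e : ℤ) else 0) -
          ∑ e, if G.tgt e = v then z (.inl e) else 0 := by
      rw [Nat.cast_sum, sum_filter, ← sum_sub_distrib]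
      exact sum_congr rfl fun e _ => by have := h3 e; split_ifs <;> omega
    dsimp only
    omega
  · rintro ⟨o, h1, h2⟩
    have h6 : ∀ v, ((∑ e ∈ univ.filter (fun e => G.src e = v), o e : ℕ) : ℤ) =
        ∑ e, if G.src e = v then (o e : ℤ) else 0 := fun v => by
      rw [Nat.cast_sum, sum_filter]
    have h7 : ∀ v, ((∑ e ∈ univ.filter (fun e => G.tgt e = v), (y e - o e) : ℕ) : ℤ) =
        (∑ e, if G.tgt e = v then (y e : ℤ) else 0) -
          ∑ e, if G.tgt e = v then (o e : ℤ) else 0 := fun v => by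
      rw [Nat.cast_sum, sum_filter, ← sum_sub_distrib]
      exact sum_congr rfl fun e _ => by have := h1 e; split_ifs <;> omega
    refine ⟨Sum.elim (fun e => o e) fun v => k - (∑ e, if G.src e = v then (o e : ℤ) else 0) -
      ((∑ e, if G.tgt e = v then (y e : ℤ) else 0) - ∑ e, if G.tgt e = v then (o e : ℤ) else 0),
      ?_, fun v hv => ?_⟩
    · rintro (e | v)
      · have := h1 e
        simp only [arc, Sum.elim_inl]
        omega
      · have := h2 v
        simp only [arc, Sum.elim_inr]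
        rw [← h6, ← h7]
        omega
    · rcases (Nat.lt_succ_iff.1 hv).lt_or_eq with h | rfl
      · have e1 := sum_arc G k y (Sum.elim (fun e => o e) fun v =>
          k - (∑ e, if G.src e = v then (o e : ℤ) else 0) -
            ((∑ e, if G.tgt e = v then (y e : ℤ) else 0) -
              ∑ e, if G.tgt e = v then (o e : ℤ) else 0)) ⟨v, h⟩
        have e2 := getD_lt G k y ⟨v, h⟩
        dsimp only at e1 e2
        rw [e1, e2]
        simp only [Sum.elim_inl, Sum.elim_inr]
        ring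
      · rw [sum_arc_sink, getD_sink]
        simp only [Sum.elim_inr, sum_sub_distrib]
        rw [sum_comm (f := fun v e => if G.src e = v then (o e : ℤ) else 0),
          sum_comm (f := fun v e => if G.tgt e = v then (o e : ℤ) else 0),
          sum_comm (f := fun v e => if G.tgt e = v then (y e : ℤ) else 0)]
        simp

end OracleAux

variable {α : Type} [PEnc α] {n m : α → ℕ} {G : ∀ a, MG (Fin (n a)) (Fin (m a))}
  {k c : α → ℕ} {y : ∀ a, Fin (m a) → ℕ}

theorem PG.decide_orient (hG : PG G) (hk : Poly k) (hy : DP y) :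
    Poly fun a => decide ((G a).Orient (k a) (y a)) := by
  obtain ⟨feas, hfeas, hspec⟩ := Crest.Agent.R309.exists_feas
  have hN : Poly fun a => OracleAux.net (G a) (k a) (y a) := by
    obtain ⟨s, hs, es⟩ := hG.src.entF
    obtain ⟨t, ht, et⟩ := hG.tgt.entF
    obtain ⟨L, hL, eL⟩ := hy.ent
    have := hG.np; have := hG.nb; have := hG.mp; have := hG.mb
    simp only [OracleAux.net, es, et, eL]
    fun_prop
  refine Poly.decide_of_iff (hfeas.comp hN).isSome fun a => ?_
  rw [← OracleAux.net_iff]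
  obtain ⟨h1, h2⟩ := hspec _ (OracleAux.net_wf (G a) (k a) (y a))
  rcases h : feas (OracleAux.net (G a) (k a) (y a)) with _ | x
  · simp [h1 h]
  · simpa using ⟨_, (h2 x h).2⟩

namespace OracleAux

theorem addSingle (hm : Poly m) (hb : PB m) (hy : DP y) {e : ∀ a, Fin (m a)} (he : DP e)
    (hc : Poly c) : DP fun a => y a + Pi.single (e a) (c a) := by
  obtain ⟨L, hL, eL⟩ := hy.ent
  obtain ⟨i, hi, ei⟩ := poly_gen he.val
  refine DP.fn' hm hb ?_
  simp only [Pi.add_apply, Pi.single_apply, Fin.ext_iff, eL, ei]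
  fun_prop

theorem exists_greatest {T : α → ℕ → Prop} {B : α → ℕ} (hB : Poly B)
    [∀ p : α × ℕ, Decidable (T p.1 p.2)]
    (hT : Poly fun p : α × ℕ => decide (T p.1 p.2)) (hle : ∀ a t, T a t → t ≤ B a)
    (hmono : ∀ a s t, s ≤ t → T a t → T a s) (h0 : ∀ a, T a 0) :
    ∃ j : α → ℕ, Poly j ∧ ∀ a, T a (j a) ∧ ¬ T a (j a + 1) := by
  refine ⟨fun a => Nat.findGreatest (T a) (B a), ?_, fun a =>
    ⟨Nat.findGreatest_spec (Nat.zero_le _) (h0 a), fun h =>
      Nat.findGreatest_is_greatest (Nat.lt_succ_self _) (hle _ _ h) h⟩⟩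
  refine Poly.of_le_test ((PB.size hB).mono fun a => Nat.size_le_size (Nat.findGreatest_le _))
    (Poly.decide_congr (p := fun p : α × ℕ => p.2 = 0 ∨ T p.1 p.2)
      (Poly.decide_or (by fun_prop) hT) fun p => ⟨?_, fun h => ?_⟩)
  · rintro (h | h)
    · omega
    · exact Nat.le_findGreatest (hle _ _ h) h
  · rcases Nat.eq_zero_or_pos p.2 with h0 | h0
    · exact Or.inl h0
    · exact Or.inr (hmono _ _ _ h (Nat.findGreatest_of_ne_zero rfl (by omega)))

theorem add_single_mono {E : Type} [DecidableEq E] (x : E → ℕ) (e : E) {s t : ℕ} (h : s ≤ t) :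
    x + Pi.single e s ≤ x + Pi.single e t := fun f => by
  simp only [Pi.add_apply, Pi.single_apply]
  split_ifs <;> omega

/-- One round of the greedy algorithm. -/
theorem step (hG : PG G) (hk : Poly k) (hy : DP y) {x : ∀ a, Fin (m a) → ℕ} (hx : DP x)
    {e : ∀ a, Fin (m a)} (he : DP e) (hs : ∀ a, (G a).Sparse (k a) (x a)) (hxy : ∀ a, x a ≤ y a) :
    ∃ x' : ∀ a, Fin (m a) → ℕ, DP x' ∧ ∀ a, (G a).Sparse (k a) (x' a) ∧ x' a ≤ y a ∧
      x a ≤ x' a ∧ (∀ f, f ≠ e a → x' a f = x a f) ∧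
      (x' a (e a) < y a (e a) → ¬ (G a).Sparse (k a) (x' a + Pi.single (e a) 1)) := by
  let B : α → ℕ := fun a => y a (e a) - x a (e a)
  let T : α → ℕ → Prop := fun a j => j ≤ B a ∧ (G a).Sparse (k a) (x a + Pi.single (e a) j)
  have hB : Poly B := (hy.app he).poly.sub (hx.app he).poly
  have hT : Poly fun p : α × ℕ => decide (T p.1 p.2) := by
    have h1 : Poly fun p : α × ℕ => p.1 := Poly.id'.fst
    have h2 := (hG.comp h1).decide_orient (hk.comp h1)
      (addSingle (c := fun p : α × ℕ => p.2 + k p.1) (hG.mp.comp h1) (hG.mb.comp h1) (hx.comp h1)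
        (he.comp h1) (Poly.id'.snd.add (hk.comp h1)))
    refine Poly.decide_congr (Poly.decide_and (Poly.id'.snd.decide_le (hB.comp h1)) h2)
      fun p => ?_
    exact and_congr_right fun _ => ((hs p.1).add_iff _ _).symm
  obtain ⟨j, hj, hj'⟩ := exists_greatest (T := T) hB hT (fun a t h => h.1)
    (fun a s t hst h => ⟨hst.trans h.1, h.2.mono (add_single_mono _ _ hst)⟩)
    fun a => ⟨Nat.zero_le _, by simpa using hs a⟩
  refine ⟨_, addSingle hG.mp hG.mb hx he hj, fun a => ?_⟩
  obtain ⟨h1, h2⟩ := hj' a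
  have h3 : j a ≤ y a (e a) - x a (e a) := h1.1
  have h4 : x a (e a) ≤ y a (e a) := hxy a (e a)
  refine ⟨h1.2, fun f => ?_, fun f => ?_, fun f hf => ?_, fun h h' => ?_⟩
  · have : x a f ≤ y a f := hxy a f
    simp only [Pi.add_apply, Pi.single_apply]
    split_ifs with h
    · subst h; omega
    · omega
  · simp
  · simp [hf]
  · simp only [Pi.add_apply, Pi.single_eq_same] at h
    refine h2 ⟨by simp only [B]; omega, ?_⟩
    rwa [Pi.single_add, ← add_assoc]

end OracleAux

theorem PG.df (hG : PG G) (hk : Poly k) (hy : DP y) : Poly fun a => (G a).df (k a) (y a) := by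
  have hm := hG.mp; have hb := hG.mb; have hn := hG.np
  obtain ⟨x, hx, h⟩ := DP.loop (β := fun a => Fin (m a) → ℕ) (T := m)
    (B := fun a => m a * (4 * sz (y a) + 1) + 1) hm hb (by have := hy.pb_sz; fun_prop)
    (fun a i x => (G a).Sparse (k a) x ∧ x ≤ y a ∧ ∀ f : Fin (m a), (f : ℕ) < i → x f < y a f →
      ¬ (G a).Sparse (k a) (x + Pi.single f 1))
    (init := fun _ => 0) (DP.fn' hm hb (poly_const 0))
    (fun a => ⟨MG.sparse_zero, fun _ => Nat.zero_le _, fun f hf => absurd hf (Nat.not_lt_zero _)⟩)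
    (by
      have h1 : Poly fun p : {p : Σ a, Un × (Fin (m a) → ℕ) //
          ((G p.1).Sparse (k p.1) p.2.2 ∧ p.2.2 ≤ y p.1 ∧ ∀ f : Fin (m p.1), (f : ℕ) < p.2.1.n →
            p.2.2 f < y p.1 f → ¬ (G p.1).Sparse (k p.1) (p.2.2 + Pi.single f 1)) ∧
          p.2.1.n < m p.1} => p.1 := poly_val
      have h2 := poly_fst.comp h1
      have h3 := DP.snd.comp h1
      obtain ⟨x', hx', h⟩ := OracleAux.step (hG.comp h2) (hk.comp h2) (hy.comp h2) h3.snd'
        (e := fun p => ⟨p.1.2.1.n, p.2.2⟩) (DP.fin_iff.2 h3.fst.poly.unVal)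
        (fun p => p.2.1.1) fun p => p.2.1.2.1
      refine ⟨x', hx', fun p => ?_⟩
      obtain ⟨g1, g2, g3, g4, g5⟩ := h p
      refine ⟨g1, g2, fun f hf hlt => ?_⟩
      by_cases hfe : f = ⟨p.1.2.1.n, p.2.2⟩
      · subst hfe
        exact g5 hlt
      · have hf' : (f : ℕ) < p.1.2.1.n :=
          lt_of_le_of_ne (Nat.lt_succ_iff.1 hf) fun h => hfe (Fin.ext h)
        rw [g4 f hfe] at hlt
        exact fun h => p.2.1.2.2 f hf' hlt (h.mono (add_le_add_left g3 _)))
    (fun a i x _ h => sz_fun_le fun f => (sz_le_of_le (h.2.1 f)).trans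
      (Nat.mul_le_mul_left 4 (sz_le_of_mem (l := List.ofFn (y a))
        ((List.mem_ofFn' _ _).2 ⟨f, rfl⟩))))
  obtain ⟨L, hL, eL⟩ := hx.ent
  refine Poly.congr (f := fun a => ((k a * n a : ℕ) : ℤ) - (∑ e : Fin (m a), L a e : ℕ))
    (by fun_prop) fun a => ?_
  rw [MG.df_eq_of_maximal (h a).1 (h a).2.1 fun e => (h a).2.2 e e.2, Fintype.card_fin]
  simp only [eL]

theorem PG.decide_pc (hG : PG G) (hk : Poly k) (hy : DP y) :
    Poly fun a => decide ((G a).PC (k a) (y a)) :=
  Poly.decide_congr ((hG.df hk hy).decide_intLe hk.natCastInt) fun a => (G a).pc_iff_df.symm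

theorem PG.decide_sp (hG : PG G) (hk : Poly k) (hy : DP y) {e : ∀ a, Fin (m a)} (he : DP e) :
    Poly fun a => decide ((G a).Sp (k a) (y a) (e a)) :=
  Poly.decide_congr ((hG.df hk (OracleAux.addSingle hG.mp hG.mb hy he (poly_const 1))).decide_eq
    (hG.df hk hy)) fun a => (G a).sp_iff_df.symm

theorem DP.ind (hm : Poly m) (hb : PB m) {F : ∀ a, Finset (Fin (m a))} (hF : DP F) :
    DP fun a => ind (F a) :=
  DP.fn' hm hb (Poly.ite ((hF.comp poly_fst).mem DP.snd) (poly_const 1) (poly_const 0))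

theorem DP.exch (hm : Poly m) (hb : PB m) (hy : DP y) {e f : ∀ a, Option (Fin (m a))} (he : DP e)
    (hf : DP f) (hc : Poly c) : DP fun a => exch (y a) (e a) (f a) (c a) :=
  DP.fn' hm hb ((((hy.comp poly_fst).app DP.snd).poly.add
    (Poly.ite ((he.comp poly_fst).decide_eq DP.snd.some) (hc.comp poly_fst) (poly_const 0))).sub
    (Poly.ite ((hf.comp poly_fst).decide_eq DP.snd.some) (hc.comp poly_fst) (poly_const 0)))

theorem DP.univ (hm : Poly m) (hb : PB m) : DP fun a => (univ : Finset (Fin (m a))) :=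
  DP.set hm hb ((poly_const true).congr fun _ => by simp)

theorem DP.empty (hm : Poly m) (hb : PB m) : DP fun a => (∅ : Finset (Fin (m a))) :=
  DP.set hm hb ((poly_const false).congr fun _ => by simp)

theorem DP.sdiff (hm : Poly m) (hb : PB m) {F F' : ∀ a, Finset (Fin (m a))} (hF : DP F)
    (hF' : DP F') : DP fun a => F a \ F' a :=
  DP.set hm hb (Poly.decide_congr (Poly.decide_and ((hF.comp poly_fst).mem DP.snd)
    (Poly.decide_not ((hF'.comp poly_fst).mem DP.snd))) fun _ => mem_sdiff.symm)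

theorem DP.erase (hm : Poly m) (hb : PB m) {F : ∀ a, Finset (Fin (m a))} (hF : DP F)
    {e : ∀ a, Fin (m a)} (he : DP e) : DP fun a => (F a).erase (e a) :=
  DP.set hm hb (Poly.decide_congr (Poly.decide_and
    (Poly.decide_not (DP.snd.decide_eq (he.comp poly_fst))) ((hF.comp poly_fst).mem DP.snd))
    fun _ => mem_erase.symm)

theorem DP.card (hm : Poly m) (hb : PB m) {F : ∀ a, Finset (Fin (m a))} (hF : DP F) :
    Poly fun a => #(F a) :=
  (Poly.card_filter_fin (p := fun a i => i ∈ F a) hm hb ((hF.comp poly_fst).mem DP.snd)).congr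
    fun a => by simp

theorem PG.Xof (hG : PG G) (hk : Poly k) {F : ∀ a, Finset (Fin (m a))} (hF : DP F) (hy : DP y) :
    DP fun a => (G a).Xof (k a) (F a) (y a) := by
  have h1 : Poly fun p : Σ a, Fin (m a) => p.1 := poly_fst
  have hG' := hG.comp h1
  have h2 : DP fun p : Σ a, Fin (m a) =>
      (F p.1).filter fun f => 3 * y p.1 f ≤ 2 * y p.1 p.2 := by
    have h3 : Poly fun q : Σ p : (Σ a, Fin (m a)), Fin (m p.1) => q.1 := poly_fst
    have h4 := h1.comp h3
    refine DP.set hG'.mp hG'.mb (Poly.decide_congr (Poly.decide_and ((hF.comp h4).mem DP.snd)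
      (((poly_const 3).mul ((hy.comp h4).app DP.snd).poly).decide_le
        ((poly_const 2).mul ((hy.comp h4).app (DP.snd.comp h3)).poly))) fun _ => ?_)
    rw [mem_filter]
  have h5 := hG'.decide_sp (hk.comp h1) (DP.ind hG'.mp hG'.mb h2) DP.snd
  have h6 := Poly.decide_and ((hF.comp h1).mem DP.snd) h5
  refine DP.set hG.mp hG.mb (Poly.decide_congr h6 fun _ => ?_)
  rw [MG.Xof, mem_filter]

end Crest.Agent.R37
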