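import Crest.Agent.R37.Defs

set_option autoImplicit false
open Finset Matrix Crest.CombinatoricsR.Multigraph
open scoped Classical

noncomputable section
namespace Crest.Agent.R37
variable {V : Type} [Fintype V] [DecidableEq V]

/-! ### Quadratic forms of inverses -/

theorem pv_dot (u v : V) (z : V → ℝ) : pv u v ⬝ᵥ z = z u - z v := by
  simp [pv, sub_dotProduct]

theorem pv_dot_self {u v : V} (h : u ≠ v) : pv u v ⬝ᵥ pv u v = 2 := by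
  rw [pv_dot]
  simp [pv, h, h.symm]
  norm_num

theorem qf_vecMulVec (a z : V → ℝ) : z ⬝ᵥ vecMulVec a a *ᵥ z = (a ⬝ᵥ z) ^ 2 := by
  rw [vecMulVec_mulVec, dotProduct_smul, dotProduct_comm z a, sq]
  rfl

namespace Resolv

omit [DecidableEq V] in
theorem vmv (a z : V → ℝ) : vecMulVec a a *ᵥ z = (a ⬝ᵥ z) • a := by
  rw [vecMulVec_mulVec]
  ext i
  simp [mul_comm]

omit [DecidableEq V] in
theorem symm_of {A : Matrix V V ℝ} (hs : A.IsSymm) (u v : V → ℝ) :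
    u ⬝ᵥ A *ᵥ v = v ⬝ᵥ A *ᵥ u := by
  rw [dotProduct_mulVec, ← mulVec_transpose, hs.eq, dotProduct_comm]

omit [Fintype V] [DecidableEq V] in
theorem isSymm {P : Matrix V V ℝ} (hP : P.PosDef) : P.IsSymm := by
  have := hP.isHermitian
  rwa [IsHermitian, conjTranspose_eq_transpose_of_trivial] at this

omit [DecidableEq V] in
theorem pos {P : Matrix V V ℝ} (hP : P.PosDef) {z : V → ℝ} (hz : z ≠ 0) : 0 < z ⬝ᵥ P *ᵥ z := by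
  simpa using hP.dotProduct_mulVec_pos hz

omit [DecidableEq V] in
theorem nonneg {P : Matrix V V ℝ} (hP : P.PosDef) (z : V → ℝ) : 0 ≤ z ⬝ᵥ P *ᵥ z := by
  simpa using hP.posSemidef.dotProduct_mulVec_nonneg z

omit [DecidableEq V] in
theorem cs {P : Matrix V V ℝ} (hP : P.PosDef) (u v : V → ℝ) :
    (u ⬝ᵥ P *ᵥ v) ^ 2 ≤ (u ⬝ᵥ P *ᵥ u) * (v ⬝ᵥ P *ᵥ v) := by
  have h := discrim_le_zero (a := v ⬝ᵥ P *ᵥ v) (b := 2 * (u ⬝ᵥ P *ᵥ v)) (c := u ⬝ᵥ P *ᵥ u)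
    fun t => by
      have h1 := nonneg hP (u + t • v)
      simp only [mulVec_add, mulVec_smul, add_dotProduct, dotProduct_add, smul_dotProduct,
        dotProduct_smul, smul_eq_mul, symm_of (isSymm hP) v u] at h1
      nlinarith
  rw [discrim] at h
  nlinarith

theorem mul_inv {P : Matrix V V ℝ} (hP : P.PosDef) (v : V → ℝ) : P *ᵥ (P⁻¹ *ᵥ v) = v := by
  rw [mulVec_mulVec, mul_nonsing_inv _ ((isUnit_iff_isUnit_det _).1 hP.isUnit), one_mulVec]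

theorem inv_mul {P : Matrix V V ℝ} (hP : P.PosDef) (v : V → ℝ) : P⁻¹ *ᵥ (P *ᵥ v) = v := by
  rw [mulVec_mulVec, nonsing_inv_mul _ ((isUnit_iff_isUnit_det _).1 hP.isUnit), one_mulVec]

omit [DecidableEq V] in
theorem dot_nonneg (v : V → ℝ) : 0 ≤ v ⬝ᵥ v := sum_nonneg fun _ _ => mul_self_nonneg _

theorem le_of_sq_le {R ρ : ℝ} (hρ : 0 ≤ ρ) (h : R ^ 2 ≤ ρ * R) : R ≤ ρ := by
  by_contra h1
  nlinarith

omit [DecidableEq V] in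
theorem sq_le {P : Matrix V V ℝ} (hP : P.PosDef) {C : ℝ}
    (h : ∀ z, z ⬝ᵥ P *ᵥ z ≤ C * (z ⬝ᵥ z)) (w : V → ℝ) :
    (P *ᵥ w) ⬝ᵥ (P *ᵥ w) ≤ C ^ 2 * (w ⬝ᵥ w) := by
  refine le_of_sq_le (mul_nonneg (sq_nonneg _) (dot_nonneg w)) ((cs hP (P *ᵥ w) w).trans ?_)
  refine (mul_le_mul (h _) (h w) (nonneg hP w) ((nonneg hP _).trans (h _))).trans (le_of_eq ?_)
  ring

theorem le_trace {A : Matrix V V ℝ} (hA : A.PosDef) (v : V → ℝ) :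
    v ⬝ᵥ A *ᵥ v ≤ A.trace * (v ⬝ᵥ v) := by
  have key : ∀ i j, 2 * (v i * (A i j * v j)) ≤ v j * v j * A i i + v i * v i * A j j := by
    intro i j
    have h1 := nonneg hA (v j • Pi.single i 1 - v i • Pi.single j 1)
    have h2 : A j i = A i j := (isSymm hA).apply i j
    simp only [mulVec_sub, mulVec_smul, sub_dotProduct, dotProduct_sub, smul_dotProduct,
      dotProduct_smul, smul_eq_mul, single_dotProduct, one_mul, mulVec_single_one, col_apply,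
      h2] at h1
    nlinarith
  have h3 := sum_le_sum fun i (_ : i ∈ univ) => sum_le_sum fun j (_ : j ∈ univ) => key i j
  simp only [sum_add_distrib, ← mul_sum, ← sum_mul] at h3
  simp only [dotProduct, mulVec, trace, Matrix.diag]
  nlinarith

omit [Fintype V] [DecidableEq V] in
theorem vmv_symm (a : V → ℝ) : (vecMulVec a a).IsSymm := by
  ext i j
  simp [vecMulVec_apply, mul_comm]

omit [Fintype V] [DecidableEq V] in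
theorem sum_symm {I : Type} (s : Finset I) {f : I → Matrix V V ℝ} (h : ∀ i, (f i).IsSymm) :
    (∑ i ∈ s, f i).IsSymm :=
  sum_induction f IsSymm (fun _ _ => IsSymm.add) isSymm_zero fun i _ => h i

end Resolv

open Resolv

/-- A symmetric matrix with positive quadratic form is positive definite. -/
theorem posDef_of_qf {P : Matrix V V ℝ} (hs : P.IsSymm) (h : ∀ z, z ≠ 0 → 0 < z ⬝ᵥ P *ᵥ z) :
    P.PosDef := by
  refine PosDef.of_dotProduct_mulVec_pos ?_ fun z hz => by simpa using h z hz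
  rwa [IsHermitian, conjTranspose_eq_transpose_of_trivial]

theorem qf_symm {P : Matrix V V ℝ} (hP : P.PosDef) (u v : V → ℝ) :
    u ⬝ᵥ P⁻¹ *ᵥ v = v ⬝ᵥ P⁻¹ *ᵥ u := symm_of (isSymm hP.inv) u v

theorem qf_inv_nonneg {P : Matrix V V ℝ} (hP : P.PosDef) (v : V → ℝ) : 0 ≤ v ⬝ᵥ P⁻¹ *ᵥ v :=
  nonneg hP.inv v

/-- Cauchy–Schwarz for the inverse form. -/
theorem qf_inv_cs {P : Matrix V V ℝ} (hP : P.PosDef) (u v : V → ℝ) :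
    (u ⬝ᵥ P⁻¹ *ᵥ v) ^ 2 ≤ (u ⬝ᵥ P⁻¹ *ᵥ u) * (v ⬝ᵥ P⁻¹ *ᵥ v) := cs hP.inv u v

/-- Duality: `vᵀ P⁻¹ v` is the best constant in `(v · z)² ≤ ρ zᵀ P z`. -/
theorem sq_dot_le {P : Matrix V V ℝ} (hP : P.PosDef) (v z : V → ℝ) :
    (v ⬝ᵥ z) ^ 2 ≤ (v ⬝ᵥ P⁻¹ *ᵥ v) * (z ⬝ᵥ P *ᵥ z) := by
  have h := qf_inv_cs hP v (P *ᵥ z)
  rwa [inv_mul hP, dotProduct_comm (P *ᵥ z) z] at h

theorem qf_inv_le {P : Matrix V V ℝ} (hP : P.PosDef) {v : V → ℝ} {ρ : ℝ} (hρ : 0 ≤ ρ)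
    (h : ∀ z, (v ⬝ᵥ z) ^ 2 ≤ ρ * (z ⬝ᵥ P *ᵥ z)) : v ⬝ᵥ P⁻¹ *ᵥ v ≤ ρ := by
  have h1 := h (P⁻¹ *ᵥ v)
  rw [mul_inv hP, dotProduct_comm (P⁻¹ *ᵥ v) v] at h1
  exact le_of_sq_le hρ h1

theorem trace_eq_sum_qf (A : Matrix V V ℝ) :
    A.trace = ∑ v, Pi.single v (1 : ℝ) ⬝ᵥ A *ᵥ Pi.single v (1 : ℝ) := by
  simp [trace]

/-- The inverse is antitone. -/
theorem qf_inv_anti {P P' : Matrix V V ℝ} (hP : P.PosDef) (hs : P'.IsSymm)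
    (h : ∀ z, z ⬝ᵥ P *ᵥ z ≤ z ⬝ᵥ P' *ᵥ z) :
    P'.PosDef ∧ (∀ v, v ⬝ᵥ P'⁻¹ *ᵥ v ≤ v ⬝ᵥ P⁻¹ *ᵥ v) ∧ P'⁻¹.trace ≤ P⁻¹.trace := by
  have h1 : P'.PosDef := posDef_of_qf hs fun z hz => (pos hP hz).trans_le (h z)
  have h2 : ∀ v, v ⬝ᵥ P'⁻¹ *ᵥ v ≤ v ⬝ᵥ P⁻¹ *ᵥ v := fun v =>
    qf_inv_le h1 (qf_inv_nonneg hP v) fun z =>
      (sq_dot_le hP v z).trans (mul_le_mul_of_nonneg_left (h z) (qf_inv_nonneg hP v))
  refine ⟨h1, h2, ?_⟩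
  rw [trace_eq_sum_qf, trace_eq_sum_qf]
  exact sum_le_sum fun v _ => h2 _

theorem qf_inv_le_trace {P : Matrix V V ℝ} (hP : P.PosDef) (v : V → ℝ) :
    v ⬝ᵥ P⁻¹ *ᵥ v ≤ P⁻¹.trace * (v ⬝ᵥ v) := le_trace hP.inv v

theorem sq_inv_le_trace {P : Matrix V V ℝ} (hP : P.PosDef) (v : V → ℝ) :
    (P⁻¹ *ᵥ v) ⬝ᵥ (P⁻¹ *ᵥ v) ≤ P⁻¹.trace ^ 2 * (v ⬝ᵥ v) :=
  sq_le hP.inv (le_trace hP.inv) v

theorem le_sq_inv {P : Matrix V V ℝ} (hP : P.PosDef) {C : ℝ}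
    (h : ∀ z, z ⬝ᵥ P *ᵥ z ≤ C * (z ⬝ᵥ z)) (v : V → ℝ) :
    v ⬝ᵥ v ≤ C ^ 2 * ((P⁻¹ *ᵥ v) ⬝ᵥ (P⁻¹ *ᵥ v)) := by
  have h1 := sq_le hP h (P⁻¹ *ᵥ v)
  rwa [mul_inv hP] at h1

/-- Sherman–Morrison. -/
theorem sherman_morrison {P : Matrix V V ℝ} (hP : P.PosDef) (w : V → ℝ) {δ : ℝ} (hδ : 0 ≤ δ) :
    (P + δ • vecMulVec w w).PosDef ∧ ∀ v, v ⬝ᵥ (P + δ • vecMulVec w w)⁻¹ *ᵥ v =
      v ⬝ᵥ P⁻¹ *ᵥ v - δ * (v ⬝ᵥ P⁻¹ *ᵥ w) ^ 2 / (1 + δ * (w ⬝ᵥ P⁻¹ *ᵥ w)) := by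
  have h1 : (P + δ • vecMulVec w w).PosDef := by
    refine posDef_of_qf ((isSymm hP).add ((vmv_symm w).smul δ)) fun z hz => ?_
    rw [add_mulVec, dotProduct_add, smul_mulVec, dotProduct_smul, qf_vecMulVec, smul_eq_mul]
    have := pos hP hz
    positivity
  refine ⟨h1, fun v => ?_⟩
  have hR := qf_inv_nonneg hP w
  have hd : 1 + δ * (w ⬝ᵥ P⁻¹ *ᵥ w) ≠ 0 := by positivity
  set c := δ * (v ⬝ᵥ P⁻¹ *ᵥ w) / (1 + δ * (w ⬝ᵥ P⁻¹ *ᵥ w)) with hc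
  have h2 : (P + δ • vecMulVec w w) *ᵥ (P⁻¹ *ᵥ v - c • P⁻¹ *ᵥ w) = v := by
    rw [add_mulVec, smul_mulVec, vmv, mulVec_sub, mulVec_smul, mul_inv hP, mul_inv hP,
      dotProduct_sub, dotProduct_smul, smul_eq_mul, qf_symm hP w v, smul_smul]
    have : δ * (v ⬝ᵥ P⁻¹ *ᵥ w - c * (w ⬝ᵥ P⁻¹ *ᵥ w)) = c := by
      rw [hc]; field_simp; ring
    rw [this, sub_add_cancel]
  have h3 := inv_mul h1 (P⁻¹ *ᵥ v - c • P⁻¹ *ᵥ w)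
  rw [h2] at h3
  rw [h3, dotProduct_sub, dotProduct_smul, smul_eq_mul, hc]
  ring

/-- Second-order expansion of the inverse under a small signed perturbation. -/
theorem resolvent {I : Type} {P : Matrix V V ℝ} (hP : P.PosDef) (s : Finset I) (w : I → V → ℝ)
    (a : I → ℝ) (ha : ∑ i ∈ s, |a i| * (w i ⬝ᵥ P⁻¹ *ᵥ w i) ≤ 1 / 2) :
    (P - ∑ i ∈ s, a i • vecMulVec (w i) (w i)).PosDef ∧
      ∀ v, v ⬝ᵥ (P - ∑ i ∈ s, a i • vecMulVec (w i) (w i))⁻¹ *ᵥ v ≤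
        v ⬝ᵥ P⁻¹ *ᵥ v + ∑ i ∈ s, a i * (v ⬝ᵥ P⁻¹ *ᵥ w i) ^ 2 +
          2 * ∑ i ∈ s, ∑ j ∈ s, a i * a j * (v ⬝ᵥ P⁻¹ *ᵥ w i) * (w i ⬝ᵥ P⁻¹ *ᵥ w j) *
            (v ⬝ᵥ P⁻¹ *ᵥ w j) := by
  set A := ∑ i ∈ s, a i • vecMulVec (w i) (w i) with hA
  have hAz : ∀ z, A *ᵥ z = ∑ i ∈ s, (a i * (w i ⬝ᵥ z)) • w i := fun z => by
    rw [hA, sum_mulVec]
    exact sum_congr rfl fun i _ => by rw [smul_mulVec, vmv, smul_smul]
  have hq : ∀ z, z ⬝ᵥ A *ᵥ z = ∑ i ∈ s, a i * (w i ⬝ᵥ z) ^ 2 := fun z => by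
    rw [hAz, dotProduct_sum]
    exact sum_congr rfl fun i _ => by
      rw [dotProduct_smul, smul_eq_mul, dotProduct_comm z]; ring
  have hh : ∀ z, z ⬝ᵥ P *ᵥ z ≤ 2 * (z ⬝ᵥ (P - A) *ᵥ z) := fun z => by
    rw [sub_mulVec, dotProduct_sub, hq]
    have h0 := nonneg hP z
    have h1 : ∑ i ∈ s, a i * (w i ⬝ᵥ z) ^ 2 ≤
        (∑ i ∈ s, |a i| * (w i ⬝ᵥ P⁻¹ *ᵥ w i)) * (z ⬝ᵥ P *ᵥ z) := by
      rw [sum_mul]
      refine sum_le_sum fun i _ => ?_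
      rw [mul_assoc]
      exact mul_le_mul (le_abs_self _) (sq_dot_le hP _ _) (sq_nonneg _) (abs_nonneg _)
    have h2 := mul_le_mul_of_nonneg_right ha h0
    linarith
  have h1 : (P - A).PosDef := by
    refine posDef_of_qf ((isSymm hP).sub (sum_symm s fun i => (vmv_symm _).smul _)) fun z hz => ?_
    have := pos hP hz
    have := hh z
    linarith
  refine ⟨h1, fun v => ?_⟩
  set x := P⁻¹ *ᵥ v with hx
  set u := A *ᵥ x with hu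
  have h2 : (P - A)⁻¹ *ᵥ v = x + (P - A)⁻¹ *ᵥ u := by
    have h3 := inv_mul h1 x
    rw [sub_mulVec, ← hu, hx, mul_inv hP, mulVec_sub, ← hx] at h3
    rw [← h3, sub_add_cancel]
  have h4 : u ⬝ᵥ (P - A)⁻¹ *ᵥ u ≤ 2 * (u ⬝ᵥ P⁻¹ *ᵥ u) := by
    have h0 := qf_inv_nonneg hP u
    refine qf_inv_le h1 (by positivity) fun z => (sq_dot_le hP u z).trans ?_
    have := mul_le_mul_of_nonneg_left (hh z) h0
    linarith
  have ht : ∀ i, w i ⬝ᵥ x = v ⬝ᵥ P⁻¹ *ᵥ w i := fun i => qf_symm hP _ _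
  have h5 : u ⬝ᵥ x = ∑ i ∈ s, a i * (v ⬝ᵥ P⁻¹ *ᵥ w i) ^ 2 := by
    rw [dotProduct_comm, hu, hq]
    simp only [ht]
  have h6 : u ⬝ᵥ P⁻¹ *ᵥ u = ∑ i ∈ s, ∑ j ∈ s, a i * a j * (v ⬝ᵥ P⁻¹ *ᵥ w i) *
      (w i ⬝ᵥ P⁻¹ *ᵥ w j) * (v ⬝ᵥ P⁻¹ *ᵥ w j) := by
    rw [hu, hAz, sum_dotProduct]
    refine sum_congr rfl fun i _ => ?_
    rw [mulVec_sum, dotProduct_sum]
    refine sum_congr rfl fun j _ => ?_
    rw [mulVec_smul, smul_dotProduct, dotProduct_smul, smul_eq_mul, smul_eq_mul, ht, ht]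
    ring
  rw [h2, dotProduct_add, qf_symm h1 v u, h2, dotProduct_add, h5, ← h6]
  linarith

namespace MG
variable {E : Type} [Fintype E] [DecidableEq E] (G : MG V E)

theorem b_dot (e : E) (z : V → ℝ) : G.b e ⬝ᵥ z = G.dz z e := pv_dot _ _ z

theorem b_dot_self (e : E) : G.b e ⬝ᵥ G.b e = 2 := pv_dot_self (G.ne e)

theorem lap_symm (c : E → ℝ) : (G.lap c).IsSymm :=
  sum_symm _ fun _ => (vmv_symm _).smul _

theorem qf_lap (c : E → ℝ) (z : V → ℝ) : z ⬝ᵥ G.lap c *ᵥ z = ∑ e, c e * G.dz z e ^ 2 := by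
  rw [lap, sum_mulVec, dotProduct_sum]
  exact sum_congr rfl fun e _ => by
    rw [smul_mulVec, dotProduct_smul, qf_vecMulVec, b_dot, smul_eq_mul]

theorem dz_sq_le (z : V → ℝ) (e : E) : G.dz z e ^ 2 ≤ 2 * (z ⬝ᵥ z) := by
  have h := cs (P := (1 : Matrix V V ℝ)) PosDef.one (G.b e) z
  rwa [one_mulVec, one_mulVec, b_dot_self, b_dot] at h

theorem dz_indR_sq (S : Finset V) (e : E) :
    G.dz (indR S) e ^ 2 = if e ∈ G.cut S then 1 else 0 := by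
  by_cases h1 : G.src e ∈ S <;> by_cases h2 : G.tgt e ∈ S <;>
    simp [dz, indR, cut, cutEdges, h1, h2]

theorem Qm_symm (x : ℕ) (H : V → V → ℝ) : (G.Qm x H).IsSymm :=
  (((G.lap_symm _).smul _).add (isSymm_one.smul _)).add
    ((sum_symm _ fun _ => sum_symm _ fun _ => (vmv_symm _).smul _).smul _)

theorem qf_Qm (x : ℕ) (H : V → V → ℝ) (z : V → ℝ) :
    z ⬝ᵥ G.Qm x H *ᵥ z = th x * ∑ e, G.dz z e ^ 2 + th x / Fintype.card V * (z ⬝ᵥ z) +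
      G.del x * ∑ u, ∑ v, H u v * (z u - z v) ^ 2 := by
  simp only [Qm, add_mulVec, dotProduct_add, smul_mulVec, dotProduct_smul, smul_eq_mul, qf_lap,
    one_mul, one_mulVec, sum_mulVec, dotProduct_sum, qf_vecMulVec, pv_dot]

theorem Qm_posDef {x : ℕ} (hx : 1 ≤ x) {H : V → V → ℝ} (hH : ∀ u v, 0 ≤ H u v) :
    (G.Qm x H).PosDef := by
  refine posDef_of_qf (G.Qm_symm x H) fun z hz => ?_
  rw [qf_Qm]
  obtain ⟨v, -⟩ := Function.ne_iff.1 hz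
  have hn : (0 : ℝ) < Fintype.card V := by exact_mod_cast Fintype.card_pos_iff.2 ⟨v⟩
  have hth : 0 < th x := by unfold th; positivity
  have hdel : 0 ≤ G.del x := by unfold del; positivity
  have h1 : 0 < z ⬝ᵥ z := by simpa using pos (P := (1 : Matrix V V ℝ)) PosDef.one hz
  have h2 : 0 ≤ ∑ u, ∑ v, H u v * (z u - z v) ^ 2 :=
    sum_nonneg fun u _ => sum_nonneg fun v _ => mul_nonneg (hH u v) (sq_nonneg _)
  positivity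

end MG
end Crest.Agent.R37
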