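import Crest.Agent.R37.LemN
import Crest.Agent.R37.Resolv

set_option autoImplicit false
open Finset Matrix Crest.CombinatoricsR.Multigraph
open scoped Classical

noncomputable section
namespace Crest.Agent.R37
namespace MG
variable {V E : Type} [Fintype V] [DecidableEq V] [Fintype E] [DecidableEq E] {G : MG V E}

/-- The lengths after `J` failures. -/
def Lof (U : ℕ) (Δ : ℕ → E → ℕ) (J : ℕ) : E → ℕ := fun e => 3 * U + ∑ i ∈ range J, Δ i e

theorem Xof_subset (κ : ℕ) (F : Finset E) (L : E → ℕ) : G.Xof κ F L ⊆ F := filter_subset _ _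

theorem pc_Xof {κ : ℕ} {F : Finset E} {L : E → ℕ} (hL : ∀ e, 1 ≤ L e) (h : G.PC κ (ind F)) :
    G.PC κ (ind (F \ G.Xof κ F L)) := by
  refine G.pc_delete (L := L) h (Xof_subset κ F L) fun e he => ?_
  refine (mem_filter.1 he).2.mono (ind_mono fun f hf => ?_)
  rw [mem_filter] at hf ⊢
  have := hL e
  exact ⟨hf.1, by omega⟩

theorem RoundM_Lof_succ (U : ℕ) (Δ : ℕ → E → ℕ) (J : ℕ) (e : E) :
    Lof U Δ (J + 1) e = Lof U Δ J e + Δ J e := by
  simp only [Lof, sum_range_succ, add_assoc]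

theorem RoundM_le_Lof (U : ℕ) (Δ : ℕ → E → ℕ) (J : ℕ) (e : E) : 3 * U ≤ Lof U Δ J e :=
  Nat.le_add_right _ _

/-- The part of the length that was added while the edge was cheap. -/
def RoundM_P (X : ℕ → Finset E) (Δ : ℕ → E → ℕ) (J : ℕ) (e : E) : ℕ :=
  ∑ i ∈ range J, if e ∈ X i then Δ i e else 0

theorem RoundM_inv {κ U m : ℕ} {F : Finset E} (hκ : 1 ≤ κ) (hU : 1 ≤ U) (Δ : ℕ → E → ℕ)
    (hΔ : ∀ J < m, ∀ e, Δ J e ≤ U) : ∀ J ≤ m, ∀ e ∈ F,
      ¬ G.Sp κ (ind (F.filter fun f => 2 * Lof U Δ J f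
        + RoundM_P (fun i => G.Xof κ F (Lof U Δ i)) Δ J e ≤ Lof U Δ J e)) e := by
  intro J
  induction J with
  | zero =>
    intro _ e _ h
    refine G.not_sp_zero hκ e (h.mono fun f => ?_)
    have : ¬ (2 * Lof U Δ 0 f + RoundM_P (fun i => G.Xof κ F (Lof U Δ i)) Δ 0 e ≤ Lof U Δ 0 e) := by
      simp only [Lof, RoundM_P, range_zero, sum_empty]
      omega
    simp [ind, this]
  | succ J ih =>
    intro hJ e he h
    by_cases hX : e ∈ G.Xof κ F (Lof U Δ J)
    · refine ih (by omega) e he (h.mono (ind_mono fun f hf => ?_))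
      rw [mem_filter] at hf ⊢
      refine ⟨hf.1, ?_⟩
      have h2 := hf.2
      rw [RoundM_P, sum_range_succ, if_pos hX, RoundM_Lof_succ, RoundM_Lof_succ] at h2
      rw [RoundM_P]
      omega
    · refine hX (mem_filter.2 ⟨he, h.mono (ind_mono fun f hf => ?_)⟩)
      rw [mem_filter] at hf ⊢
      refine ⟨hf.1, ?_⟩
      have h2 := hf.2
      rw [RoundM_Lof_succ, RoundM_Lof_succ] at h2
      have h3 := hΔ J (by omega) e
      have h4 := RoundM_le_Lof U Δ J e
      omega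

theorem RoundM_budget {x U m : ℕ} (X : ℕ → Finset E) (Δ : ℕ → E → ℕ)
    (h : ∀ J < m, ∑ e, cap x (X J) e * Δ J e ≤ 2 * U) : ∀ J ≤ m,
      ∑ e, Lof U Δ J e + x ^ 2 * ∑ e, RoundM_P X Δ J e
        ≤ 3 * U * Fintype.card E + 2 * U * J := by
  intro J
  induction J with
  | zero => intro _; simp [Lof, RoundM_P, mul_comm]
  | succ J ih =>
    intro hJ
    have h1 := ih (by omega)
    have h2 := h J (by omega)
    have h3 : ∑ e, cap x (X J) e * Δ J e
        = ∑ e, Δ J e + x ^ 2 * ∑ e, (if e ∈ X J then Δ J e else 0) := by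
      rw [mul_sum, ← sum_add_distrib]
      refine sum_congr rfl fun e _ => ?_
      unfold cap
      split_ifs <;> ring
    have h4 : ∑ e, RoundM_P X Δ (J + 1) e
        = ∑ e, RoundM_P X Δ J e + ∑ e, (if e ∈ X J then Δ J e else 0) := by
      rw [← sum_add_distrib]
      exact sum_congr rfl fun e _ => by rw [RoundM_P, sum_range_succ, RoundM_P]
    simp only [RoundM_Lof_succ, sum_add_distrib]
    rw [h4, mul_add, mul_add, mul_one]
    omega

theorem RoundM_cert {m : ℕ} (Δ : ℕ → E → ℕ) (w : ℕ → E → ℝ) {ν : ℝ}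
    (h0 : ∀ J < m, ∀ e, 0 ≤ w J e) (h : ∀ J < m, G.Cert (fun e => Δ J e) (w J) ν) :
    ∀ J ≤ m, G.Cert (fun e => ((∑ i ∈ range J, Δ i e : ℕ) : ℝ)) (fun e => ∑ i ∈ range J, w i e)
      (J * ν) := by
  intro J
  induction J with
  | zero =>
    intro _
    simp only [range_zero, sum_empty, Nat.cast_zero, zero_mul]
    exact cert_zero
  | succ J ih =>
    intro hJ
    have h1 := (ih (by omega)).add (h J (by omega))
      (fun e => sum_nonneg fun i hi => h0 i (by have := mem_range.1 hi; omega) e)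
      (h0 J (by omega))
    convert h1 using 1
    · funext e
      simp [sum_range_succ]
    · funext e
      simp [sum_range_succ]
    · push_cast
      ring

/-- The inner solver cannot fail `m` times in a row. -/
theorem round_math {x κ U : ℕ} {F : Finset E} (hx : 320000 ≤ x)
    (hκ : 40000 * (Nat.log 2 κ + 1) * x ^ 6 ≤ κ) (hPC : G.PC (κ + x ^ 5) (ind F))
    (hm : 0 < Fintype.card E) (hU : 1 ≤ U) (Δ : ℕ → E → ℕ) :
    ¬ ∀ J < Fintype.card E, G.Fail x U F (G.Xof κ F (Lof U Δ J)) (Δ J) := by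
  intro h
  set m := Fintype.card E with hmdef
  have hx2 : 8 * x ^ 2 ≤ κ := by
    refine le_trans ?_ hκ
    have h1 : x ^ 2 ≤ x ^ 6 := Nat.pow_le_pow_right (by omega) (by norm_num)
    nlinarith [Nat.zero_le (Nat.log 2 κ * x ^ 6)]
  have hx1 : 1 ≤ x ^ 2 := Nat.one_le_pow _ _ (by omega)
  have hκ8 : 8 ≤ κ := by omega
  have hκW : κ ≤ 2 ^ (Nat.log 2 κ + 1) := (Nat.lt_pow_succ_log_self one_lt_two κ).le
  have hW : 3 ≤ Nat.log 2 κ + 1 := by
    have : 2 ≤ Nat.log 2 κ := Nat.le_log_of_pow_le one_lt_two (by omega)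
    omega
  have hw : ∀ J, ∃ w : E → ℝ, J < m → (∀ e, 0 ≤ w e) ∧ (∀ e, e ∉ F → w e = 0) ∧ ∑ e, w e = U ∧
      G.Cert (fun e => Δ J e) w (90 * U / x) := fun J => by
    by_cases hJ : J < m
    · obtain ⟨w, hw⟩ := (h J hJ).cert
      exact ⟨w, fun _ => hw⟩
    · exact ⟨0, fun h' => absurd h' hJ⟩
  choose w hw using hw
  have hinv := RoundM_inv (G := G) (F := F) (m := m) (by omega : 1 ≤ κ) hU Δ
    (fun J hJ => (h J hJ).le) m le_rfl
  have hbud := RoundM_budget (x := x) (U := U) (m := m) (fun i => G.Xof κ F (Lof U Δ i)) Δ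
    (fun J hJ => (h J hJ).tot) m le_rfl
  have hcert := RoundM_cert (G := G) (m := m) Δ w (fun J hJ => (hw J hJ).1)
    (fun J hJ => (hw J hJ).2.2.2) m le_rfl
  set P := RoundM_P (fun i => G.Xof κ F (Lof U Δ i)) Δ m with hP
  set L := Lof U Δ m with hL
  have hcert' : G.Cert (fun e => L e) (fun e => ∑ i ∈ range m, w i e) (m * (90 * U / x)) :=
    hcert.mono (fun e => Nat.cast_le.2 (Nat.le_add_left _ _)) le_rfl
  have hB : ((U * m : ℕ) : ℝ) = U * m := Nat.cast_mul _ _
  have hfin := lemN (G := G) (F := F) (Z := univ.filter fun e => L e < 2 * P e) (L := L)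
    (M := fun e => ∑ i ∈ range m, w i e) (κ := κ) (σ := x ^ 5) (x := x) (W := Nat.log 2 κ + 1)
    (B := U * m) (fun e => le_trans (by omega) (RoundM_le_Lof U Δ m e)) hPC (by omega) hW hκW
    (hx2.trans hκW) hκ
    (by rw [show x ^ 5 = x * x ^ 4 by ring]; exact Nat.mul_le_mul_right _ hx)
    (fun e => sum_nonneg fun i hi => (hw i (mem_range.1 hi)).1 e)
    (fun e he => sum_eq_zero fun i hi => (hw i (mem_range.1 hi)).2.1 e he)
    (by
      rw [sum_comm, sum_congr rfl fun i hi => (hw i (mem_range.1 hi)).2.2.1, sum_const, card_range,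
        nsmul_eq_mul, mul_comm])
    (by
      have h1 : ∑ e ∈ F, L e ≤ ∑ e, L e := sum_le_sum_of_subset (subset_univ _)
      have h2 : ∑ e ∈ F, L e ≤ 5 * (U * m) := by nlinarith [Nat.zero_le (x ^ 2 * ∑ e, P e)]
      exact_mod_cast h2)
    (by
      have h1 : ∑ e ∈ univ.filter fun e => L e < 2 * P e, L e ≤ 2 * ∑ e, P e := by
        rw [mul_sum]
        exact (sum_le_sum fun e he => (mem_filter.1 he).2.le).trans
          (sum_le_sum_of_subset (subset_univ _))
      have h2 : x ^ 2 * ∑ e ∈ univ.filter fun e => L e < 2 * P e, L e ≤ 10 * (U * m) := by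
        have := Nat.mul_le_mul_left (x ^ 2) h1
        nlinarith [Nat.zero_le (∑ e, L e)]
      exact_mod_cast h2)
    (fun e he hZ hsp => hinv e he (hsp.mono (ind_mono fun f hf => by
      rw [mem_filter] at hf ⊢
      have h1 : ¬ L e < 2 * P e := fun h' => hZ (mem_filter.2 ⟨mem_univ _, h'⟩)
      have h2 := hf.2
      exact ⟨hf.1, by omega⟩)))
    hcert'
  have hx0 : (0 : ℝ) < x := Nat.cast_pos.2 (by omega)
  have hU0 : (0 : ℝ) < U := Nat.cast_pos.2 hU
  have hm0 : (0 : ℝ) < m := Nat.cast_pos.2 hm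
  have h1 : (m : ℝ) * (90 * U / x) = 90 * (U * m / x) := by ring
  have h2 : 56 * ((U : ℝ) * m) / x = 56 * (U * m / x) := by ring
  have h3 : (0 : ℝ) < U * m / x := by positivity
  linarith

theorem RoundM_log {x : ℕ} (hx : 2 ^ 25 ≤ x) : 819200 * (1 + Nat.log 2 x) ≤ x := by
  have h1 : 25 ≤ Nat.log 2 x := Nat.le_log_of_pow_le one_lt_two hx
  have h2 : 2 ^ Nat.log 2 x ≤ x := Nat.pow_log_le_self 2 (by omega)
  have h3 : ∀ l, 25 ≤ l → 819200 * (1 + l) ≤ 2 ^ l := by
    intro l hl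
    induction l, hl using Nat.le_induction with
    | base => norm_num
    | succ l hl ih => rw [pow_succ]; omega
  exact (h3 _ h1).trans h2

theorem RoundM_cap {x T : ℕ} (F X : ℕ → Finset E) (hF : ∀ i, F (i + 1) = F i \ X i)
    (hs : ∀ i < T, X i ⊆ F i) (e : E) : ∀ J ≤ T,
      ∑ i ∈ range J, cap x (X i) e ≤ J + if e ∈ F J then 0 else x ^ 2 := by
  intro J
  induction J with
  | zero => intro _; simp
  | succ J ih =>
    intro hJ
    have h1 := ih (by omega)
    rw [sum_range_succ, hF, cap]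
    by_cases hX : e ∈ X J
    · rw [if_pos (hs J (by omega) hX)] at h1
      rw [if_pos hX, if_neg fun h' => (mem_sdiff.1 h').2 hX]
      omega
    · rw [if_neg hX]
      simp only [mem_sdiff, hX, not_false_eq_true, and_true]
      omega

theorem RoundM_del_cg (x : ℕ) : G.del x * G.cg x ≤ 24 * th x * (1 + Nat.log 2 x) := by
  have hth : 0 ≤ th x := by unfold th; positivity
  unfold del cg
  rcases Nat.eq_zero_or_pos (Fintype.card V) with hn | hn
  · rw [hn]
    simp only [Nat.cast_zero, mul_zero, div_zero, zero_mul]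
    positivity
  · have hn0 : (0 : ℝ) < Fintype.card V := Nat.cast_pos.2 hn
    have hq : (0 : ℝ) < qq (Fintype.card E) := Nat.cast_pos.2 (by unfold qq; omega)
    push_cast
    refine le_of_eq ?_
    field_simp
    ring

theorem RoundM_del_nonneg (x : ℕ) : 0 ≤ G.del x := by
  unfold del th; positivity

theorem RoundM_sq_le (z : V → ℝ) (u v : V) : (z u - z v) ^ 2 ≤ 4 * (z ⬝ᵥ z) := by
  have h : ∀ a, z a * z a ≤ z ⬝ᵥ z := fun a =>
    single_le_sum (f := fun i => z i * z i) (fun i _ => mul_self_nonneg _) (mem_univ a)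
  nlinarith [h u, h v, sq_nonneg (z u + z v)]

theorem RoundM_avg {T : ℕ} (H : ℕ → V → V → ℕ) (c : ℝ) (g : V → V → ℝ) :
    ∑ u, ∑ v, ((∑ i ∈ range T, H i u v : ℕ) : ℝ) / c * g u v
      = (∑ i ∈ range T, ∑ u, ∑ v, (H i u v : ℝ) * g u v) / c := by
  rw [sum_comm (s := range T), sum_div]
  refine sum_congr rfl fun u _ => ?_
  rw [sum_comm (s := range T), sum_div]
  refine sum_congr rfl fun v _ => ?_
  rw [← sum_mul, Nat.cast_sum]
  ring

/-- Averaging the rounds. -/
theorem service_math {x κ : ℕ} (hx : 2 ^ 25 ≤ x) (hc : ∀ u v, G.Conn univ u v)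
    (F X : ℕ → Finset E) (H : ℕ → V → V → ℕ) (hF : ∀ i, F (i + 1) = F i \ X i)
    (h : ∀ i < x ^ 2, G.RoundOK x (κ - (i + 1) * x ^ 5) (F i) (X i) (H i)) :
    G.PC (κ - x ^ 7) (ind (F (x ^ 2))) ∧
      G.QOK x (50 * (Fintype.card V + Fintype.card E + 1) * x) (F (x ^ 2))
        (G.Qavg x fun u v => ∑ i ∈ range (x ^ 2), H i u v) := by
  have hx1 : 1 ≤ x := le_trans (by norm_num) hx
  have hT1 : 1 ≤ x ^ 2 := Nat.one_le_pow _ _ hx1
  refine ⟨?_, ?_⟩
  · obtain ⟨t, ht⟩ : ∃ t, x ^ 2 = t + 1 := ⟨x ^ 2 - 1, by omega⟩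
    have h1 := (h t (by omega)).pc
    rw [← hF, ← ht, ← pow_add] at h1
    exact h1
  have hx0 : (0 : ℝ) < x := Nat.cast_pos.2 hx1
  have hxr : (1 : ℝ) ≤ x := Nat.one_le_cast.2 hx1
  have hth : 0 < th x := by unfold th; positivity
  have hlog : (819200 : ℝ) * (1 + Nat.log 2 x) ≤ x := by exact_mod_cast RoundM_log hx
  have hdel := RoundM_del_nonneg (G := G) x
  have hdc := RoundM_del_cg (G := G) x
  set l : ℝ := 1 + Nat.log 2 x with hl
  have hl1 : 1 ≤ l := le_add_of_nonneg_right (Nat.cast_nonneg _)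
  have hp : 0 < 50 * th x * l := by positivity
  have hT0 : (0 : ℝ) < (x : ℝ) ^ 2 := by positivity
  have hcap : ∀ e, ∑ i ∈ range (x ^ 2), cap x (X i) e ≤ 2 * x ^ 2 := fun e => by
    have := RoundM_cap (x := x) F X hF (fun i hi => (h i hi).sub) e (x ^ 2) le_rfl
    split_ifs at this <;> omega
  have hcapS : ∀ S : Finset E, ∑ i ∈ range (x ^ 2), G.cg x * ∑ e ∈ S, cap x (X i) e
      ≤ G.cg x * (#S * (2 * x ^ 2)) := fun S => by
    rw [← mul_sum, sum_comm]
    exact Nat.mul_le_mul_left _ (sum_le_card_nsmul _ _ _ fun e _ => hcap e)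
  have hq : ∀ z : V → ℝ, z ⬝ᵥ (G.Qavg x fun u v => ∑ i ∈ range (x ^ 2), H i u v) *ᵥ z
      = (50 * th x * l)⁻¹ * (th x * ∑ e, G.dz z e ^ 2 + th x / Fintype.card V * (z ⬝ᵥ z)
        + G.del x * ((∑ i ∈ range (x ^ 2), ∑ u, ∑ v, (H i u v : ℝ) * (z u - z v) ^ 2)
          / (x : ℝ) ^ 2)) := fun z => by
    rw [Qavg, smul_mulVec, dotProduct_smul, smul_eq_mul, qf_Qm, RoundM_avg]
  have hzz : ∀ z : V → ℝ, 0 ≤ z ⬝ᵥ z := fun z => sum_nonneg fun i _ => mul_self_nonneg _
  have hn0 : (0 : ℝ) ≤ Fintype.card V := Nat.cast_nonneg _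
  have hm0 : (0 : ℝ) ≤ Fintype.card E := Nat.cast_nonneg _
  refine ⟨(G.Qm_symm x _).smul _, fun z => ?_, fun z => ?_, fun S hS hS' => ?_, fun e he z => ?_⟩
  · rw [hq]
    have h1 : 0 ≤ th x * ∑ e, G.dz z e ^ 2 := by positivity
    have h2 : 0 ≤ G.del x * ((∑ i ∈ range (x ^ 2), ∑ u, ∑ v, (H i u v : ℝ) * (z u - z v) ^ 2)
          / (x : ℝ) ^ 2) := by positivity
    have h3 := hzz z
    rcases Nat.eq_zero_or_pos (Fintype.card V) with hn | hn
    · haveI := Fintype.card_eq_zero_iff.1 hn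
      have h4 : z ⬝ᵥ z = 0 := by simp [dotProduct]
      rw [h4]
      positivity
    · have hn' : (0 : ℝ) < Fintype.card V := Nat.cast_pos.2 hn
      have h4 : z ⬝ᵥ z ≤ ((50 * (Fintype.card V + Fintype.card E + 1) * x : ℕ) : ℝ)
          * ((50 * th x * l)⁻¹ * (th x / Fintype.card V * (z ⬝ᵥ z))) := by
        have h5 : ((50 * (Fintype.card V + Fintype.card E + 1) * x : ℕ) : ℝ)
            * ((50 * th x * l)⁻¹ * (th x / Fintype.card V * (z ⬝ᵥ z)))
            = ((Fintype.card V + Fintype.card E + 1) * x / (Fintype.card V * l)) * (z ⬝ᵥ z) := by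
          push_cast
          field_simp
        rw [h5]
        refine le_mul_of_one_le_left h3 ?_
        rw [one_le_div (by positivity)]
        exact mul_le_mul (by linarith) (by linarith) (by linarith) (by linarith)
      refine h4.trans (mul_le_mul_of_nonneg_left (mul_le_mul_of_nonneg_left (by linarith)
        (inv_pos.2 hp).le) (Nat.cast_nonneg _))
  · rw [hq, inv_mul_le_iff₀ hp]
    have h3 := hzz z
    have h1 : ∑ e, G.dz z e ^ 2 ≤ Fintype.card E * (2 * (z ⬝ᵥ z)) := by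
      have := sum_le_card_nsmul univ (fun e => G.dz z e ^ 2) _ fun e _ => G.dz_sq_le z e
      rwa [nsmul_eq_mul, card_univ] at this
    have h2 : th x / Fintype.card V ≤ th x := by
      rcases Nat.eq_zero_or_pos (Fintype.card V) with hn | hn
      · rw [hn, Nat.cast_zero, div_zero]; exact hth.le
      · exact div_le_self hth.le (Nat.one_le_cast.2 hn)
    have h4 : ∑ i ∈ range (x ^ 2), ∑ u, ∑ v, H i u v
        ≤ G.cg x * (Fintype.card E * (2 * x ^ 2)) :=
      (sum_le_sum fun i hi => (h i (mem_range.1 hi)).served.tot).trans (hcapS univ)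
    have h4' : ∑ i ∈ range (x ^ 2), ∑ u, ∑ v, (H i u v : ℝ)
        ≤ G.cg x * (Fintype.card E * (2 * (x : ℝ) ^ 2)) := by exact_mod_cast h4
    have h5 : ∑ i ∈ range (x ^ 2), ∑ u, ∑ v, (H i u v : ℝ) * (z u - z v) ^ 2
        ≤ (∑ i ∈ range (x ^ 2), ∑ u, ∑ v, (H i u v : ℝ)) * (4 * (z ⬝ᵥ z)) := by
      simp only [sum_mul]
      exact sum_le_sum fun i _ => sum_le_sum fun u _ => sum_le_sum fun v _ =>
        mul_le_mul_of_nonneg_left (RoundM_sq_le z u v) (Nat.cast_nonneg _)
    have h6 : (∑ i ∈ range (x ^ 2), ∑ u, ∑ v, (H i u v : ℝ) * (z u - z v) ^ 2) / (x : ℝ) ^ 2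
        ≤ G.cg x * (Fintype.card E * (8 * (z ⬝ᵥ z))) := by
      rw [div_le_iff₀ hT0]
      refine (h5.trans (mul_le_mul_of_nonneg_right h4' (by positivity))).trans (le_of_eq ?_)
      ring
    have h7 : G.del x * (G.cg x * (Fintype.card E * (8 * (z ⬝ᵥ z))))
        ≤ 24 * th x * l * (Fintype.card E * (8 * (z ⬝ᵥ z))) := by
      rw [← mul_assoc]
      exact mul_le_mul_of_nonneg_right hdc (by positivity)
    have h8 := mul_le_mul_of_nonneg_left h6 hdel
    have h9 := mul_le_mul_of_nonneg_left h1 hth.le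
    have h10 := mul_le_mul_of_nonneg_right h2 h3
    have h11 : 2 * (Fintype.card E : ℝ) + 1 + 192 * l * Fintype.card E
        ≤ 50 * l * (50 * (Fintype.card V + Fintype.card E + 1) * x) := by
      have a1 : (Fintype.card E : ℝ) + 1 ≤ (Fintype.card V + Fintype.card E + 1) * x := by nlinarith
      have a2 : (Fintype.card E : ℝ) + 1 ≤ l * (Fintype.card E + 1) := by nlinarith
      have a3 := mul_le_mul_of_nonneg_left a1 (by linarith : 0 ≤ l)
      nlinarith
    have h12 := mul_le_mul_of_nonneg_left h11 (mul_nonneg hth.le h3)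
    push_cast
    nlinarith
  · rw [hq, inv_mul_le_iff₀ hp]
    have hc1 : (1 : ℝ) ≤ #(G.cut S) := Nat.one_le_cast.2 (G.cut_nonempty hc hS hS').card_pos
    have h1 : ∑ e, G.dz (indR S) e ^ 2 = #(G.cut S) := by
      simp only [dz_indR_sq]
      rw [sum_ite_mem, univ_inter, sum_const, nsmul_eq_mul, mul_one]
    have h2 : th x / Fintype.card V * (indR S ⬝ᵥ indR S) ≤ th x := by
      have a1 : indR S ⬝ᵥ indR S ≤ Fintype.card V := by
        have := sum_le_card_nsmul univ (fun v => indR S v * indR S v) 1 fun v _ => by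
          unfold indR; split_ifs <;> norm_num
        rwa [nsmul_eq_mul, card_univ, mul_one] at this
      obtain ⟨v, -⟩ := hS
      have hn' : (0 : ℝ) < Fintype.card V := Nat.cast_pos.2 (Fintype.card_pos_iff.2 ⟨v⟩)
      refine (mul_le_mul_of_nonneg_left a1 (by positivity)).trans (le_of_eq ?_)
      field_simp
    have h4 : ∑ i ∈ range (x ^ 2), ∑ u, ∑ v, (if (u ∈ S ↔ v ∈ S) then 0 else H i u v)
        ≤ G.cg x * (#(G.cut S) * (2 * x ^ 2)) :=
      (sum_le_sum fun i hi => (h i (mem_range.1 hi)).served.cut S).trans (hcapS _)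
    have h5 : ∑ i ∈ range (x ^ 2), ∑ u, ∑ v, (H i u v : ℝ) * (indR S u - indR S v) ^ 2
        = ((∑ i ∈ range (x ^ 2), ∑ u, ∑ v, (if (u ∈ S ↔ v ∈ S) then 0 else H i u v) : ℕ) : ℝ) := by
      push_cast
      refine sum_congr rfl fun i _ => sum_congr rfl fun u _ => sum_congr rfl fun v _ => ?_
      unfold indR
      by_cases hu : u ∈ S <;> by_cases hv : v ∈ S <;> simp [hu, hv]
    have h6 : (∑ i ∈ range (x ^ 2), ∑ u, ∑ v, (H i u v : ℝ) * (indR S u - indR S v) ^ 2)
        / (x : ℝ) ^ 2 ≤ G.cg x * (#(G.cut S) * 2) := by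
      rw [div_le_iff₀ hT0, h5]
      refine (Nat.cast_le.2 h4).trans (le_of_eq ?_)
      push_cast
      ring
    have h7 : G.del x * (G.cg x * (#(G.cut S) * 2)) ≤ 24 * th x * l * (#(G.cut S) * 2) := by
      rw [← mul_assoc]
      exact mul_le_mul_of_nonneg_right hdc (by positivity)
    have h8 := mul_le_mul_of_nonneg_left h6 hdel
    have h9 : th x ≤ th x * #(G.cut S) := le_mul_of_one_le_right hth.le hc1
    have h10 : th x * #(G.cut S) ≤ th x * #(G.cut S) * l :=
      le_mul_of_one_le_right (by positivity) hl1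
    rw [h1]
    nlinarith
  · have hsub : ∀ i j, F (i + j) ⊆ F i := fun i j => by
      induction j with
      | zero => exact Subset.refl _
      | succ j ih => rw [← add_assoc, hF]; exact sdiff_subset.trans ih
    have h1 : ∀ i ∈ range (x ^ 2), G.dz z e ^ 2 ≤ th x * (th x * ∑ e, G.dz z e ^ 2
        + th x / Fintype.card V * (z ⬝ᵥ z)
        + G.del x * ∑ u, ∑ v, (H i u v : ℝ) * (z u - z v) ^ 2) := fun i hi => by
      have hi' := mem_range.1 hi
      have he' : e ∈ F i := hsub i (x ^ 2 - i) (by rwa [Nat.add_sub_cancel' hi'.le])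
      have := (h i hi').served.res e he' z
      rwa [qf_Qm] at this
    have h2 := sum_le_sum h1
    rw [← mul_sum, sum_add_distrib, ← mul_sum, sum_const, sum_const, card_range, nsmul_eq_mul,
      nsmul_eq_mul, Nat.cast_pow] at h2
    rw [hq, le_inv_mul_iff₀ hp]
    set A : ℝ := th x * ∑ e, G.dz z e ^ 2 + th x / Fintype.card V * (z ⬝ᵥ z) with hA
    set S : ℝ := ∑ i ∈ range (x ^ 2), ∑ u, ∑ v, (H i u v : ℝ) * (z u - z v) ^ 2 with hS
    have h3 : G.dz z e ^ 2 ≤ th x * (A + G.del x * (S / (x : ℝ) ^ 2)) := by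
      refine le_of_mul_le_mul_left (h2.trans (le_of_eq ?_)) hT0
      field_simp
    have h4 : 0 ≤ A + G.del x * (S / (x : ℝ) ^ 2) := by
      have := hzz z
      positivity
    have h5 : 50 * th x * l * x * th x ≤ 1 := by
      have : 50 * th x * l * x * th x = 819200 * l / x := by
        unfold th
        field_simp
        ring
      rw [this, div_le_one hx0]
      exact hlog
    calc 50 * th x * l * (x * G.dz z e ^ 2)
        ≤ 50 * th x * l * (x * (th x * (A + G.del x * (S / (x : ℝ) ^ 2)))) := by gcongr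
      _ = (50 * th x * l * x * th x) * (A + G.del x * (S / (x : ℝ) ^ 2)) := by ring
      _ ≤ A + G.del x * (S / (x : ℝ) ^ 2) := mul_le_of_le_one_left h4 h5

end MG
end Crest.Agent.R37
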