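import Crest.Agent.R37.InnerP
import Crest.Agent.R37.Oracle
import Crest.Agent.R37.RoundM

set_option autoImplicit false
open Finset Matrix Crest.CombinatoricsR.Multigraph
open Crest.Agent.Lib.PolyTime
open scoped Classical

noncomputable section
namespace Crest.Agent.R37
variable {α : Type} [PEnc α] {n m : α → ℕ} {G : ∀ a, MG (Fin (n a)) (Fin (m a))}
  {x κ : α → ℕ}

theorem RoundP_sumElim {β γ δ : α → Type} [∀ a, PEnc (β a)] [∀ a, PEnc (γ a)] [∀ a, PEnc (δ a)]
    {o : ∀ a, β a ⊕ γ a} (ho : DP o) {d : ∀ a, δ a} (hd : DP d) {f : ∀ a, β a → δ a}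
    {g : ∀ a, γ a → δ a} (hf : DP fun p : Σ a, β a => f p.1 p.2)
    (hg : DP fun p : Σ a, γ a => g p.1 p.2) : DP fun a => (o a).elim (f a) (g a) :=
  (ho.getLeft?.optionElim (ho.getRight?.optionElim hd hg) hf).congr fun a => by
    cases o a <;> rfl

theorem RoundP_add (hm : Poly m) (hb : PB m) {v w : ∀ a, Fin (m a) → ℕ} (hv : DP v) (hw : DP w) :
    DP fun a => v a + w a := by
  obtain ⟨L, hL, eL⟩ := hv.ent
  obtain ⟨L', hL', eL'⟩ := hw.ent
  refine DP.fn' hm hb ?_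
  simp only [Pi.add_apply, eL, eL']
  fun_prop

theorem RoundP_add₂ (hn : Poly n) (hb : PB n) {v w : ∀ a, Fin (n a) → Fin (n a) → ℕ} (hv : DP v)
    (hw : DP w) : DP fun a => v a + w a := by
  obtain ⟨L, hL, eL⟩ := hv.ent₂
  obtain ⟨L', hL', eL'⟩ := hw.ent₂
  refine DP.fn₂ hn hb hn hb ?_
  simp only [Pi.add_apply, eL, eL']
  fun_prop

theorem RoundP_zero₂ (hn : Poly n) (hb : PB n) :
    DP fun a => (fun _ _ => 0 : Fin (n a) → Fin (n a) → ℕ) :=
  DP.fn₂ hn hb hn hb (poly_const 0)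

theorem RoundP_sz₂ {k B : ℕ} {H : Fin k → Fin k → ℕ} (h : ∀ u v, H u v ≤ B) :
    sz H ≤ k * (k * (4 * B + 2) + 1 + 1) + 1 :=
  sz_fun_le fun u => sz_natFun_le (h u)

theorem RoundP_served_le {k l y : ℕ} {K : MG (Fin k) (Fin l)} {F X : Finset (Fin l)}
    {H : Fin k → Fin k → ℕ} (h : K.Served y F X H) (u v : Fin k) :
    H u v ≤ K.cg y * (l * (1 + y ^ 2)) := by
  have h1 : H u v ≤ ∑ u, ∑ v, H u v :=
    (single_le_sum (f := H u) (fun _ _ => Nat.zero_le _) (mem_univ v)).trans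
      (single_le_sum (f := fun u => ∑ v, H u v) (fun _ _ => Nat.zero_le _) (mem_univ u))
  refine (h1.trans h.tot).trans (Nat.mul_le_mul_left _ ?_)
  refine (sum_le_card_nsmul _ _ (1 + y ^ 2) fun e _ => ?_).trans (by simp)
  unfold cap
  split_ifs <;> omega

/-- The invariant of the loop of a round. -/
def RoundP_I {k l : ℕ} (K : MG (Fin k) (Fin l)) (y κ U : ℕ) (F : Finset (Fin l)) (J : ℕ) :
    (Fin l → ℕ) ⊕ (Finset (Fin l) × (Fin k → Fin k → ℕ)) → Prop
  | .inl L => ∃ Δ : ℕ → Fin l → ℕ, L = MG.Lof U Δ J ∧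
      ∀ J' < J, K.Fail y U F (K.Xof κ F (MG.Lof U Δ J')) (Δ J')
  | .inr o => K.RoundOK y κ F o.1 o.2

theorem RoundP_Lof_update {E : Type} (U : ℕ) (Δ : ℕ → E → ℕ) (J : ℕ) (D : E → ℕ) {J' : ℕ}
    (h : J' ≤ J) : MG.Lof U (Function.update Δ J D) J' = MG.Lof U Δ J' := by
  funext e
  unfold MG.Lof
  congr 1
  refine sum_congr rfl fun i hi => ?_
  rw [Function.update_of_ne (by have := mem_range.1 hi; omega)]

/-- The ground sets of the rounds. -/
def RoundP_F {E : Type} [Fintype E] [DecidableEq E] (X : ℕ → Finset E) : ℕ → Finset E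
  | 0 => univ
  | i + 1 => RoundP_F X i \ X i

theorem RoundP_F_update {E : Type} [Fintype E] [DecidableEq E] (X : ℕ → Finset E) (J : ℕ)
    (D : Finset E) : ∀ J' ≤ J, RoundP_F (Function.update X J D) J' = RoundP_F X J' := by
  intro J'
  induction J' with
  | zero => intro _; rfl
  | succ i ih =>
    intro h
    rw [RoundP_F, RoundP_F, ih (by omega), Function.update_of_ne (by omega)]

/-- The invariant of the loop of the service. -/
def RoundP_J {k l : ℕ} (K : MG (Fin k) (Fin l)) (y κ : ℕ) (i : ℕ)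
    (s : Finset (Fin l) × (Fin k → Fin k → ℕ)) : Prop :=
  ∃ (X : ℕ → Finset (Fin l)) (H : ℕ → Fin k → Fin k → ℕ),
    (∀ i' < i, K.RoundOK y (κ - (i' + 1) * y ^ 5) (RoundP_F X i') (X i') (H i')) ∧
      s.1 = RoundP_F X i ∧ s.2 = fun u v => ∑ i' ∈ range i, H i' u v

theorem RoundP_J_pc {k l : ℕ} {K : MG (Fin k) (Fin l)} {y κ i : ℕ}
    {s : Finset (Fin l) × (Fin k → Fin k → ℕ)} (h : RoundP_J K y κ i s) (hpc : K.PC κ (ind univ))
    (hi : (i + 1) * y ^ 5 ≤ κ) : K.PC (κ - (i + 1) * y ^ 5 + y ^ 5) (ind s.1) := by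
  obtain ⟨X, H, hR, hF, -⟩ := h
  rw [hF]
  rcases i with _ | i
  · exact hpc.mono (by omega) le_rfl
  · refine (hR i (by omega)).pc.mono ?_ le_rfl
    rw [add_mul (i + 1)] at hi ⊢
    omega

theorem RoundP_J_step {k l : ℕ} {K : MG (Fin k) (Fin l)} {y κ i : ℕ}
    {s r : Finset (Fin l) × (Fin k → Fin k → ℕ)} (h : RoundP_J K y κ i s)
    (h3 : K.RoundOK y (κ - (i + 1) * y ^ 5) s.1 r.1 r.2) :
    RoundP_J K y κ (i + 1) (s.1 \ r.1, s.2 + r.2) := by
  obtain ⟨X, H, hR, hF, hH⟩ := h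
  refine ⟨Function.update X i r.1, Function.update H i r.2, fun j hj => ?_, ?_, ?_⟩
  · rw [RoundP_F_update _ _ _ _ (by omega)]
    rcases Nat.lt_succ_iff_lt_or_eq.1 hj with h4 | rfl
    · rw [Function.update_of_ne h4.ne, Function.update_of_ne h4.ne]
      exact hR j h4
    · rw [Function.update_self, Function.update_self, ← hF]
      exact h3
  · rw [RoundP_F, RoundP_F_update _ _ _ _ le_rfl, Function.update_self, hF]
  · funext u v
    rw [sum_range_succ, Function.update_self, hH]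
    refine congrArg (· + r.2 u v) (sum_congr rfl fun j hj => ?_)
    rw [Function.update_of_ne (mem_range.1 hj).ne]

/-- One round. -/
theorem PG.exists_round (hG : PG G) (hx : Poly x) (hxb : PB x) (hκ : Poly κ)
    {F : ∀ a, Finset (Fin (m a))} (hF : DP F) (h1 : ∀ a, 320000 ≤ x a)
    (h2 : ∀ a, 40000 * (Nat.log 2 (κ a) + 1) * x a ^ 6 ≤ κ a)
    (hpc : ∀ a, (G a).PC (κ a + x a ^ 5) (ind (F a))) (hm : ∀ a, 0 < m a) :
    ∃ o : ∀ a, Finset (Fin (m a)) × (Fin (n a) → Fin (n a) → ℕ), DP o ∧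
      ∀ a, (G a).RoundOK (x a) (κ a) (F a) (o a).1 (o a).2 := by
  have hnp := hG.np; have hnb := hG.nb; have hmp := hG.mp; have hmb := hG.mb
  obtain ⟨U, hU, hUb, eU⟩ : ∃ U : α → ℕ, Poly U ∧ PB U ∧ ∀ a, U a = m a * (1 + x a ^ 2) :=
    ⟨_, by fun_prop, by fun_prop, fun _ => rfl⟩
  have hU1 : ∀ a, 1 ≤ U a := fun a => by
    rw [eU]; exact Nat.mul_pos (hm a) (by omega)
  have hc : ∀ a u v, (G a).Conn univ u v := fun a =>
    (hpc a).conn_univ (le_add_left (Nat.one_le_pow _ _ (by have := h1 a; omega)))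
  have hX : DP fun p : Σ a, Fin (m a) → ℕ => (G p.1).Xof (κ p.1) (F p.1) p.2 :=
    (hG.comp poly_fst).Xof (hκ.comp poly_fst) (hF.comp poly_fst) DP.snd
  obtain ⟨o, ho, hoI⟩ := (hG.comp (poly_fst (β := fun a => Fin (m a) → ℕ))).exists_inner
    (hx.comp poly_fst) (hxb.comp poly_fst) (hU.comp poly_fst) (hF.comp poly_fst) hX
    (fun p => by have := h1 p.1; omega) (fun p => hc p.1) (fun p => (eU p.1).ge)
  let β : α → Type := fun a =>
    (Fin (m a) → ℕ) ⊕ (Finset (Fin (m a)) × (Fin (n a) → Fin (n a) → ℕ))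
  let nx : ∀ a, (Fin (m a) → ℕ) → β a := fun a L =>
    (o ⟨a, L⟩).elim (fun H => .inr ((G a).Xof (κ a) (F a) L, H)) fun Δ => .inl (L + Δ)
  have hnx : DP fun p : Σ a, Fin (m a) → ℕ => nx p.1 p.2 :=
    RoundP_sumElim (δ := fun p : Σ a, Fin (m a) → ℕ => β p.1) ho DP.snd.inl
      ((hX.comp poly_fst).pair DP.snd).inr
      (RoundP_add (hmp.comp (poly_fst.comp poly_fst)) (hmb.comp (poly_fst.comp poly_fst))
        (DP.snd.comp poly_fst) DP.snd).inl
  let st : ∀ a, β a → β a := fun a s => s.elim (nx a) .inr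
  have hst : DP fun p : Σ a, β a => st p.1 p.2 :=
    RoundP_sumElim (δ := fun p : Σ a, β a => β p.1) (f := fun p L => nx p.1 L)
      (g := fun _ o => .inr o) DP.snd DP.snd
      (hnx.comp (DP.sigma (poly_fst.comp poly_fst) DP.snd)) DP.snd.inr
  have hI : ∀ a J s, RoundP_I (G a) (x a) (κ a) (U a) (F a) J s →
      RoundP_I (G a) (x a) (κ a) (U a) (F a) (J + 1) (st a s) := by
    rintro a J (L | r) h
    · obtain ⟨Δ, rfl, hΔ⟩ := h
      have h3 := hoI ⟨a, MG.Lof (U a) Δ J⟩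
      simp only [st, nx, Sum.elim_inl]
      rcases e : o ⟨a, MG.Lof (U a) Δ J⟩ with H | D
      · rw [e] at h3
        refine ⟨MG.Xof_subset _ _ _, MG.pc_Xof (fun f => ?_) ((hpc a).mono (by omega) le_rfl), h3⟩
        have := MG.RoundM_le_Lof (U a) Δ J f
        have := hU1 a
        omega
      · rw [e] at h3
        refine ⟨Function.update Δ J D, ?_, fun J' hJ' => ?_⟩
        · funext f
          rw [MG.RoundM_Lof_succ, RoundP_Lof_update _ _ _ _ le_rfl, Function.update_self]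
          rfl
        · rw [RoundP_Lof_update _ _ _ _ (by omega)]
          rcases Nat.lt_succ_iff_lt_or_eq.1 hJ' with h4 | rfl
          · rw [Function.update_of_ne h4.ne]
            exact hΔ J' h4
          · rw [Function.update_self]
            exact h3
    · exact h
  have hcg := (hG.cg hx).2
  obtain ⟨out, hout, hfin⟩ := DP.loop (β := β) hmp hmb
    (B := fun a => (m a * (4 * (3 * U a + m a * U a) + 2) + 1 + 2) + (m a * 4 + 1 +
      (n a * (n a * (4 * ((G a).cg (x a) * (m a * (1 + x a ^ 2))) + 2) + 1 + 1) + 1) + 1 + 4))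
    (by fun_prop) (fun a => RoundP_I (G a) (x a) (κ a) (U a) (F a))
    (init := fun a => .inl fun _ => 3 * U a) (DP.inl (DP.fn' hmp hmb (by fun_prop)))
    (fun a => ⟨fun _ _ => 0, by funext e; simp [MG.Lof], fun _ h => absurd h (Nat.not_lt_zero _)⟩)
    ⟨fun p => st p.1.1 p.1.2.2, hst.comp (DP.sigma (poly_fst.comp poly_val)
      ((DP.snd (β := fun a => Un × β a)).snd'.restrict _)), fun p => hI _ _ _ p.2.1⟩ (by
      rintro a i (L | r) hi h
      · obtain ⟨Δ, rfl, hΔ⟩ := h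
        have : sz (MG.Lof (U a) Δ i) ≤ m a * (4 * (3 * U a + m a * U a) + 2) + 1 :=
          sz_natFun_le fun e => by
            refine Nat.add_le_add_left ?_ _
            refine (sum_le_card_nsmul _ _ (U a) fun j hj => (hΔ j (mem_range.1 hj)).le e).trans ?_
            rw [card_range, smul_eq_mul]
            exact Nat.mul_le_mul_right _ hi
        refine le_trans ?_ (Nat.le_add_right _ _)
        exact (sz_inl _).le.trans (Nat.add_le_add_right this 2)
      · have h3 := RoundP_sz₂ (RoundP_served_le h.served)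
        have h4 := sz_finset_le r.1
        refine le_trans ?_ (Nat.le_add_left _ _)
        refine (sz_inr _).le.trans ?_
        rw [sz_prod]
        omega)
  refine ⟨fun a => (out a).elim (fun _ => (F a, fun _ _ => 0)) id,
    RoundP_sumElim hout (hF.pair (RoundP_zero₂ hnp hnb))
      ((hF.pair (RoundP_zero₂ hnp hnb)).comp poly_fst) DP.snd, fun a => ?_⟩
  have h3 := hfin a
  rcases e : out a with L | r
  · rw [e] at h3
    obtain ⟨Δ, -, hΔ⟩ := h3
    exact absurd (by simpa using hΔ)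
      (MG.round_math (h1 a) (h2 a) (hpc a) (by simpa using hm a) (hU1 a) Δ)
  · rw [e] at h3
    simp only [e, Sum.elim_inr, id]
    exact h3

/-- The service: a slightly less connected ground set and a quadratic form serving it. -/
theorem PG.exists_service (hG : PG G) (hx : Poly x) (hxb : PB x) (hκ : Poly κ)
    (h1 : ∀ a, 2 ^ 25 ≤ x a)
    (h2 : ∀ a, 40000 * (Nat.log 2 (κ a) + 1) * x a ^ 6 + x a ^ 7 ≤ κ a)
    (hpc : ∀ a, (G a).PC (κ a) (ind univ)) (hm : ∀ a, 0 < m a) :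
    ∃ (F : ∀ a, Finset (Fin (m a))) (Q : ∀ a, Matrix (Fin (n a)) (Fin (n a)) ℝ), DP F ∧ PRM Q ∧
      ∀ a, (G a).PC (κ a - x a ^ 7) (ind (F a)) ∧
        (G a).QOK (x a) (50 * (n a + m a + 1) * x a) (F a) (Q a) := by
  have hnp := hG.np; have hnb := hG.nb; have hmp := hG.mp; have hmb := hG.mb
  have hx1 : ∀ a, 1 ≤ x a := fun a => le_trans (by norm_num) (h1 a)
  have h7 : ∀ a i, i < x a ^ 2 → (i + 1) * x a ^ 5 ≤ x a ^ 7 := fun a i hi => by
    rw [show x a ^ 7 = x a ^ 2 * x a ^ 5 by ring]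
    exact Nat.mul_le_mul_right _ hi
  let β : α → Type := fun a => Finset (Fin (m a)) × (Fin (n a) → Fin (n a) → ℕ)
  let P := {p : Σ a, Un × β a // RoundP_J (G p.1) (x p.1) (κ p.1) p.2.1.n p.2.2 ∧
    p.2.1.n < x p.1 ^ 2}
  have hg : Poly fun p : P => p.1.1 := poly_fst.comp poly_val
  have hs : DP fun p : P => p.1.2.2 := (DP.snd (β := fun a => Un × β a)).snd'.restrict _
  have hi : Poly fun p : P => p.1.2.1.n :=
    ((DP.snd (β := fun a => Un × β a)).fst.restrict _).poly.unVal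
  obtain ⟨o, ho, hoI⟩ := (hG.comp hg).exists_round (hx.comp hg) (hxb.comp hg)
    (κ := fun p : P => κ p.1.1 - (p.1.2.1.n + 1) * x p.1.1 ^ 5)
    ((hκ.comp hg).sub ((hi.add (poly_const 1)).mul (by have := hx.comp hg; fun_prop))) hs.fst
    (fun p => le_trans (by norm_num) (h1 p.1.1))
    (fun p => by
      have h3 := h7 _ _ p.2.2
      have h4 := h2 p.1.1
      have h5 : Nat.log 2 (κ p.1.1 - (p.1.2.1.n + 1) * x p.1.1 ^ 5) ≤ Nat.log 2 (κ p.1.1) :=
        Nat.log_mono_right (Nat.sub_le _ _)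
      have h6 : 40000 * (Nat.log 2 (κ p.1.1 - (p.1.2.1.n + 1) * x p.1.1 ^ 5) + 1) * x p.1.1 ^ 6 ≤
          40000 * (Nat.log 2 (κ p.1.1) + 1) * x p.1.1 ^ 6 := by gcongr
      omega)
    (fun p => RoundP_J_pc p.2.1 (hpc p.1.1) (by
      have h3 := h7 _ _ p.2.2
      have h4 := h2 p.1.1
      omega))
    (fun p => hm p.1.1)
  have hcg := (hG.cg hx).2
  obtain ⟨out, hout, hfin⟩ := DP.loop (β := β) (T := fun a => x a ^ 2) (by fun_prop) (by fun_prop)
    (B := fun a => m a * 4 + 1 + (n a * (n a * (4 * (x a ^ 2 *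
      ((G a).cg (x a) * (m a * (1 + x a ^ 2)))) + 2) + 1 + 1) + 1) + 1)
    (by fun_prop) (fun a => RoundP_J (G a) (x a) (κ a))
    (init := fun a => (univ, fun _ _ => 0)) ((DP.univ hmp hmb).pair (RoundP_zero₂ hnp hnb))
    (fun a => ⟨fun _ => ∅, fun _ _ _ => 0, fun _ h => absurd h (Nat.not_lt_zero _), rfl, rfl⟩)
    ⟨fun p : P => (p.1.2.2.1 \ (o p).1, p.1.2.2.2 + (o p).2),
      (DP.sdiff (hmp.comp hg) (hmb.comp hg) hs.fst ho.fst).pair
        (RoundP_add₂ (hnp.comp hg) (hnb.comp hg) hs.snd' ho.snd'),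
      fun p => RoundP_J_step p.2.1 (hoI p)⟩ (by
      rintro a i s hi ⟨X, H, hR, -, hH⟩
      have h3 : sz s.2 ≤ _ := RoundP_sz₂ (B := x a ^ 2 * ((G a).cg (x a) * (m a * (1 + x a ^ 2))))
        fun u v => by
          rw [hH]
          refine (sum_le_card_nsmul _ _ _ fun j hj =>
            RoundP_served_le (hR j (mem_range.1 hj)).served u v).trans ?_
          rw [card_range, smul_eq_mul]
          exact Nat.mul_le_mul_right _ hi
      have h4 := sz_finset_le s.1
      rw [sz_prod]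
      omega)
  refine ⟨fun a => (out a).1, fun a => (G a).Qavg (x a) (out a).2, hout.fst,
    hG.Qavg hx hout.snd', fun a => ?_⟩
  obtain ⟨X, H, hR, hF, hH⟩ := hfin a
  have hκ1 : 1 ≤ κ a := by
    have := h2 a
    have := Nat.one_le_pow 7 _ (hx1 a)
    omega
  have := MG.service_math (h1 a) ((hpc a).conn_univ hκ1) (RoundP_F X) X H (fun _ => rfl) hR
  simp only [Fintype.card_fin] at this
  simp only [hF, hH]
  exact this

end Crest.Agent.R37
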