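import Crest.Agent.R37.KSPb
import Crest.Agent.R37.RoundP

set_option autoImplicit false
open Finset Matrix Crest.CombinatoricsR.Multigraph
open Crest.Agent.Lib.PolyTime
open scoped Classical

noncomputable section
namespace Crest.Agent.R37
namespace MG
variable {V E E' : Type} [Fintype V] [DecidableEq V] [Fintype E] [DecidableEq E] [Fintype E']
  [DecidableEq E']

/-- The submultigraph along an embedding of edge sets. -/
def pull (G : MG V E) (ι : E' ↪ E) : MG V E' :=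
  ⟨fun e => G.src (ι e), fun e => G.tgt (ι e), fun e => G.ne (ι e)⟩

theorem Halve_ncomp (G : MG V E) (ι : E' ↪ E) (A : Finset E') :
    (G.pull ι).ncomp A = G.ncomp (A.map ι) := by
  have h : adjGraph (G.pull ι).src (G.pull ι).tgt A = adjGraph G.src G.tgt (A.map ι) := by
    ext u v
    simp [adjGraph, pull]
  have h2 : (G.pull ι).comp A = G.comp (A.map ι) := by
    funext u
    ext v
    rw [PC_mem_comp, PC_mem_comp, Conn, Conn, h]
  rw [ncomp, ncomp, h2]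

omit [Fintype E] [Fintype E'] in
theorem Halve_card (ι : E' ↪ E) (A : Finset E') {B' : Finset E'} {B : Finset E}
    (h : ∀ e, e ∈ B' ↔ ι e ∈ B) : #(A ∩ B') = #(A.map ι ∩ B) := by
  rw [← card_map ι]
  congr 1
  ext e
  simp only [mem_map, mem_inter, h]
  constructor
  · rintro ⟨f, ⟨h1, h2⟩, rfl⟩
    exact ⟨⟨f, h1, rfl⟩, h2⟩
  · rintro ⟨⟨f, h1, rfl⟩, h2⟩
    exact ⟨f, ⟨h1, h2⟩, rfl⟩

theorem pull_pc (G : MG V E) (ι : E' ↪ E) (k : ℕ) (A : Finset E') :
    (G.pull ι).PC k (ind A) ↔ G.PC k (ind (A.map ι)) := by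
  refine ⟨fun h B => ?_, fun h B => ?_⟩
  · have h1 := h (univ.filter fun e => ι e ∈ B)
    rw [sum_ind, Halve_ncomp, Halve_card ι A (B := Bᶜ) (by simp)] at h1
    rw [sum_ind]
    refine (Nat.mul_le_mul_left k (G.ncomp_anti fun e he => ?_)).trans h1
    obtain ⟨f, hf, rfl⟩ := mem_map.1 he
    exact (mem_filter.1 hf).2
  · have h1 := h (B.map ι)
    rw [sum_ind] at h1
    rwa [sum_ind, Halve_ncomp, Halve_card ι A (B := (B.map ι)ᶜ) (by simp)]

theorem pull_cut (G : MG V E) (ι : E' ↪ E) (A : Finset E') (S : Finset V) :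
    #(A ∩ (G.pull ι).cut S) = #(A.map ι ∩ G.cut S) :=
  Halve_card ι A fun e => by simp [mem_cut, pull]

end MG

theorem Halve_y {κ : ℕ} (h : 2 ^ 300 ≤ κ) :
    1024 ≤ yOf κ ∧ yOf κ ^ 30 ≤ κ ∧ Nat.log 2 κ + 1 ≤ 30 * yOf κ := by
  have h0 : κ ≠ 0 := (Nat.two_pow_pos _).trans_le h |>.ne'
  have h1 : 300 ≤ Nat.log 2 κ := (Nat.le_log_iff_pow_le Nat.one_lt_two h0).2 h
  clear h
  refine ⟨Nat.pow_le_pow_right (n := 2) (by norm_num) (show 10 ≤ _ by omega), ?_, ?_⟩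
  · rw [yOf, ← pow_mul]
    exact (Nat.pow_le_pow_right (by norm_num) (by omega)).trans (Nat.pow_log_le_self 2 h0)
  · have : Nat.log 2 κ / 30 < yOf κ := Nat.lt_two_pow_self
    omega

theorem Halve_num {κ : ℕ} (h : 2 ^ 300 ≤ κ) :
    40000 * (Nat.log 2 κ + 1) * (yOf κ ^ 3) ^ 6 + (yOf κ ^ 3) ^ 7 ≤ κ := by
  obtain ⟨h1, h2, h3⟩ := Halve_y h
  generalize yOf κ = y at *
  have h4 : 1024 ^ 3 ≤ y ^ 3 := Nat.pow_le_pow_left h1 3
  have h5 : y ^ 21 ≤ y ^ 22 := Nat.pow_le_pow_right (by omega) (by norm_num)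
  have h6 : y ^ 23 ≤ y ^ 30 := Nat.pow_le_pow_right (by omega) (by norm_num)
  calc _ ≤ 40000 * (30 * y) * (y ^ 3) ^ 6 + (y ^ 3) ^ 7 := by gcongr
    _ = 1200000 * y ^ 19 + y ^ 21 := by ring
    _ ≤ y ^ 3 * y ^ 19 + y ^ 22 := by gcongr; omega
    _ = 2 * y ^ 22 := by ring
    _ ≤ y * y ^ 22 := by gcongr; omega
    _ = y ^ 23 := by ring
    _ ≤ κ := h6.trans h2

variable {α : Type} [PEnc α] {n m : α → ℕ} {G : ∀ a, MG (Fin (n a)) (Fin (m a))}
  {κ : α → ℕ}

theorem Halve_poly_y (hκ : Poly κ) : Poly fun a => yOf (κ a) := by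
  unfold yOf
  fun_prop

theorem Halve_pb_y (hκb : PB κ) : PB fun a => yOf (κ a) :=
  hκb.two_pow_log.mono fun _ => Nat.pow_le_pow_right (by norm_num) (Nat.div_le_self _ _)

theorem Halve_poly_nxt (hκ : Poly κ) : Poly fun a => nxt (κ a) := by
  have := Halve_poly_y hκ
  unfold nxt
  fun_prop

/-- Halving the whole graph. -/
theorem PG.exists_halve₀ (hG : PG G) (hκ : Poly κ) (hκb : PB κ) (h1 : ∀ a, 2 ^ 300 ≤ κ a)
    (h2 : ∀ a, 2 ≤ n a) (hpc : ∀ a, (G a).PC (κ a) (ind univ)) :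
    ∃ o : ∀ a, Finset (Fin (m a)), DP o ∧ ∀ a, (G a).PC (nxt (κ a)) (ind (o a)) ∧
      ∀ S : Finset (Fin (n a)), S.Nonempty → S ≠ univ →
        (#(o a ∩ (G a).cut S) : ℝ) ≤ (1 / 2 + 103 / yOf (κ a)) * #((G a).cut S) := by
  have hy := Halve_poly_y hκ
  have hyb := Halve_pb_y hκb
  have := hG.np; have := hG.nb; have := hG.mp; have := hG.mb
  obtain ⟨F, Q, hF, hQ, h⟩ := hG.exists_service (x := fun a => yOf (κ a) ^ 3) (by fun_prop)
    (by fun_prop) hκ (fun a => le_trans (by norm_num) (Nat.pow_le_pow_left (Halve_y (h1 a)).1 3))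
    (fun a => Halve_num (h1 a)) hpc fun a => by
      have h3 : 1 ≤ κ a := Nat.one_le_two_pow.trans (h1 a)
      have h4 := h2 a
      obtain ⟨e, -⟩ := (G a).cut_nonempty ((hpc a).conn_univ h3) (S := {⟨0, by omega⟩})
        (singleton_nonempty _) fun h => by
          have := congrArg card h
          simp at this
          omega
      exact e.pos
  obtain ⟨o, ho, h'⟩ := PK.exists_out (P := fun a => ⟨G a, yOf (κ a),
    50 * (n a + m a + 1) * yOf (κ a) ^ 3, nxt (κ a), F a, Q a⟩)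
    ⟨hG, hy, hyb, by fun_prop, by fun_prop, Halve_poly_nxt hκ, hF, hQ⟩ fun a =>
    ⟨le_trans (by norm_num) (Halve_y (h1 a)).1, (h a).1.mono (by
      rw [← pow_mul]
      exact Nat.mul_div_le _ _) le_rfl, (h a).2⟩
  exact ⟨o, ho, fun a => (h' a).2⟩

theorem Halve_emb (hm : Poly m) (hb : PB m) {F : ∀ a, Finset (Fin (m a))} (hF : DP F) :
    DP fun a => ((F a).orderEmbOfFin rfl : Fin #(F a) → Fin (m a)) := by
  obtain ⟨L, hL, eL⟩ := hF.entS
  have h : Poly fun a => (List.range (m a)).filter (L a) := (hm.range hb).filter hL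
  refine h.enc'.congr fun a => ?_
  have h1 : (F a).sort = (List.finRange (m a)).filter fun i : Fin (m a) => L a i :=
    (F a).sortedLT_sort.eq_of_mem_iff
      ((List.pairwise_lt_finRange _).filter _).sortedLT (by simp [eL])
  rw [enc_fun, List.ofFn_eq_map, listMap_orderEmbOfFin_finRange, h1,
    ← List.map_coe_finRange_eq_range, List.filter_map]
  conv_rhs => rw [← List.map_id (List.filter _ _)]
  exact enc_map_congr fun _ _ => rfl

/-- Halving a subgraph. -/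
theorem PG.exists_halve (hG : PG G) (hκ : Poly κ) (hκb : PB κ) (h1 : ∀ a, 2 ^ 300 ≤ κ a)
    (h2 : ∀ a, 2 ≤ n a) {F : ∀ a, Finset (Fin (m a))} (hF : DP F)
    (hpc : ∀ a, (G a).PC (κ a) (ind (F a))) :
    ∃ o : ∀ a, Finset (Fin (m a)), DP o ∧ ∀ a, o a ⊆ F a ∧ (G a).PC (nxt (κ a)) (ind (o a)) ∧
      ∀ S : Finset (Fin (n a)), S.Nonempty → S ≠ univ →
        (#(o a ∩ (G a).cut S) : ℝ) ≤ (1 / 2 + 103 / yOf (κ a)) * #(F a ∩ (G a).cut S) := by
  have hc := hF.card hG.mp hG.mb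
  have hcb : PB fun a => #(F a) := hG.mb.mono fun a => by simpa using card_le_univ (F a)
  have hι := Halve_emb hG.mp hG.mb hF
  let ι : ∀ a, Fin #(F a) ↪ Fin (m a) := fun a => ((F a).orderEmbOfFin rfl).toEmbedding
  have eι : ∀ a, univ.map (ι a) = F a := fun a => map_orderEmbOfFin_univ _ _
  have hι' : DP fun p : Σ a, Fin #(F a) => ι p.1 p.2 := (hι.comp poly_fst).app DP.snd
  have hG' : PG fun a => (G a).pull (ι a) :=
    ⟨hG.np, hG.nb, hc, hcb, DP.fn hc hcb ((hG.src.comp poly_fst).app hι'),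
      DP.fn hc hcb ((hG.tgt.comp poly_fst).app hι')⟩
  obtain ⟨o, ho, h⟩ := hG'.exists_halve₀ hκ hκb h1 h2 fun a => by
    rw [MG.pull_pc, eι]
    exact hpc a
  refine ⟨fun a => (o a).map (ι a), DP.set hG.mp hG.mb ?_, fun a => ⟨?_, ?_, fun S hS hS' => ?_⟩⟩
  · obtain ⟨L, hL, eL⟩ := ho.entS
    obtain ⟨I, hI, eI⟩ := DP.entF (v := fun a => ι a) hι
    simp only [mem_map, eL, Fin.ext_iff, eI]
    exact Poly.decide_exists_fin (hc.comp poly_fst) (hcb.comp poly_fst) (by fun_prop)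
  · rw [← eι a]
    exact map_subset_map.2 (subset_univ _)
  · exact (MG.pull_pc _ _ _ _).1 (h a).1
  · have := (h a).2 S hS hS'
    rwa [← univ_inter (((G a).pull (ι a)).cut S), MG.pull_cut, ← inter_assoc, inter_univ,
      MG.pull_cut, eι] at this

end Crest.Agent.R37
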