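import Crest.Agent.R37.Resolv
import Crest.Agent.R37.PC

set_option autoImplicit false
set_option linter.unusedSectionVars false
open Finset Matrix Crest.CombinatoricsR.Multigraph
open scoped Classical

noncomputable section
namespace Crest.Agent.R37

namespace InnerA

theorem pow_one_sub_le (q : ℕ) {t : ℝ} (h0 : 0 ≤ t) (h1 : t ≤ 1) (hq : q * t ≤ 1 / 4) :
    (1 - t) ^ q ≤ 1 - 4 / 5 * (q * t) := by
  have hs : 0 ≤ q * t := by positivity
  have h2 : (1 - t) ^ q * (1 + q * t) ≤ 1 := by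
    calc _ ≤ (1 - t) ^ q * (1 + t) ^ q :=
          mul_le_mul_of_nonneg_left (one_add_mul_le_pow (by linarith) q)
            (pow_nonneg (by linarith) q)
      _ = ((1 - t) * (1 + t)) ^ q := (mul_pow _ _ _).symm
      _ ≤ 1 := pow_le_one₀ (mul_nonneg (by linarith) (by linarith)) (by nlinarith)
  refine le_of_mul_le_mul_right (h2.trans ?_) (by linarith : 0 < 1 + q * t)
  nlinarith

theorem pow_step {q : ℕ} (hq : 3 ≤ q) {R S δ g : ℝ} (hR : 0 < R) (hS : 0 ≤ S) (hδ : 0 ≤ δ)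
    (hg : g ^ 2 ≤ R * S) (ha : q * (δ * S) ≤ 1 / 4) :
    (R - δ * g ^ 2 / (1 + δ * S)) ^ q ≤ R ^ q - 7 / 10 * (q * δ) * (R ^ (q - 1) * g ^ 2) := by
  have hq' : (3 : ℝ) ≤ q := by exact_mod_cast hq
  have ha0 : 0 ≤ δ * S := mul_nonneg hδ hS
  have ha1 : δ * S ≤ 1 / 12 := by nlinarith
  set t := δ * g ^ 2 / (R * (1 + δ * S)) with ht
  have ht0 : 0 ≤ t := by positivity
  have ht1 : t ≤ δ * S := by
    rw [ht, div_le_iff₀ (by positivity)]
    have := mul_le_mul_of_nonneg_left hg hδ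
    nlinarith [mul_nonneg (mul_nonneg ha0 ha0) hR.le]
  have ht2 : 7 / 8 * (δ * g ^ 2) ≤ R * t := by
    have e : R * t = δ * g ^ 2 / (1 + δ * S) := by rw [ht]; field_simp
    rw [e, le_div_iff₀ (by positivity)]
    have : 0 ≤ δ * g ^ 2 := by positivity
    nlinarith
  have e : R - δ * g ^ 2 / (1 + δ * S) = R * (1 - t) := by rw [ht]; field_simp
  have h := pow_one_sub_le q ht0 (by linarith) ((mul_le_mul_of_nonneg_left ht1 (by linarith)).trans ha)
  obtain ⟨p, rfl⟩ : ∃ p, q = p + 1 := ⟨q - 1, by omega⟩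
  rw [e, mul_pow, Nat.add_sub_cancel]
  have hp : 0 ≤ R ^ p * ((p + 1 : ℕ) : ℝ) := by positivity
  calc _ ≤ R ^ (p + 1) * (1 - 4 / 5 * (((p + 1 : ℕ) : ℝ) * t)) :=
        mul_le_mul_of_nonneg_left h (by positivity)
    _ = R ^ (p + 1) - 4 / 5 * (R ^ p * ((p + 1 : ℕ) : ℝ) * (R * t)) := by ring
    _ ≤ R ^ (p + 1) - 4 / 5 * (R ^ p * ((p + 1 : ℕ) : ℝ) * (7 / 8 * (δ * g ^ 2))) := by gcongr
    _ = _ := by ring

theorem one_add_pow_le {a : ℝ} (ha : 0 ≤ a) (j : ℕ) (h : 2 * a * j ≤ 1) :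
    (1 + a) ^ j ≤ 1 + 2 * a * j := by
  induction j with
  | zero => simp
  | succ j ih =>
    push_cast at h ⊢
    have h1 : 2 * a * j ≤ 1 := by linarith
    calc _ ≤ (1 + 2 * a * j) * (1 + a) := by
          rw [pow_succ]
          exact mul_le_mul_of_nonneg_right (ih h1) (by linarith)
      _ ≤ _ := by nlinarith

theorem th_pos {x : ℕ} (hx : 1 ≤ x) : 0 < th x := by
  have : (0 : ℝ) < x := by exact_mod_cast hx
  exact div_pos (by norm_num) this

theorem one_le_cap {E : Type} [DecidableEq E] (x : ℕ) (X : Finset E) (e : E) :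
    (1 : ℝ) ≤ cap x X e := by
  have : 1 ≤ cap x X e := by
    unfold cap
    split_ifs <;> omega
  exact_mod_cast this

theorem dot_self_nonneg {V : Type} [Fintype V] (z : V → ℝ) : 0 ≤ z ⬝ᵥ z :=
  sum_nonneg fun _ _ => mul_self_nonneg _

end InnerA

open InnerA

namespace MG
variable {V E : Type} [Fintype V] [DecidableEq V] [Fintype E] [DecidableEq E] {G : MG V E} {x : ℕ} {F X : Finset E}

theorem InnerA_del_nonneg (hx : 1 ≤ x) : 0 ≤ G.del x := by
  have := th_pos hx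
  unfold del
  positivity

theorem InnerA_Qm_addH (H : V → V → ℕ) (u v : V) :
    (G.Qm x fun a b => addH H u v a b) =
      (G.Qm x fun a b => H a b) + G.del x • vecMulVec (pv u v) (pv u v) := by
  have : ∑ a, ∑ b, ((addH H u v a b : ℕ) : ℝ) • vecMulVec (pv a b) (pv a b) =
      ∑ a, ∑ b, ((H a b : ℕ) : ℝ) • vecMulVec (pv a b) (pv a b) + vecMulVec (pv u v) (pv u v) := by
    simp only [addH, Nat.cast_add, add_smul, sum_add_distrib]
    congr 1
    simp [ite_and, ite_smul]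
  simp only [Qm, this, smul_add, add_assoc]

theorem InnerA_bet (e : E) : 1 ≤ G.bet x X e := le_add_of_nonneg_right (by positivity)

theorem two_mul_sq_le_two_pow_qq (m : ℕ) : 2 * m ^ 2 ≤ 2 ^ qq m := by
  have h := (Nat.lt_pow_succ_log_self (b := 2) (by norm_num) m).le
  calc 2 * m ^ 2 ≤ 2 * (2 ^ (Nat.log 2 m + 1)) ^ 2 := by gcongr
    _ = 2 ^ qq m := by rw [qq]; ring

theorem Res_pos (hx : 1 ≤ x) (H : V → V → ℕ) (e : E) : 0 < G.Res x H e := by
  have hP := G.Qm_posDef (H := fun u v => H u v) hx fun _ _ => Nat.cast_nonneg _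
  refine (qf_inv_nonneg hP _).lt_of_ne fun h => ?_
  have := sq_dot_le hP (G.b e) (G.b e)
  rw [← h, b_dot_self] at this
  norm_num at this

theorem Res_zero_le (hx : 1 ≤ x) (e : E) : G.Res x 0 e ≤ x / 128 := by
  have hP := G.Qm_posDef (H := fun u v => (0 : V → V → ℕ) u v) hx fun _ _ => Nat.cast_nonneg _
  have hx' : (0 : ℝ) < x := by exact_mod_cast hx
  refine qf_inv_le hP (by positivity) fun z => ?_
  have h1 : G.dz z e ^ 2 ≤ ∑ f, G.dz z f ^ 2 :=
    single_le_sum (f := fun f => G.dz z f ^ 2) (fun _ _ => sq_nonneg _) (mem_univ e)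
  have h2 : 0 ≤ th x / Fintype.card V * (z ⬝ᵥ z) :=
    mul_nonneg (div_nonneg (th_pos hx).le (Nat.cast_nonneg _)) (dot_self_nonneg z)
  have h3 : (x : ℝ) / 128 * (th x * ∑ f, G.dz z f ^ 2) = ∑ f, G.dz z f ^ 2 := by
    rw [th]
    field_simp
  rw [b_dot, qf_Qm]
  simp only [Pi.zero_apply, Nat.cast_zero, zero_mul, sum_const_zero, mul_zero, add_zero]
  rw [mul_add, h3]
  exact h1.trans (le_add_of_nonneg_right (by positivity))

/-- The resistance potential drops by a fraction of the first-order gain. -/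
theorem Psi_step (hx : 1 ≤ x) (H : V → V → ℕ) {u v : V} (huv : u ≠ v) :
    G.Psi x F (addH H u v) ≤
      G.Psi x F H - 7 / 10 * (th x / (8 * Fintype.card V)) * G.gain x F H u v := by
  have hP := G.Qm_posDef (H := fun u v => H u v) hx fun _ _ => Nat.cast_nonneg _
  have hθ := th_pos hx
  have hδ : 0 ≤ G.del x := InnerA_del_nonneg hx
  have hn : (0 : ℝ) < Fintype.card V := by exact_mod_cast Fintype.card_pos_iff.2 ⟨u⟩
  have hq : 3 ≤ qq (Fintype.card E) := by rw [qq]; omega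
  have hq' : (0 : ℝ) < qq (Fintype.card E) := by exact_mod_cast (by omega : 0 < qq _)
  have hS : pv u v ⬝ᵥ (G.Qm x fun u v => H u v)⁻¹ *ᵥ pv u v ≤ 2 * Fintype.card V / th x := by
    refine qf_inv_le hP (by positivity) fun z => ?_
    have h1 := sq_dot_le (P := (1 : Matrix V V ℝ)) PosDef.one (pv u v) z
    rw [inv_one, one_mulVec, one_mulVec, pv_dot_self huv] at h1
    refine h1.trans ?_
    have h2 : th x / Fintype.card V * (z ⬝ᵥ z) ≤ z ⬝ᵥ (G.Qm x fun u v => H u v) *ᵥ z := by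
      rw [qf_Qm]
      have h3 : 0 ≤ th x * ∑ e, G.dz z e ^ 2 := by positivity
      have h4 : 0 ≤ G.del x * ∑ a, ∑ b, (H a b : ℝ) * (z a - z b) ^ 2 := by positivity
      linarith
    calc _ = 2 * Fintype.card V / th x * (th x / Fintype.card V * (z ⬝ᵥ z)) := by field_simp
      _ ≤ _ := by gcongr
  have e1 : th x / (8 * Fintype.card V) = qq (Fintype.card E) * G.del x := by
    rw [del]
    field_simp
  have ha : qq (Fintype.card E) *
      (G.del x * (pv u v ⬝ᵥ (G.Qm x fun u v => H u v)⁻¹ *ᵥ pv u v)) ≤ 1 / 4 := by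
    rw [← mul_assoc, ← e1]
    calc _ ≤ th x / (8 * Fintype.card V) * (2 * Fintype.card V / th x) := by gcongr
      _ = _ := by field_simp; norm_num
  rw [Psi, Psi, gain, mul_sum, ← sum_sub_distrib, e1]
  refine sum_le_sum fun e _ => ?_
  rw [Res, InnerA_Qm_addH, (sherman_morrison hP _ hδ).2]
  exact pow_step hq (Res_pos hx H e) (qf_inv_nonneg hP _) hδ (qf_inv_cs hP _ _) ha

/-- The congestion potential grows by at most twice the first-order term. -/
theorem PhiC_step (c j : E → ℕ) (hj : ∑ e, j e ≤ Fintype.card V) :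
    G.PhiC x X (c + j) ≤
      G.PhiC x X c + 2 * (1 / (48 * Fintype.card V)) * ∑ e, (j e : ℝ) * G.len x X c e := by
  rw [PhiC, PhiC, mul_sum, ← sum_add_distrib]
  refine sum_le_sum fun e _ => ?_
  have hn : (0 : ℝ) < Fintype.card V := by exact_mod_cast Fintype.card_pos_iff.2 ⟨G.src e⟩
  have hc := one_le_cap x X e
  have hj' : (j e : ℝ) ≤ Fintype.card V := by
    exact_mod_cast (single_le_sum (f := j) (fun _ _ => Nat.zero_le _) (mem_univ e)).trans hj
  have h := one_add_pow_le (a := 1 / (48 * Fintype.card V * cap x X e)) (by positivity) (j e) (by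
    rw [mul_one_div, div_mul_eq_mul_div, div_le_one (by positivity)]
    nlinarith)
  have hb : 0 ≤ G.bet x X e ^ c e := pow_nonneg (zero_le_one.trans (InnerA_bet e)) _
  rw [Pi.add_apply, pow_add, len]
  refine (mul_le_mul_of_nonneg_left h hb).trans_eq ?_
  field_simp

/-- The product of the two potentials does not increase. -/
theorem INext.prod_le (hx : 1 ≤ x) {s s' : (V → V → ℕ) × (E → ℕ)} (h : G.INext x F X s s') :
    G.PhiC x X s'.2 * G.Psi x F s'.1 ≤ G.PhiC x X s.2 * G.Psi x F s.1 := by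
  obtain ⟨-, u, v, j, huv, hr, hl, rfl⟩ := h
  have h1 := Psi_step (G := G) (F := F) hx s.1 huv
  have h2 := PhiC_step (G := G) (x := x) (X := X) s.2 j hr.1
  have hb : ∀ e, 0 ≤ G.bet x X e ^ s.2 e := fun e => pow_nonneg (zero_le_one.trans (InnerA_bet e)) _
  have hΦ : 0 ≤ G.PhiC x X s.2 := sum_nonneg fun e _ => hb e
  have hΨ : 0 ≤ G.Psi x F (addH s.1 u v) := sum_nonneg fun e _ => pow_nonneg (Res_pos hx _ e).le _
  have hγ : 0 ≤ G.gain x F s.1 u v :=
    sum_nonneg fun e _ => mul_nonneg (pow_nonneg (Res_pos hx _ e).le _) (sq_nonneg _)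
  have hℓ : 0 ≤ ∑ e, (j e : ℝ) * G.len x X s.2 e :=
    sum_nonneg fun e _ => mul_nonneg (Nat.cast_nonneg _) (div_nonneg (hb e) (Nat.cast_nonneg _))
  have hθ := th_pos hx
  have e1 : th x / (8 * Fintype.card V) = 6 * th x * (1 / (48 * Fintype.card V)) := by ring
  rw [e1] at h1
  have ha : 0 ≤ 1 / (48 * (Fintype.card V : ℝ)) := by positivity
  generalize 1 / (48 * (Fintype.card V : ℝ)) = a at *
  generalize ∑ e, (j e : ℝ) * G.len x X s.2 e = ℓ at *
  generalize G.gain x F s.1 u v = γ at *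
  generalize G.PhiC x X s.2 = Φ at *
  generalize G.Psi x F s.1 = Ψ at *
  generalize G.Psi x F (addH s.1 u v) = Ψ' at *
  have h3 : 0 ≤ th x * a * γ := by positivity
  have h4 : Ψ' ≤ Ψ := by linarith
  calc _ ≤ (Φ + 2 * a * ℓ) * Ψ' := mul_le_mul_of_nonneg_right h2 hΨ
    _ = Φ * Ψ' + 2 * a * (ℓ * Ψ') := by ring
    _ ≤ Φ * (Ψ - 7 / 10 * (6 * th x * a) * γ) + 2 * a * (th x * γ * Φ) := by
        have := (mul_le_mul_of_nonneg_left h4 hℓ).trans hl
        gcongr
    _ ≤ Φ * Ψ := by nlinarith [mul_nonneg h3 hΦ]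

end MG
end Crest.Agent.R37
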