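import Crest.Agent.R37.InnerA
import Crest.Agent.R37.Cert

set_option autoImplicit false
set_option linter.unusedSectionVars false
open Finset Matrix Crest.CombinatoricsR.Multigraph
open scoped Classical

noncomputable section
namespace Crest.Agent.R37
namespace MG
variable {V E : Type} [Fintype V] [DecidableEq V] [Fintype E] [DecidableEq E] {G : MG V E} {x : ℕ} {F X : Finset E}

namespace InnerB

theorem one_le_cap (x : ℕ) (X : Finset E) (e : E) : 1 ≤ cap x X e := by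
  unfold cap
  split_ifs <;> omega

theorem cap_le (x : ℕ) (X : Finset E) (e : E) : cap x X e ≤ 1 + x ^ 2 := by
  unfold cap
  split_ifs <;> omega

theorem sum_cap_le (x : ℕ) (X : Finset E) : ∑ e, cap x X e ≤ Fintype.card E * (1 + x ^ 2) := by
  simpa using sum_le_card_nsmul univ (cap x X) _ fun e _ => cap_le x X e

theorem one_le_bet (e : E) : 1 ≤ G.bet x X e := le_add_of_nonneg_right (by positivity)

theorem bet_pow_pos (e : E) (k : ℕ) : 0 < G.bet x X e ^ k :=
  pow_pos (lt_of_lt_of_le one_pos (one_le_bet e)) k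

theorem bet_le_PhiC (c : E → ℕ) (e : E) : G.bet x X e ^ c e ≤ G.PhiC x X c :=
  single_le_sum (f := fun e => G.bet x X e ^ c e) (fun e _ => (bet_pow_pos e _).le) (mem_univ e)

theorem th_pos (hx : 1 ≤ x) : 0 < th x := by
  have : (0 : ℝ) < x := by exact_mod_cast hx
  unfold th
  positivity

theorem Psi_ge (hx : 1 ≤ x) {H : V → V → ℕ} (h : ¬ G.Done x F H) :
    F.Nonempty ∧ th x ^ qq (Fintype.card E) ≤ G.Psi x F H := by
  obtain ⟨e, he, h1⟩ : ∃ e ∈ F, th x < G.Res x H e := by simpa [Done] using h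
  exact ⟨⟨e, he⟩, (pow_le_pow_left₀ (th_pos hx).le h1.le _).trans
    (single_le_sum (f := fun e => G.Res x H e ^ qq (Fintype.card E))
      (fun e _ => (pow_pos (Res_pos hx H e) _).le) he)⟩

theorem prod_le (hx : 1 ≤ x) {i : ℕ} {s : (V → V → ℕ) × (E → ℕ)} (h : G.IReach x F X i s) :
    G.PhiC x X s.2 * G.Psi x F s.1 ≤
      (Fintype.card E : ℝ) ^ 2 * ((x : ℝ) / 128) ^ qq (Fintype.card E) := by
  induction h with
  | zero =>
    have h1 : G.PhiC x X 0 = Fintype.card E := by simp [PhiC]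
    have h2 : G.Psi x F 0 ≤ Fintype.card E * ((x : ℝ) / 128) ^ qq (Fintype.card E) := by
      refine (sum_le_card_nsmul _ _ (((x : ℝ) / 128) ^ qq (Fintype.card E)) fun e _ =>
        pow_le_pow_left₀ (Res_pos hx 0 e).le (Res_zero_le hx e) _).trans ?_
      rw [nsmul_eq_mul]
      exact mul_le_mul_of_nonneg_right (by exact_mod_cast card_le_univ F) (by positivity)
    change G.PhiC x X 0 * G.Psi x F 0 ≤ _
    rw [h1, sq, mul_assoc]
    exact mul_le_mul_of_nonneg_left h2 (Nat.cast_nonneg _)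
  | step _ hn ih => exact (hn.prod_le hx).trans ih

theorem PhiC_le (hx : 1 ≤ x) {i : ℕ} {s : (V → V → ℕ) × (E → ℕ)} (h : G.IReach x F X i s)
    (hd : ¬ G.Done x F s.1) :
    G.PhiC x X s.2 ≤ 2 ^ (qq (Fintype.card E) * (1 + 2 * Nat.log 2 x)) := by
  set q := qq (Fintype.card E) with hq
  have hx0 : (0 : ℝ) < x := by exact_mod_cast hx
  have h0 : 0 ≤ G.PhiC x X s.2 := sum_nonneg fun e _ => (bet_pow_pos e _).le
  have h1 := (mul_le_mul_of_nonneg_left (Psi_ge hx hd).2 h0).trans (prod_le hx h)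
  have h2 : (x : ℝ) / 128 ≤ 2 ^ Nat.log 2 x := by
    have : (x : ℝ) < 2 ^ (Nat.log 2 x + 1) := by
      exact_mod_cast Nat.lt_pow_succ_log_self (b := 2) (by norm_num) x
    rw [pow_succ] at this
    have h3 : (0 : ℝ) < 2 ^ Nat.log 2 x := by positivity
    linarith
  have h3 : (Fintype.card E : ℝ) ^ 2 ≤ 2 ^ q := by
    have := two_mul_sq_le_two_pow_qq (Fintype.card E)
    rw [← hq] at this
    exact_mod_cast (by omega : Fintype.card E ^ 2 ≤ 2 ^ q)
  have h4 : th x ^ q * ((x : ℝ) / 128) ^ q = 1 := by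
    rw [← mul_pow, th, div_mul_div_cancel₀ hx0.ne', div_self (by norm_num), one_pow]
  have h5 : ((x : ℝ) / 128) ^ q ≤ (2 ^ Nat.log 2 x) ^ q := pow_le_pow_left₀ (by positivity) h2 q
  calc G.PhiC x X s.2 = G.PhiC x X s.2 * th x ^ q * ((x : ℝ) / 128) ^ q := by
        rw [mul_assoc, h4, mul_one]
    _ ≤ (Fintype.card E : ℝ) ^ 2 * ((x : ℝ) / 128) ^ q * ((x : ℝ) / 128) ^ q :=
        mul_le_mul_of_nonneg_right h1 (by positivity)
    _ ≤ 2 ^ q * (2 ^ Nat.log 2 x) ^ q * (2 ^ Nat.log 2 x) ^ q := by gcongr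
    _ = 2 ^ (q * (1 + 2 * Nat.log 2 x)) := by ring

theorem lt_of_bet_le {e : E} {k A : ℕ} (h : G.bet x X e ^ k ≤ 2 ^ A) :
    k < 48 * Fintype.card V * cap x X e * (A + 1) := by
  by_contra hc
  have hn : 0 < Fintype.card V := Fintype.card_pos_iff.2 ⟨G.src e⟩
  have hc1 := one_le_cap x X e
  have h0 : (0 : ℝ) < 48 * Fintype.card V * cap x X e := by positivity
  have h1 : (2 : ℝ) ≤ G.bet x X e ^ (48 * Fintype.card V * cap x X e) := by
    have h2 : (0 : ℝ) ≤ 1 / (48 * Fintype.card V * cap x X e) := by positivity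
    refine le_trans (le_of_eq ?_) (one_add_mul_le_pow (by linarith) _)
    push_cast
    rw [mul_one_div_cancel h0.ne']
    norm_num
  have h2 : (2 : ℝ) ^ (A + 1) ≤ G.bet x X e ^ k := by
    refine le_trans ?_ (pow_le_pow_right₀ (one_le_bet e) (not_lt.1 hc))
    rw [pow_mul]
    exact pow_le_pow_left₀ (by norm_num) h1 _
  have h3 : (0 : ℝ) < 2 ^ A := by positivity
  rw [pow_succ] at h2
  linarith

theorem sum_addH (H : V → V → ℕ) (u v : V) (P : V → V → Prop) [∀ a b, Decidable (P a b)] :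
    (∑ a, ∑ b, if P a b then 0 else addH H u v a b) =
      (∑ a, ∑ b, if P a b then 0 else H a b) + if P u v then 0 else 1 := by
  have h1 : ∀ a b, (if P a b then 0 else addH H u v a b) = (if P a b then 0 else H a b) +
      if a = u then (if b = v then (if P u v then 0 else 1) else 0) else 0 := fun a b => by
    unfold addH
    by_cases ha : a = u <;> by_cases hb : b = v <;> by_cases hp : P a b <;> simp_all
  simp [h1, sum_add_distrib]

theorem one_le_cut {l : E → ℝ} {u v : V} {j : E → ℕ} (h : G.Route l u v j) {S : Finset V}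
    (hS : ¬ (u ∈ S ↔ v ∈ S)) : 1 ≤ ∑ e ∈ G.cut S, j e := by
  have h1 : ∃ e ∈ G.cut S, 1 ≤ j e := by
    by_cases hu : u ∈ S
    · exact h.2.1 S hu fun hv => hS (iff_of_true hu hv)
    · rw [← G.cut_compl]
      exact h.2.1 Sᶜ (mem_compl.2 hu) fun hv => hS (iff_of_false hu (mem_compl.1 hv))
  obtain ⟨e, he, h2⟩ := h1
  exact h2.trans (single_le_sum (f := j) (fun _ _ => Nat.zero_le _) he)

theorem amgm {θ R H ρ s : ℝ} (hθ : 0 < θ) (hR : 0 < R) (hH : 0 ≤ H) (h : R ^ 2 ≤ ρ * H)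
    (hs : 2 * s ^ 2 ≤ θ ^ 2) (hs0 : 0 ≤ s) (k : ℕ) :
    2 * s * (R ^ (k + 1) - (θ / 2) ^ (k + 1)) ≤ θ * (R ^ k * H) + R ^ (k + 1) * ρ := by
  have hρ : 0 ≤ ρ := by
    by_contra hc
    have := mul_nonpos_of_nonpos_of_nonneg (not_le.1 hc).le hH
    have := pow_pos hR 2
    linarith
  rcases le_total R (θ / 2) with h1 | h1
  · refine (mul_nonpos_of_nonneg_of_nonpos (by positivity)
      (sub_nonpos.2 (pow_le_pow_left₀ hR.le h1 _))).trans (by positivity)
  · have h2 : 2 * s * R ≤ θ * H + R * ρ := by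
      refine (pow_le_pow_iff_left₀ (by positivity) (by positivity) two_ne_zero).1 ?_
      have e1 : θ * R * R ^ 2 ≤ θ * R * (ρ * H) := mul_le_mul_of_nonneg_left h (by positivity)
      have e2 : θ * (θ / 2) * R ^ 2 ≤ θ * R * R ^ 2 := by gcongr
      have e3 : 2 * s ^ 2 * R ^ 2 ≤ θ ^ 2 * R ^ 2 := mul_le_mul_of_nonneg_right hs (by positivity)
      nlinarith [sq_nonneg (θ * H - R * ρ)]
    have h3 := mul_le_mul_of_nonneg_left h2 (pow_pos hR k).le
    have h4 : 0 ≤ 2 * s * (θ / 2) ^ (k + 1) := by positivity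
    rw [pow_succ]
    nlinarith

theorem cert (hx : 1 ≤ x) {s : (V → V → ℕ) × (E → ℕ)} (h : G.Stuck x F X s) :
    G.Cert (fun e => G.len x X s.2 e / G.PhiC x X s.2)
      (fun e => if e ∈ F then G.Res x s.1 e ^ qq (Fintype.card E) / G.Psi x F s.1 else 0)
      (90 / x) := by
  obtain ⟨⟨e0, he0⟩, hΨ⟩ := Psi_ge hx h.1
  have hθ := th_pos hx
  have hx0 : (0 : ℝ) < x := by exact_mod_cast hx
  have hΨ0 : 0 < G.Psi x F s.1 := lt_of_lt_of_le (pow_pos hθ _) hΨ
  have hΦ : 0 < G.PhiC x X s.2 := lt_of_lt_of_le (bet_pow_pos e0 _) (bet_le_PhiC s.2 e0)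
  have hQ : (G.Qm x fun u v => s.1 u v).PosDef := G.Qm_posDef hx fun u v => Nat.cast_nonneg _
  have hφ : ∀ u v, ∃ φ : V → ℝ, G.Feas (fun e => G.len x X s.2 e / G.PhiC x X s.2) φ ∧
      th x * G.gain x F s.1 u v / G.Psi x F s.1 ≤ φ v - φ u := fun u v => by
    by_cases huv : u = v
    · refine ⟨0, fun e => ?_, ?_⟩
      · have := bet_pow_pos (G := G) (x := x) (X := X) e (s.2 e)
        have h1 : G.dz 0 e = 0 := by simp [dz]
        rw [h1, abs_zero]
        unfold len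
        positivity
      · have h1 : 0 < qq (Fintype.card E) - 1 := by unfold qq; omega
        simp [gain, pv, huv]
    · obtain ⟨j, ⟨-, -, φ, h1, h2⟩, h3⟩ := h.2 u v huv
      refine ⟨fun a => φ a / G.PhiC x X s.2, fun e => ?_, ?_⟩
      · have h4 : G.dz (fun a => φ a / G.PhiC x X s.2) e = G.dz φ e / G.PhiC x X s.2 := by
          simp only [dz, sub_div]
        rw [h4, abs_div, abs_of_pos hΦ]
        exact div_le_div_of_nonneg_right (h1 e) hΦ.le
      · rw [← sub_div, div_le_div_iff₀ hΨ0 hΦ]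
        exact h3.trans (mul_le_mul_of_nonneg_right h2 hΨ0.le)
  choose φ hφ1 hφ2 using hφ
  refine ⟨φ, hφ1, fun hh ρ h0 hρ => ?_⟩
  obtain ⟨k, hk⟩ : ∃ k, qq (Fintype.card E) = k + 1 := ⟨_, rfl⟩
  set g : E → V → V → ℝ := fun e u v => G.b e ⬝ᵥ (G.Qm x fun u v => s.1 u v)⁻¹ *ᵥ pv u v with hg
  set H : E → ℝ := fun e => ∑ u, ∑ v, hh u v * g e u v ^ 2 with hH
  have h1 : ∀ e ∈ F, G.Res x s.1 e ^ 2 ≤ ρ e * H e := fun e he => by
    have h2 := hρ e (by
      simp only [if_pos he]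
      exact div_pos (pow_pos (Res_pos hx _ e) _) hΨ0) ((G.Qm x fun u v => s.1 u v)⁻¹ *ᵥ G.b e)
    simp only [← b_dot, ← pv_dot, qf_symm hQ (pv _ _)] at h2
    exact h2
  have h2 : th x * (∑ e ∈ F, G.Res x s.1 e ^ k * H e) / G.Psi x F s.1 ≤
      ∑ u, ∑ v, hh u v * (φ u v v - φ u v u) := by
    refine le_trans (le_of_eq ?_) (sum_le_sum fun u _ => sum_le_sum fun v _ =>
      mul_le_mul_of_nonneg_left (hφ2 u v) (h0 u v))
    simp only [gain, hk, Nat.add_sub_cancel, hH, hg, mul_sum, sum_div]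
    rw [sum_comm]
    refine sum_congr rfl fun u _ => ?_
    rw [sum_comm]
    exact sum_congr rfl fun v _ => sum_congr rfl fun e _ => by ring
  have h3 : ∑ e, (if e ∈ F then G.Res x s.1 e ^ qq (Fintype.card E) / G.Psi x F s.1 else 0) * ρ e =
      (∑ e ∈ F, G.Res x s.1 e ^ (k + 1) * ρ e) / G.Psi x F s.1 := by
    simp only [ite_mul, zero_mul, sum_ite_mem, univ_inter, hk, sum_div]
    exact sum_congr rfl fun e _ => by ring
  have h4 : 2 * (90 / (x : ℝ)) ^ 2 ≤ th x ^ 2 := by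
    rw [th, div_pow, div_pow, ← mul_div_assoc]
    exact div_le_div_of_nonneg_right (by norm_num) (by positivity)
  have h5 := sum_le_sum fun e he => amgm hθ (Res_pos hx s.1 e)
    (sum_nonneg fun u _ => sum_nonneg fun v _ => mul_nonneg (h0 u v) (sq_nonneg _)) (h1 e he) h4
    (by positivity) k
  have h6 : ∑ e ∈ F, G.Res x s.1 e ^ (k + 1) = G.Psi x F s.1 := by rw [Psi, hk]
  rw [← mul_sum, sum_sub_distrib, h6, sum_const, nsmul_eq_mul, sum_add_distrib, ← mul_sum] at h5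
  have h7 : (#F : ℝ) * (th x / 2) ^ (k + 1) ≤ G.Psi x F s.1 / 2 := by
    have e1 : 2 * #F ≤ 2 ^ (k + 1) := by
      have a1 := two_mul_sq_le_two_pow_qq (Fintype.card E)
      have a2 : Fintype.card E ≤ Fintype.card E ^ 2 := Nat.le_self_pow (by norm_num) _
      have a3 := card_le_univ F
      rw [hk] at a1
      omega
    have e2 : 2 * (#F : ℝ) ≤ 2 ^ (k + 1) := by exact_mod_cast e1
    rw [hk] at hΨ
    rw [div_pow, ← mul_div_assoc, div_le_div_iff₀ (by positivity) (by norm_num)]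
    calc (#F : ℝ) * th x ^ (k + 1) * 2 = th x ^ (k + 1) * (2 * #F) := by ring
      _ ≤ G.Psi x F s.1 * 2 ^ (k + 1) := mul_le_mul hΨ e2 (by positivity) hΨ0.le
  rw [h3]
  refine le_trans ?_ (add_le_add_left h2 _)
  rw [← add_div, le_div_iff₀ hΨ0]
  refine le_trans ?_ h5
  have h8 : (0 : ℝ) ≤ 90 / x := by positivity
  nlinarith

end InnerB

open InnerB

/-- Invariants of the run. -/
theorem IReach.inv (hx : 1 ≤ x) {i : ℕ} {s : (V → V → ℕ) × (E → ℕ)} (h : G.IReach x F X i s) :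
    (∀ e, s.2 e ≤ G.cg x * cap x X e) ∧ ∑ u, ∑ v, s.1 u v = i ∧ i ≤ ∑ e, s.2 e ∧
      ∀ S : Finset V, (∑ u, ∑ v, if (u ∈ S ↔ v ∈ S) then 0 else s.1 u v) ≤
        ∑ e ∈ G.cut S, s.2 e := by
  induction h with
  | zero => simp
  | @step i s s' hr hn ih =>
    obtain ⟨hd, u, v, j, huv, hj, -, rfl⟩ := hn
    obtain ⟨-, h2, h3, h4⟩ := ih
    refine ⟨fun e => ?_, ?_, ?_, fun S => ?_⟩
    · have a1 := lt_of_bet_le ((bet_le_PhiC s.2 e).trans (PhiC_le hx hr hd))
      have a2 : j e ≤ Fintype.card V * cap x X e :=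
        ((single_le_sum (f := j) (fun _ _ => Nat.zero_le _) (mem_univ e)).trans hj.1).trans
          (Nat.le_mul_of_pos_right _ (one_le_cap x X e))
      have a3 : 3 ≤ qq (Fintype.card E) := by unfold qq; omega
      have a4 : 48 * (qq (Fintype.card E) * (1 + 2 * Nat.log 2 x) + 1) + 1 ≤
          192 * qq (Fintype.card E) * (1 + Nat.log 2 x) := by nlinarith
      have a5 := Nat.mul_le_mul_left (Fintype.card V * cap x X e) a4
      change s.2 e + j e ≤ _
      unfold cg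
      nlinarith
    · have := sum_addH s.1 u v fun _ _ => False
      simp only [if_false] at this
      exact this.trans (by rw [h2])
    · have a1 := one_le_cut hj (S := {u}) (by simpa using Ne.symm huv)
      have a2 : ∑ e ∈ G.cut {u}, j e ≤ ∑ e, j e := sum_le_sum_of_subset (subset_univ _)
      simp only [Pi.add_apply, sum_add_distrib]
      omega
    · have a1 := h4 S
      have a2 := sum_addH s.1 u v fun a b => (a ∈ S ↔ b ∈ S)
      simp only [Pi.add_apply, sum_add_distrib]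
      rw [a2]
      split_ifs with hS
      · omega
      · have := one_le_cut hj hS
        omega

/-- The run is short. -/
theorem IReach.le (hx : 1 ≤ x) {i : ℕ} {s : (V → V → ℕ) × (E → ℕ)} (h : G.IReach x F X i s) :
    i ≤ G.cg x * (Fintype.card E * (1 + x ^ 2)) := by
  obtain ⟨h1, -, h3, -⟩ := h.inv hx
  refine h3.trans ((sum_le_sum fun e _ => h1 e).trans ?_)
  rw [← mul_sum]
  exact Nat.mul_le_mul_left _ (sum_cap_le x X)

theorem IReach.served (hx : 1 ≤ x) {i : ℕ} {s : (V → V → ℕ) × (E → ℕ)} (h : G.IReach x F X i s)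
    (hd : G.Done x F s.1) : G.Served x F X s.1 := by
  obtain ⟨h1, h2, h3, h4⟩ := h.inv hx
  have hQ : (G.Qm x fun u v => s.1 u v).PosDef := G.Qm_posDef hx fun u v => Nat.cast_nonneg _
  refine ⟨fun e he z => ?_, fun S => ?_, ?_⟩
  · rw [← b_dot]
    refine (sq_dot_le hQ _ z).trans (mul_le_mul_of_nonneg_right (hd e he) ?_)
    simpa using hQ.posSemidef.dotProduct_mulVec_nonneg z
  · rw [mul_sum]
    exact (h4 S).trans (sum_le_sum fun e _ => h1 e)
  · rw [mul_sum, h2]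
    exact h3.trans (sum_le_sum fun e _ => h1 e)

theorem Stuck.fail (hx : 1 ≤ x) {U : ℕ} (hU : Fintype.card E * (1 + x ^ 2) ≤ U)
    {s : (V → V → ℕ) × (E → ℕ)} (h : G.Stuck x F X s) : G.Fail x U F X (G.failD x U X s.2) := by
  obtain ⟨⟨e0, he0⟩, hΨ⟩ := Psi_ge hx h.1
  have hΨ0 : 0 < G.Psi x F s.1 := lt_of_lt_of_le (pow_pos (th_pos hx) _) hΨ
  have hΦ : 0 < G.PhiC x X s.2 := lt_of_lt_of_le (bet_pow_pos e0 _) (bet_le_PhiC s.2 e0)
  have hU0 : (0 : ℝ) < U := by
    have : 0 < Fintype.card E := Fintype.card_pos_iff.2 ⟨e0⟩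
    exact_mod_cast lt_of_lt_of_le (by positivity) hU
  have hc : ∀ e, (1 : ℝ) ≤ cap x X e := fun e => by exact_mod_cast one_le_cap x X e
  have hl : ∀ e, 0 ≤ G.len x X s.2 e := fun e =>
    div_nonneg (bet_pow_pos e _).le (Nat.cast_nonneg _)
  refine ⟨fun e => ?_, ?_, _, fun e => ?_, fun e he => ?_, ?_,
    ((cert hx h).smul hU0).mono (fun e => ?_) (le_of_eq (by ring))⟩
  · rw [failD, Nat.ceil_le, div_le_iff₀ hΦ]
    exact mul_le_mul_of_nonneg_left
      ((div_le_self (bet_pow_pos e _).le (hc e)).trans (bet_le_PhiC s.2 e)) hU0.le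
  · have h1 : ((∑ e, cap x X e * G.failD x U X s.2 e : ℕ) : ℝ) ≤ U + ((∑ e, cap x X e : ℕ) : ℝ) := by
      have h2 : (U : ℝ) = ∑ e, U * G.bet x X e ^ s.2 e / G.PhiC x X s.2 := by
        rw [← sum_div, ← mul_sum]
        exact (mul_div_cancel_right₀ _ hΦ.ne').symm
      push_cast
      rw [h2, ← sum_add_distrib]
      refine sum_le_sum fun e _ => ?_
      have h3 := (Nat.ceil_lt_add_one (div_nonneg (mul_nonneg hU0.le (hl e)) hΦ.le)).le
      refine (mul_le_mul_of_nonneg_left h3 (Nat.cast_nonneg _)).trans (le_of_eq ?_)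
      have h4 : (cap x X e : ℝ) ≠ 0 := by linarith [hc e]
      unfold len
      field_simp
    have h2 : ∑ e, cap x X e * G.failD x U X s.2 e ≤ U + ∑ e, cap x X e := by exact_mod_cast h1
    have h3 := sum_cap_le x X
    omega
  · refine mul_nonneg hU0.le ?_
    beta_reduce
    split_ifs
    · exact (div_pos (pow_pos (Res_pos hx _ e) _) hΨ0).le
    · exact le_rfl
  · simp [he]
  · simp only [Pi.smul_apply, smul_eq_mul, ← mul_sum, sum_ite_mem, univ_inter, ← sum_div]
    exact (congrArg _ (div_self hΨ0.ne')).trans (mul_one _)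
  · simp only [Pi.smul_apply, smul_eq_mul, failD, ← mul_div_assoc]
    exact Nat.le_ceil _

end MG
end Crest.Agent.R37
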