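import Crest.Agent.R37.Enc
import Crest.Agent.R37.PC

set_option autoImplicit false
open Finset Matrix Crest.CombinatoricsR.Multigraph
open Crest.Agent.Lib.PolyTime
open scoped Classical

noncomputable section
namespace Crest.Agent.R37

namespace MG
variable {V E : Type} [Fintype V] [DecidableEq V] [Fintype E] [DecidableEq E] (G : MG V E)

/-- The end of a cut edge inside `S`. -/
def rIn (S : Finset V) (e : E) : V := if G.src e ∈ S then G.src e else G.tgt e

/-- The end of a cut edge outside `S`. -/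
def rOut (S : Finset V) (e : E) : V := if G.src e ∈ S then G.tgt e else G.src e

/-- The edge `e` has ends `a` and `b`. -/
def RJoins (e : E) (a b : V) : Prop := (G.src e = a ∧ G.tgt e = b) ∨ (G.src e = b ∧ G.tgt e = a)

variable {G}

theorem route_ends {S : Finset V} {e : E} (he : e ∈ G.cut S) :
    G.rIn S e ∈ S ∧ G.rOut S e ∉ S ∧ G.RJoins e (G.rIn S e) (G.rOut S e) := by
  unfold rIn rOut RJoins
  rcases (G.mem_cut).1 he with h | h <;> simp [h.1, h.2]

theorem route_cut {S : Finset V} {e : E} {a b : V} (h : G.RJoins e a b) (ha : a ∈ S)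
    (hb : b ∉ S) : e ∈ G.cut S ∧ G.rIn S e = a := by
  rw [mem_cut]
  unfold rIn
  rcases h with ⟨rfl, rfl⟩ | ⟨rfl, rfl⟩ <;> simp [ha, hb]

theorem route_univ {F : Finset E} {S : Finset V} {u : V} (hc : ∀ v, G.Conn F u v) (hu : u ∈ S)
    (h : ∀ e ∈ F, e ∉ G.cut S) : S = univ :=
  eq_univ_of_forall fun v => (hc v).mem_of_closed h hu

theorem route_full {S : Finset V} (h : S = univ ∨ Fintype.card V + 1 ≤ #S) : S = univ :=
  h.resolve_right fun h => by
    have := card_le_univ S
    omega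

/-- Length of an edge multiset. -/
def rLen (l : E → ℝ) (j : E → ℕ) : ℝ := ∑ e, (j e : ℝ) * l e

theorem rLen_add (l : E → ℝ) (j : E → ℕ) (e : E) : rLen l (j + Pi.single e 1) = rLen l j + l e := by
  simp [rLen, add_mul, sum_add_distrib, Pi.single_apply]

variable (G) in
/-- The invariant of Dijkstra's algorithm. -/
structure RInv (l : E → ℝ) (u : V) (i : ℕ) (S : Finset V) (J : V → E → ℕ) : Prop where
  mem : u ∈ S
  card : S = univ ∨ i + 1 ≤ #S
  zero : J u = 0
  sum : ∀ w, ∑ e, J w e < #S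
  cross : ∀ w ∈ S, ∀ T : Finset V, u ∈ T → w ∉ T → ∃ e ∈ G.cut T, 1 ≤ J w e
  I1 : ∀ e a b, G.RJoins e a b → a ∈ S → b ∈ S → rLen l (J b) ≤ rLen l (J a) + l e
  I2 : ∀ w ∈ S, ∀ e a b, G.RJoins e a b → a ∈ S → b ∉ S → rLen l (J w) ≤ rLen l (J a) + l e

variable (G) in
/-- A best edge. -/
def RBest (l : E → ℝ) (S : Finset V) (J : V → E → ℕ) (e : E) : Prop :=
  e ∈ G.cut S ∧ ∀ f, f ∈ G.cut S → rLen l (J (G.rIn S e)) + l e ≤ rLen l (J (G.rIn S f)) + l f

variable {l : E → ℝ} {u : V} {i : ℕ} {S : Finset V} {J : V → E → ℕ}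

theorem rInv_init (h0 : ∀ e, 0 ≤ l e) (u : V) : G.RInv l u 0 {u} fun _ _ => 0 where
  mem := mem_singleton_self u
  card := Or.inr (by simp)
  zero := rfl
  sum _ := by simp
  cross w hw T hu hT := absurd (mem_singleton.1 hw ▸ hu) hT
  I1 e _ _ _ _ _ := le_add_of_nonneg_right (h0 e)
  I2 _ _ e _ _ _ _ _ := le_add_of_nonneg_right (h0 e)

theorem RInv.stay (h : G.RInv l u i S J) (hc : ∀ v, G.Conn univ u v)
    (hb : ∀ e, ¬ G.RBest l S J e) : G.RInv l u (i + 1) S J := by
  refine { h with card := Or.inl (route_univ hc h.mem fun e _ he => ?_) }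
  obtain ⟨f, hf, hf'⟩ := exists_min_image (G.cut S) (fun f => rLen l (J (G.rIn S f)) + l f) ⟨e, he⟩
  exact hb f ⟨hf, hf'⟩

theorem RInv.step (h : G.RInv l u i S J) (h0 : ∀ e, 0 ≤ l e) {e : E} (he : G.RBest l S J e) :
    G.RInv l u (i + 1) (insert (G.rOut S e) S)
      fun w => if w = G.rOut S e then J (G.rIn S e) + Pi.single e 1 else J w := by
  obtain ⟨ha, hb, hj⟩ := route_ends he.1
  have hk := he.2
  generalize G.rIn S e = a at ha hj hk ⊢
  generalize G.rOut S e = b at hb hj ⊢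
  have hne : ∀ w ∈ S, w ≠ b := fun w hw e => hb (e ▸ hw)
  have hk' : ∀ f a' b', G.RJoins f a' b' → a' ∈ S → b' ∉ S →
      rLen l (J a) + l e ≤ rLen l (J a') + l f := fun f a' b' hf ha' hb' => by
    obtain ⟨h1, h2⟩ := route_cut hf ha' hb'
    rw [← h2]
    exact hk f h1
  have hup : ∀ w ∈ insert b S,
      rLen l (if w = b then J a + Pi.single e 1 else J w) ≤ rLen l (J a) + l e := fun w hw => by
    rcases mem_insert.1 hw with rfl | hw
    · rw [if_pos rfl, rLen_add]
    · rw [if_neg (hne w hw)]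
      exact h.I2 w hw e a b hj ha hb
  have key : ∀ w ∈ insert b S, ∀ f a' b', G.RJoins f a' b' → a' ∈ insert b S →
      (a' ∈ S → b' ∉ S) → rLen l (if w = b then J a + Pi.single e 1 else J w) ≤
        rLen l (if a' = b then J a + Pi.single e 1 else J a') + l f := fun w hw f a' b' hf ha' hb' => by
    refine (hup w hw).trans ?_
    rcases mem_insert.1 ha' with rfl | ha'
    · rw [if_pos rfl, rLen_add]
      exact le_add_of_nonneg_right (h0 f)
    · rw [if_neg (hne a' ha')]
      exact hk' f a' b' hf ha' (hb' ha')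
  refine ⟨mem_insert_of_mem h.mem, Or.inr ?_, ?_, fun w => ?_, fun w hw T hu hT => ?_,
    fun f a' b' hf ha' hb' => ?_, fun w hw f a' b' hf ha' hb' =>
      key w hw f a' b' hf ha' fun _ h => hb' (mem_insert_of_mem h)⟩
  · rw [card_insert_of_notMem hb]
    exact Nat.succ_le_succ (h.card.resolve_left fun h => hb (h ▸ mem_univ b))
  · rw [if_neg (hne u h.mem), h.zero]
  · rw [card_insert_of_notMem hb]
    by_cases hw : w = b
    · have := h.sum a
      simpa [hw, sum_add_distrib, Pi.single_apply] using this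
    · simp only [if_neg hw]
      exact (h.sum w).trans (Nat.lt_succ_self _)
  · rcases mem_insert.1 hw with rfl | hw
    · by_cases haT : a ∈ T
      · exact ⟨e, (route_cut hj haT hT).1, by simp⟩
      · obtain ⟨f, hf, hf'⟩ := h.cross a ha T hu haT
        exact ⟨f, hf, by rw [if_pos rfl]; exact hf'.trans (Nat.le_add_right _ _)⟩
    · rw [if_neg (hne w hw)]
      exact h.cross w hw T hu hT
  · by_cases hS : a' ∈ S ∧ b' ∈ S
    · rw [if_neg (hne a' hS.1), if_neg (hne b' hS.2)]
      exact h.I1 f a' b' hf hS.1 hS.2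
    · exact key b' hb' f a' b' hf ha' fun h1 h2 => hS ⟨h1, h2⟩

theorem RInv.route (h : G.RInv l u (Fintype.card V) S J) (v : V) : G.Route l u v (J v) := by
  have hS := route_full h.card
  subst hS
  refine ⟨(h.sum v).le, h.cross v (mem_univ v), fun w => rLen l (J w), fun e => ?_, ?_⟩
  · have h1 := h.I1 e _ _ (Or.inl ⟨rfl, rfl⟩) (mem_univ _) (mem_univ _)
    have h2 := h.I1 e _ _ (Or.inr ⟨rfl, rfl⟩) (mem_univ _) (mem_univ _)
    exact abs_sub_le_iff.2 ⟨by linarith, by linarith⟩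
  · simp [h.zero, rLen]

theorem RInv.le (h : G.RInv l u i S J) (w : V) (e : E) : J w e ≤ Fintype.card V :=
  (single_le_sum (fun _ _ => Nat.zero_le _) (mem_univ e)).trans
    ((h.sum w).le.trans (card_le_univ S))

variable (G) in
/-- The invariant of the growth of a spanning tree. -/
structure TInv (F : Finset E) (u : V) (i : ℕ) (S : Finset V) (T : Finset E) : Prop where
  mem : u ∈ S
  card : S = univ ∨ i + 1 ≤ #S
  sub : T ⊆ F
  cardT : #T + 1 = #S
  ins : ∀ e ∈ T, e ∉ G.cut S ∧ G.src e ∈ S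
  conn : ∀ w ∈ S, G.Conn T u w

variable {F T : Finset E}

theorem tInv_init (F : Finset E) (u : V) : G.TInv F u 0 {u} ∅ where
  mem := mem_singleton_self u
  card := Or.inr (by simp)
  sub := empty_subset F
  cardT := by simp
  ins e he := absurd he (notMem_empty e)
  conn w hw := mem_singleton.1 hw ▸ G.conn_refl _ _

theorem TInv.stay (h : G.TInv F u i S T) (hc : ∀ v, G.Conn F u v)
    (hb : ∀ e, ¬ (e ∈ F ∧ e ∈ G.cut S)) : G.TInv F u (i + 1) S T :=
  { h with card := Or.inl (route_univ hc h.mem fun e h1 h2 => hb e ⟨h1, h2⟩) }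

theorem TInv.step (h : G.TInv F u i S T) {e : E} (he : e ∈ F ∧ e ∈ G.cut S) :
    G.TInv F u (i + 1) (insert (G.rOut S e) S) (insert e T) := by
  obtain ⟨ha, hb, hj⟩ := route_ends he.2
  generalize G.rIn S e = a at ha hj
  generalize G.rOut S e = b at hb hj ⊢
  have hT : e ∉ T := fun hT => (h.ins e hT).1 he.2
  refine ⟨mem_insert_of_mem h.mem, Or.inr ?_, insert_subset he.1 h.sub, ?_, fun f hf => ?_,
    fun w hw => ?_⟩
  · rw [card_insert_of_notMem hb]
    exact Nat.succ_le_succ (h.card.resolve_left fun h => hb (h ▸ mem_univ b))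
  · rw [card_insert_of_notMem hb, card_insert_of_notMem hT, h.cardT]
  · rcases mem_insert.1 hf with rfl | hf
    · rw [mem_cut]
      rcases hj with ⟨rfl, rfl⟩ | ⟨rfl, rfl⟩ <;> simp [ha]
    · have h1 := h.ins f hf
      rw [mem_cut] at h1 ⊢
      simp only [mem_insert]
      tauto
  · rcases mem_insert.1 hw with rfl | hw
    · refine ((h.conn a ha).mono (subset_insert e T)).trans ?_
      have h1 := G.conn_of_mem (mem_insert_self e T)
      rcases hj with ⟨rfl, rfl⟩ | ⟨rfl, rfl⟩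
      exacts [h1, h1.symm]
    · exact (h.conn w hw).mono (subset_insert e T)

theorem TInv.tree (h : G.TInv F u (Fintype.card V) S T) :
    T ⊆ F ∧ #T + 1 = Fintype.card V ∧ ∀ v w, G.Conn T v w := by
  have hS := route_full h.card
  subst hS
  exact ⟨h.sub, h.cardT, fun v w => (h.conn v (mem_univ v)).symm.trans (h.conn w (mem_univ w))⟩

end MG

variable {α : Type} [PEnc α] {n m : α → ℕ} {G : ∀ a, MG (Fin (n a)) (Fin (m a))}

section aux
variable {S : ∀ a, Finset (Fin (n a))} {e : ∀ a, Fin (m a)} {l : ∀ a, Fin (m a) → ℝ}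
  {J : ∀ a, Fin (n a) → Fin (m a) → ℕ}

theorem PG.route_in (hG : PG G) (hS : DP S) (he : DP e) : DP fun a => (G a).rIn (S a) (e a) :=
  DP.ite (hS.mem (hG.src.app he)) (hG.src.app he) (hG.tgt.app he)

theorem PG.route_out (hG : PG G) (hS : DP S) (he : DP e) : DP fun a => (G a).rOut (S a) (e a) :=
  DP.ite (hS.mem (hG.src.app he)) (hG.tgt.app he) (hG.src.app he)

theorem PG.route_cut (hG : PG G) (hS : DP S) (he : DP e) [∀ a, Decidable (e a ∈ (G a).cut (S a))] :
    Poly fun a => decide (e a ∈ (G a).cut (S a)) := by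
  have h1 := hS.mem (hG.src.app he)
  have h2 := hS.mem (hG.tgt.app he)
  exact Poly.decide_congr ((h1.decide_and h2.decide_not).decide_or (h1.decide_not.decide_and h2))
    fun a => (G a).mem_cut.symm

theorem route_single (hn : Poly n) (hb : PB n) {v : ∀ a, Fin (n a)} (hv : DP v) :
    DP fun a => ({v a} : Finset (Fin (n a))) :=
  DP.set hn hb (Poly.decide_congr (DP.snd.decide_eq (hv.comp poly_fst)) fun _ => mem_singleton.symm)

theorem route_insert (hn : Poly n) (hb : PB n) (hS : DP S) {v : ∀ a, Fin (n a)} (hv : DP v) :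
    DP fun a => insert (v a) (S a) :=
  DP.set hn hb (Poly.decide_congr ((DP.snd.decide_eq (hv.comp poly_fst)).decide_or
    ((hS.comp poly_fst).mem DP.snd)) fun _ => mem_insert.symm)

theorem PG.route_key (hG : PG G) (hl : PRV l) (hS : DP S) (hJ : DP J) (he : DP e) :
    PR fun a => MG.rLen (l a) (J a ((G a).rIn (S a) (e a))) + l a (e a) :=
  (PRV.dot hG.mp hG.mb (PRV.natCast (hJ.app (hG.route_in hS he))) hl).add (hl.app he)

theorem PG.route_best (hG : PG G) (hl : PRV l) (hS : DP S) (hJ : DP J) (he : DP e)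
    [∀ a, Decidable ((G a).RBest (l a) (S a) (J a) (e a))] :
    Poly fun a => decide ((G a).RBest (l a) (S a) (J a) (e a)) := by
  have hG' := hG.comp (poly_fst (β := fun a => Fin (m a)))
  have h1 := (hG'.route_cut (hS.comp poly_fst) DP.snd).decide_imp
    (((hG.route_key hl hS hJ he).comp poly_fst).decide_le
      (hG'.route_key (hl.comp poly_fst) (hS.comp poly_fst) (hJ.comp poly_fst) DP.snd))
  exact Poly.decide_congr ((hG.route_cut hS he).decide_and
    (Poly.decide_forall_fin (p := fun a f => f ∈ (G a).cut (S a) →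
      MG.rLen (l a) (J a ((G a).rIn (S a) (e a))) + l a (e a) ≤
        MG.rLen (l a) (J a ((G a).rIn (S a) f)) + l a f) hG.mp hG.mb h1)) fun _ => Iff.rfl

theorem route_add_single (hm : Poly m) (hb : PB m) {j : ∀ a, Fin (m a) → ℕ} (hj : DP j)
    (he : DP e) : DP fun a => j a + Pi.single (e a) 1 := by
  refine DP.fn' hm hb ?_
  exact (((hj.comp poly_fst).app DP.snd).poly.add (Poly.ite (DP.snd.decide_eq (he.comp poly_fst))
    (poly_const 1) (poly_const 0))).congr fun p => by simp [Pi.single_apply]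

theorem PG.route_upd (hG : PG G) (hS : DP S) (hJ : DP J) (he : DP e) :
    DP fun a w => if w = (G a).rOut (S a) (e a) then
      J a ((G a).rIn (S a) (e a)) + Pi.single (e a) 1 else J a w :=
  DP.fn hG.np hG.nb (DP.ite (DP.snd.decide_eq ((hG.route_out hS he).comp poly_fst))
    ((route_add_single hG.mp hG.mb (hJ.app (hG.route_in hS he)) he).comp poly_fst)
    ((hJ.comp poly_fst).app DP.snd))

theorem PG.route_step (hG : PG G) (hc : ∀ a u v, (G a).Conn univ u v) (hl : PRV l)
    (h0 : ∀ a e, 0 ≤ l a e) (hS : DP S) (hJ : DP J) {u : ∀ a, Fin (n a)} {i : α → ℕ}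
    (h : ∀ a, (G a).RInv (l a) (u a) (i a) (S a) (J a)) :
    ∃ o : ∀ a, Finset (Fin (n a)) × (Fin (n a) → Fin (m a) → ℕ), DP o ∧
      ∀ a, (G a).RInv (l a) (u a) (i a + 1) (o a).1 (o a).2 := by
  have hG' := hG.comp (poly_fst (β := fun a => Fin (m a)))
  have hS' := hS.comp (poly_fst (β := fun a => Fin (m a)))
  have hJ' := hJ.comp (poly_fst (β := fun a => Fin (m a)))
  obtain ⟨o, ho, ho'⟩ := DP.pick hG.mp hG.mb (p := fun a e => (G a).RBest (l a) (S a) (J a) e)
    (hG'.route_best (hl.comp poly_fst) hS' hJ' DP.snd)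
    (f := fun a e => (insert ((G a).rOut (S a) e) (S a), fun w => if w = (G a).rOut (S a) e then
      J a ((G a).rIn (S a) e) + Pi.single e 1 else J a w))
    ((route_insert hG'.np hG'.nb hS' (hG'.route_out hS' DP.snd)).pair
      (hG'.route_upd hS' hJ' DP.snd)) (hS.pair hJ)
  refine ⟨o, ho, fun a => ?_⟩
  rcases ho' a with ⟨e, he, h1⟩ | ⟨he, h1⟩ <;> rw [h1]
  exacts [(h a).step (h0 a) he, (h a).stay (hc a _) he]

theorem PG.tree_step (hG : PG G) {F T : ∀ a, Finset (Fin (m a))} (hF : DP F)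
    (hc : ∀ a u v, (G a).Conn (F a) u v) (hS : DP S) (hT : DP T) {u : ∀ a, Fin (n a)} {i : α → ℕ}
    (h : ∀ a, (G a).TInv (F a) (u a) (i a) (S a) (T a)) :
    ∃ o : ∀ a, Finset (Fin (n a)) × Finset (Fin (m a)), DP o ∧
      ∀ a, (G a).TInv (F a) (u a) (i a + 1) (o a).1 (o a).2 := by
  have hG' := hG.comp (poly_fst (β := fun a => Fin (m a)))
  have hS' := hS.comp (poly_fst (β := fun a => Fin (m a)))
  obtain ⟨o, ho, ho'⟩ := DP.pick hG.mp hG.mb (p := fun a e => e ∈ F a ∧ e ∈ (G a).cut (S a))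
    (((hF.comp poly_fst).mem DP.snd).decide_and (hG'.route_cut hS' DP.snd))
    (f := fun a e => (insert ((G a).rOut (S a) e) (S a), insert e (T a)))
    ((route_insert hG'.np hG'.nb hS' (hG'.route_out hS' DP.snd)).pair
      (route_insert hG'.mp hG'.mb (hT.comp poly_fst) DP.snd)) (hS.pair hT)
  refine ⟨o, ho, fun a => ?_⟩
  rcases ho' a with ⟨e, he, h1⟩ | ⟨he, h1⟩ <;> rw [h1]
  exacts [(h a).step he, (h a).stay (hc a _) he]

end aux

/-- Shortest routes (Dijkstra). -/
theorem PG.exists_route (hG : PG G) (hc : ∀ a u v, (G a).Conn univ u v)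
    {l : ∀ a, Fin (m a) → ℝ} (hl : PRV l) (h0 : ∀ a e, 0 ≤ l a e) {u v : ∀ a, Fin (n a)}
    (hu : DP u) (hv : DP v) :
    ∃ j : ∀ a, Fin (m a) → ℕ, DP j ∧ ∀ a, (G a).Route (l a) (u a) (v a) (j a) := by
  have hn := hG.nb
  have hm := hG.mb
  obtain ⟨o, ho, h⟩ := DP.loop
    (β := fun a => Finset (Fin (n a)) × (Fin (n a) → Fin (m a) → ℕ)) hG.np hG.nb
    (B := fun a => n a * 4 + 1 + (n a * (m a * (4 * n a + 2) + 1 + 1) + 1) + 1) (by fun_prop)
    (fun a i s => (G a).RInv (l a) (u a) i s.1 s.2) (init := fun a => ({u a}, fun _ _ => 0))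
    ((route_single hG.np hG.nb hu).pair (DP.fn₂ hG.np hG.nb hG.mp hG.mb (poly_const 0)))
    (fun a => MG.rInv_init (h0 a) _)
    (by
      have hs := (DP.snd (β := fun a => Un × Finset (Fin (n a)) ×
        (Fin (n a) → Fin (m a) → ℕ))).snd'.comp
          (poly_val (p := fun p => (G p.1).RInv (l p.1) (u p.1) p.2.1.n p.2.2.1 p.2.2.2 ∧
            p.2.1.n < n p.1))
      exact (hG.comp (poly_fst.comp poly_val)).route_step (fun a => hc _)
        (hl.comp (poly_fst.comp poly_val)) (fun a => h0 _) hs.fst hs.snd' fun a => a.2.1)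
    (fun a i s _ h => by
      have h1 := sz_finset_le s.1
      have h2 : sz s.2 ≤ _ := sz_fun_le fun w => sz_natFun_le (B := n a) fun e => by
        simpa using h.le w e
      rw [sz_prod]
      omega)
  refine ⟨fun a => (o a).2 (v a), ho.snd'.app hv, fun a => MG.RInv.route (S := (o a).1) ?_ _⟩
  rw [Fintype.card_fin]
  exact h a

/-- Spanning trees. -/
theorem PG.exists_tree (hG : PG G) (hn : ∀ a, 1 ≤ n a) {F : ∀ a, Finset (Fin (m a))} (hF : DP F)
    (hc : ∀ a u v, (G a).Conn (F a) u v) :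
    ∃ T : ∀ a, Finset (Fin (m a)), DP T ∧ ∀ a, T a ⊆ F a ∧ #(T a) + 1 = n a ∧
      ∀ u v, (G a).Conn (T a) u v := by
  have hnb := hG.nb
  have hmb := hG.mb
  have hu : DP fun a => (⟨0, hn a⟩ : Fin (n a)) := DP.fin_iff.2 (poly_const 0)
  obtain ⟨o, ho, h⟩ := DP.loop (β := fun a => Finset (Fin (n a)) × Finset (Fin (m a))) hG.np hG.nb
    (B := fun a => n a * 4 + 1 + (m a * 4 + 1) + 1) (by fun_prop)
    (fun a i s => (G a).TInv (F a) ⟨0, hn a⟩ i s.1 s.2)
    (init := fun a => ({(⟨0, hn a⟩ : Fin (n a))}, ∅))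
    ((route_single hG.np hG.nb hu).pair
      (DP.set hG.mp hG.mb ((poly_const false).congr fun _ => by simp)))
    (fun a => MG.tInv_init _ _)
    (by
      have hs := (DP.snd (β := fun a => Un × Finset (Fin (n a)) × Finset (Fin (m a)))).snd'.comp
          (poly_val (p := fun p : Σ a, Un × Finset (Fin (n a)) × Finset (Fin (m a)) =>
            (G p.1).TInv (F p.1) ⟨0, hn p.1⟩ p.2.1.n p.2.2.1 p.2.2.2 ∧ p.2.1.n < n p.1))
      exact (hG.comp (poly_fst.comp poly_val)).tree_step (hF.comp (poly_fst.comp poly_val))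
        (fun a => hc _) hs.fst hs.snd' fun a => a.2.1)
    (fun a i s _ _ => by
      have h1 := sz_finset_le s.1
      have h2 := sz_finset_le s.2
      rw [sz_prod]
      omega)
  refine ⟨fun a => (o a).2, ho.snd', fun a => ?_⟩
  have h1 := MG.TInv.tree (G := G a) (S := (o a).1) (by rw [Fintype.card_fin]; exact h a)
  rwa [Fintype.card_fin] at h1

end Crest.Agent.R37
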