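import Crest.Agent.R37.MatInv
import Crest.Agent.R37.Route
import Crest.Agent.R37.InnerB

set_option autoImplicit false
open Finset Matrix Crest.CombinatoricsR.Multigraph
open Crest.Agent.Lib.PolyTime
open scoped Classical

noncomputable section
namespace Crest.Agent.R37
variable {α : Type} [PEnc α] {n m : α → ℕ} {G : ∀ a, MG (Fin (n a)) (Fin (m a))}
  {x U : α → ℕ} {F X : ∀ a, Finset (Fin (m a))}

theorem InnerP_th (hx : Poly x) : PR fun a => th (x a) := by
  unfold th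
  fun_prop

theorem InnerP_qq (hm : Poly m) : (Poly fun a => qq (m a)) ∧ PB fun a => qq (m a) := by
  unfold qq
  constructor <;> fun_prop

theorem InnerP_del (hG : PG G) (hx : Poly x) : PR fun a => (G a).del (x a) := by
  have h1 := InnerP_th hx
  have h2 := (InnerP_qq hG.mp).1
  have := hG.np
  simp only [MG.del, Fintype.card_fin]
  exact h1.div (((PR.ofNat 8).mul (PR.natCast h2)).mul (PR.natCast this))

theorem PG.Qm (hG : PG G) (hx : Poly x) {H : ∀ a, Matrix (Fin (n a)) (Fin (n a)) ℝ} (hH : PRM H) :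
    PRM fun a => (G a).Qm (x a) (H a) := by
  have h1 := InnerP_th hx
  have hn := hG.np
  have hb := hG.nb
  have h2 : PRM fun a => (G a).lap fun _ => 1 :=
    hG.lap (PRV.of_pr hG.mp hG.mb PR.one)
  have h3 : PR fun a => th (x a) / (Fintype.card (Fin (n a)) : ℝ) := by
    simp only [Fintype.card_fin]
    exact h1.div (PR.natCast hn)
  have h4 : PRM fun a => ∑ u, ∑ v, H a u v • vecMulVec (pv u v) (pv u v) := by
    obtain ⟨L, hL, e⟩ := hH
    refine PRM.of_pr hn hb hn hb ?_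
    simp only [pv, Matrix.sum_apply, Matrix.smul_apply, vecMulVec_apply, Pi.sub_apply,
      Pi.single_apply, Fin.ext_iff, e, smul_eq_mul]
    fun_prop
  exact ((h2.smul h1).add (PRM.one.smul h3)).add (h4.smul (InnerP_del hG hx))

theorem InnerP_natCast (hG : PG G) {H : ∀ a, Fin (n a) → Fin (n a) → ℕ} (hH : DP H) :
    PRM fun a => Matrix.of fun u v => (H a u v : ℝ) := by
  obtain ⟨L, hL, e⟩ := hH.ent₂
  refine PRM.of_pr hG.np hG.nb hG.np hG.nb ?_
  simp only [Matrix.of_apply, e]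
  fun_prop

theorem PG.Qavg (hG : PG G) (hx : Poly x) {H : ∀ a, Fin (n a) → Fin (n a) → ℕ} (hH : DP H) :
    PRM fun a => (G a).Qavg (x a) (H a) := by
  have h1 := InnerP_th hx
  have h2 : PRM fun a => Matrix.of fun u v => (H a u v : ℝ) / (x a : ℝ) ^ 2 := by
    obtain ⟨L, hL, e⟩ := hH.ent₂
    refine PRM.of_pr hG.np hG.nb hG.np hG.nb ?_
    simp only [Matrix.of_apply, e]
    fun_prop
  have h3 : PR fun a => (50 * th (x a) * (1 + (Nat.log 2 (x a) : ℝ)))⁻¹ :=
    (((PR.ofNat 50).mul h1).mul (PR.one.add (PR.natCast (by fun_prop)))).inv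
  exact (hG.Qm hx h2).smul h3

theorem PG.cg (hG : PG G) (hx : Poly x) :
    (Poly fun a => (G a).cg (x a)) ∧ PB fun a => (G a).cg (x a) := by
  have := hG.np; have := hG.nb; have := hG.mp; have := hG.mb
  simp only [MG.cg, Fintype.card_fin, qq]
  constructor <;> fun_prop


theorem InnerP_cap (hx : Poly x) (hxb : PB x) (hX : DP X) {e : ∀ a, Fin (m a)} (he : DP e) :
    (Poly fun a => cap (x a) (X a) (e a)) ∧ PB fun a => cap (x a) (X a) (e a) := by
  have h := hX.mem he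
  unfold cap
  exact ⟨Poly.ite h (by fun_prop) (by fun_prop), PB.ite (by fun_prop) (by fun_prop)⟩

theorem InnerP_bet (hG : PG G) (hx : Poly x) (hxb : PB x) (hX : DP X) {c : ∀ a, Fin (m a) → ℕ}
    (hc : DP c) (hb : ∀ a e, c a e ≤ (G a).cg (x a) * cap (x a) (X a) e) :
    PRV fun a e => (G a).bet (x a) (X a) e ^ c a e := by
  refine PRV.of_pr hG.mp hG.mb ?_
  have h1 := InnerP_cap (hx.comp poly_fst) (hxb.comp poly_fst) (hX.comp poly_fst)
    (DP.snd (β := fun a => Fin (m a)))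
  have h2 : Poly fun p : Σ a, Fin (m a) => c p.1 p.2 := ((hc.comp poly_fst).app DP.snd).poly
  refine PR.pow ?_ h2 ((((hG.cg hx).2.comp poly_fst).mul h1.2).mono fun p => hb p.1 p.2)
  simp only [MG.bet, Fintype.card_fin]
  exact PR.one.add (PR.one.div (((PR.ofNat 48).mul (PR.natCast (hG.np.comp poly_fst))).mul
    (PR.natCast h1.1)))

theorem InnerP_len (hG : PG G) (hx : Poly x) (hxb : PB x) (hX : DP X) {c : ∀ a, Fin (m a) → ℕ}
    (hc : DP c) (hb : ∀ a e, c a e ≤ (G a).cg (x a) * cap (x a) (X a) e) :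
    PRV fun a => (G a).len (x a) (X a) (c a) := by
  refine PRV.of_pr hG.mp hG.mb ?_
  have h1 := InnerP_cap (hx.comp poly_fst) (hxb.comp poly_fst) (hX.comp poly_fst)
    (DP.snd (β := fun a => Fin (m a)))
  exact (((InnerP_bet hG hx hxb hX hc hb).comp poly_fst).app DP.snd).div (PR.natCast h1.1)

theorem InnerP_PhiC (hG : PG G) (hx : Poly x) (hxb : PB x) (hX : DP X) {c : ∀ a, Fin (m a) → ℕ}
    (hc : DP c) (hb : ∀ a e, c a e ≤ (G a).cg (x a) * cap (x a) (X a) e) :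
    PR fun a => (G a).PhiC (x a) (X a) (c a) :=
  PR.sum_fin hG.mp hG.mb (((InnerP_bet hG hx hxb hX hc hb).comp poly_fst).app DP.snd)

theorem InnerP_inv (hG : PG G) (hx : Poly x) {H : ∀ a, Fin (n a) → Fin (n a) → ℕ} (hH : DP H) :
    PRM fun a => ((G a).Qm (x a) fun u v => (H a u v : ℝ))⁻¹ :=
  PRM.inv hG.np hG.nb (hG.Qm hx (InnerP_natCast hG hH))

theorem InnerP_Res (hG : PG G) (hx : Poly x) {H : ∀ a, Fin (n a) → Fin (n a) → ℕ} (hH : DP H) :
    PR fun p : Σ a, Fin (m a) => (G p.1).Res (x p.1) (H p.1) p.2 :=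
  (hG.comp poly_fst).form ((InnerP_inv hG hx hH).comp poly_fst) DP.snd DP.snd

theorem InnerP_Psi (hG : PG G) (hx : Poly x) (hF : DP F) {H : ∀ a, Fin (n a) → Fin (n a) → ℕ}
    (hH : DP H) : PR fun a => (G a).Psi (x a) (F a) (H a) := by
  have hq := InnerP_qq hG.mp
  simp only [MG.Psi, Fintype.card_fin]
  refine PR.congr ?_ fun a => (sum_mem_eq (F a) _).symm
  exact PR.sum_fin hG.mp hG.mb (PR.ite ((hF.comp poly_fst).mem DP.snd)
    ((InnerP_Res hG hx hH).pow (hq.1.comp poly_fst) (hq.2.comp poly_fst)) PR.zero)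

theorem InnerP_gain (hG : PG G) (hx : Poly x) (hF : DP F) {H : ∀ a, Fin (n a) → Fin (n a) → ℕ}
    (hH : DP H) {u v : ∀ a, Fin (n a)} (hu : DP u) (hv : DP v) :
    PR fun a => (G a).gain (x a) (F a) (H a) (u a) (v a) := by
  have hq := InnerP_qq hG.mp
  have h1 : PRV fun a => ((G a).Qm (x a) fun u v => (H a u v : ℝ))⁻¹ *ᵥ pv (u a) (v a) :=
    (InnerP_inv hG hx hH).mulVec hG.np hG.nb hG.np hG.nb (PRV.pv hG.np hG.nb hu hv)
  have h2 : PR fun p : Σ a, Fin (m a) => (G p.1).b p.2 ⬝ᵥ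
      ((G p.1).Qm (x p.1) fun u v => (H p.1 u v : ℝ))⁻¹ *ᵥ pv (u p.1) (v p.1) :=
    PRV.dot (hG.np.comp poly_fst) (hG.nb.comp poly_fst) ((hG.comp poly_fst).b DP.snd)
      (h1.comp poly_fst)
  simp only [MG.gain, Fintype.card_fin]
  refine PR.congr ?_ fun a => (sum_mem_eq (F a) _).symm
  exact PR.sum_fin hG.mp hG.mb (PR.ite ((hF.comp poly_fst).mem DP.snd)
    (((InnerP_Res hG hx hH).pow ((hq.1.comp poly_fst).sub (poly_const 1))
      ((hq.2.comp poly_fst).sub _)).mul (h2.pow (poly_const 2) (PB.const 2))) PR.zero)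

theorem InnerP_Done (hG : PG G) (hx : Poly x) (hF : DP F) {H : ∀ a, Fin (n a) → Fin (n a) → ℕ}
    (hH : DP H) : Poly fun a => decide ((G a).Done (x a) (F a) (H a)) :=
  Poly.decide_congr (Poly.decide_forall_fin
    (p := fun a e => e ∈ F a → (G a).Res (x a) (H a) e ≤ th (x a)) hG.mp hG.mb
    (Poly.decide_imp ((hF.comp poly_fst).mem DP.snd)
      ((InnerP_Res hG hx hH).decide_le ((InnerP_th hx).comp poly_fst)))) fun _ => Iff.rfl

theorem InnerP_failD (hG : PG G) (hx : Poly x) (hxb : PB x) (hU : Poly U) (hX : DP X)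
    {c : ∀ a, Fin (m a) → ℕ} (hc : DP c)
    (hb : ∀ a e, c a e ≤ (G a).cg (x a) * cap (x a) (X a) e) :
    DP fun a => (G a).failD (x a) (U a) (X a) (c a) :=
  DP.fn' hG.mp hG.mb (PR.natCeil (((PR.natCast (hU.comp poly_fst)).mul
    (((InnerP_len hG hx hxb hX hc hb).comp poly_fst).app DP.snd)).div
      ((InnerP_PhiC hG hx hxb hX hc hb).comp poly_fst)))

theorem InnerP_addH (hG : PG G) {H : ∀ a, Fin (n a) → Fin (n a) → ℕ} (hH : DP H)
    {u v : ∀ a, Fin (n a)} (hu : DP u) (hv : DP v) : DP fun a => MG.addH (H a) (u a) (v a) := by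
  obtain ⟨L, hL, e⟩ := hH.ent₂
  obtain ⟨u', hu', eu⟩ := poly_gen hu.val
  obtain ⟨v', hv', ev⟩ := poly_gen hv.val
  refine DP.fn₂ hG.np hG.nb hG.np hG.nb ?_
  simp only [MG.addH, e, Fin.ext_iff, eu, ev]
  fun_prop

theorem InnerP_add (hG : PG G) {c j : ∀ a, Fin (m a) → ℕ} (hc : DP c) (hj : DP j) :
    DP fun a => c a + j a :=
  DP.fn' hG.mp hG.mb
    (((hc.comp poly_fst).app DP.snd).poly.add ((hj.comp poly_fst).app DP.snd).poly)


/-- The loop invariant: a reachable state, or a correct output. -/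
def InnerP_I {V E : Type} [Fintype V] [DecidableEq V] [Fintype E] [DecidableEq E] (G : MG V E)
    (x U : ℕ) (F X : Finset E) (i : ℕ) :
    ((V → V → ℕ) × (E → ℕ)) ⊕ ((V → V → ℕ) ⊕ (E → ℕ)) → Prop :=
  Sum.elim (G.IReach x F X i) (G.InnerOK x U F X)

section
variable {V E : Type} [Fintype V] [DecidableEq V] [Fintype E] [DecidableEq E] {G : MG V E}
  {x U : ℕ} {F X : Finset E} {i : ℕ} {t : ((V → V → ℕ) × (E → ℕ)) ⊕ ((V → V → ℕ) ⊕ (E → ℕ))}

theorem InnerP_I_none (h : InnerP_I G x U F X i t) (h' : t.getLeft? = none) (k : ℕ) :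
    InnerP_I G x U F X k t := by
  cases t with
  | inl s => simp at h'
  | inr s => exact h

theorem InnerP_I_left (h : InnerP_I G x U F X i t) (h' : t.getLeft?.isSome = true) :
    G.IReach x F X i (t.getLeft?.get h') := by
  cases t with
  | inl s => exact h
  | inr s => simp at h'

theorem InnerP_I_right (h : InnerP_I G x U F X i t) (h' : t.getRight?.isSome = true) :
    G.InnerOK x U F X (t.getRight?.get h') := by
  cases t with
  | inl s => simp at h'
  | inr s => exact h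

end

/-- One step on a family of reachable states. -/
theorem InnerP_step (hG : PG G) (hx : Poly x) (hxb : PB x) (hU : Poly U) (hF : DP F)
    (hX : DP X) (h1 : ∀ a, 1 ≤ x a) (hc : ∀ a u v, (G a).Conn univ u v)
    (hU' : ∀ a, m a * (1 + x a ^ 2) ≤ U a)
    {s : ∀ a, (Fin (n a) → Fin (n a) → ℕ) × (Fin (m a) → ℕ)} (hs : DP s) {i : α → ℕ}
    (hr : ∀ a, (G a).IReach (x a) (F a) (X a) (i a) (s a)) :
    ∃ o : ∀ a, ((Fin (n a) → Fin (n a) → ℕ) × (Fin (m a) → ℕ)) ⊕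
        ((Fin (n a) → Fin (n a) → ℕ) ⊕ (Fin (m a) → ℕ)), DP o ∧
      ∀ a, InnerP_I (G a) (x a) (U a) (F a) (X a) (i a + 1) (o a) := by
  have hb : ∀ a e, (s a).2 e ≤ (G a).cg (x a) * cap (x a) (X a) e :=
    fun a => ((hr a).inv (h1 a)).1
  have hlen := InnerP_len hG hx hxb hX hs.snd' hb
  have hΦ := InnerP_PhiC hG hx hxb hX hs.snd' hb
  have hΨ := InnerP_Psi hG hx hF hs.fst
  have hD := InnerP_Done hG hx hF hs.fst
  have hfail := InnerP_failD hG hx hxb hU hX hs.snd' hb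
  have π : Poly fun q : Σ p : (Σ a, Fin (n a)), Fin (n p.1) => q.1.1 := poly_fst.comp poly_fst
  have hu : DP fun q : Σ p : (Σ a, Fin (n a)), Fin (n p.1) => q.1.2 := DP.snd.comp poly_fst
  have hv : DP fun q : Σ p : (Σ a, Fin (n a)), Fin (n p.1) => q.2 := DP.snd
  obtain ⟨j, hj, hjr⟩ := (hG.comp π).exists_route (fun q => hc q.1.1) (hlen.comp π)
    (fun q e => div_nonneg (MG.InnerB.bet_pow_pos e _).le (Nat.cast_nonneg _)) hu hv
  let P : (Σ p : (Σ a, Fin (n a)), Fin (n p.1)) → Prop := fun q => q.1.2 ≠ q.2 ∧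
    (∑ e, (j q e : ℝ) * (G q.1.1).len (x q.1.1) (X q.1.1) (s q.1.1).2 e) *
        (G q.1.1).Psi (x q.1.1) (F q.1.1) (s q.1.1).1 ≤
      th (x q.1.1) * (G q.1.1).gain (x q.1.1) (F q.1.1) (s q.1.1).1 q.1.2 q.2 *
        (G q.1.1).PhiC (x q.1.1) (X q.1.1) (s q.1.1).2
  have hP : Poly fun q => decide (P q) := by
    refine Poly.decide_and (Poly.decide_not (hu.decide_eq hv)) (PR.decide_le ?_ ?_)
    · exact (PRV.dot (hG.mp.comp π) (hG.mb.comp π) (PRV.natCast hj) (hlen.comp π)).mul (hΨ.comp π)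
    · exact (((InnerP_th hx).comp π).mul (InnerP_gain (hG.comp π) (hx.comp π) (hF.comp π)
        (hs.fst.comp π) hu hv)).mul (hΦ.comp π)
  have hd : DP fun a => (Sum.inr (Sum.inr ((G a).failD (x a) (U a) (X a) (s a).2)) :
      ((Fin (n a) → Fin (n a) → ℕ) × (Fin (m a) → ℕ)) ⊕
        ((Fin (n a) → Fin (n a) → ℕ) ⊕ (Fin (m a) → ℕ))) := hfail.inr.inr
  obtain ⟨o₁, ho₁, e₁⟩ := DP.pick (n := fun p : Σ a, Fin (n a) => n p.1) (hG.np.comp poly_fst)
    (hG.nb.comp poly_fst) (p := fun p v => P ⟨p, v⟩) hP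
    (f := fun p v => Sum.inl (MG.addH (s p.1).1 p.2 v, (s p.1).2 + j ⟨p, v⟩))
    (((InnerP_addH (hG.comp π) (hs.fst.comp π) hu hv).pair
      (InnerP_add (hG.comp π) (hs.snd'.comp π) hj)).inl) (hd.comp poly_fst)
  obtain ⟨o₂, ho₂, e₂⟩ := DP.pick hG.np hG.nb (p := fun a u => ∃ v, P ⟨⟨a, u⟩, v⟩)
    (Poly.decide_exists_fin (n := fun p : Σ a, Fin (n a) => n p.1) (p := fun p v => P ⟨p, v⟩)
      (hG.np.comp poly_fst) (hG.nb.comp poly_fst) hP)
    (f := fun a u => o₁ ⟨a, u⟩) ho₁ hd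
  refine ⟨_, DP.ite hD hs.fst.inl.inr ho₂, fun a => ?_⟩
  by_cases hdone : (G a).Done (x a) (F a) (s a).1
  · rw [if_pos hdone]
    exact (hr a).served (h1 a) hdone
  rw [if_neg hdone]
  rcases e₂ a with ⟨u, ⟨v, hv⟩, e⟩ | ⟨hno, e⟩
  · rw [e]
    rcases e₁ ⟨a, u⟩ with ⟨v, hv, e⟩ | ⟨hno, -⟩
    · rw [e]
      exact (hr a).step ⟨hdone, u, v, j ⟨⟨a, u⟩, v⟩, hv.1, hjr ⟨⟨a, u⟩, v⟩, hv.2, rfl⟩
    · exact absurd hv (hno v)
  · rw [e]
    refine MG.Stuck.fail (h1 a) (by simpa using hU' a) ⟨hdone, fun u v huv =>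
      ⟨j ⟨⟨a, u⟩, v⟩, hjr ⟨⟨a, u⟩, v⟩, ?_⟩⟩
    exact le_of_not_ge fun h => hno u ⟨v, huv, h⟩


/-- One round of the loop. -/
theorem InnerP_round (hG : PG G) (hx : Poly x) (hxb : PB x) (hU : Poly U) (hF : DP F)
    (hX : DP X) (h1 : ∀ a, 1 ≤ x a) (hc : ∀ a u v, (G a).Conn univ u v)
    (hU' : ∀ a, m a * (1 + x a ^ 2) ≤ U a)
    {o : ∀ a, ((Fin (n a) → Fin (n a) → ℕ) × (Fin (m a) → ℕ)) ⊕
      ((Fin (n a) → Fin (n a) → ℕ) ⊕ (Fin (m a) → ℕ))} (ho : DP o) {i : α → ℕ}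
    (hr : ∀ a, InnerP_I (G a) (x a) (U a) (F a) (X a) (i a) (o a)) :
    ∃ o' : ∀ a, ((Fin (n a) → Fin (n a) → ℕ) × (Fin (m a) → ℕ)) ⊕
        ((Fin (n a) → Fin (n a) → ℕ) ⊕ (Fin (m a) → ℕ)), DP o' ∧
      ∀ a, InnerP_I (G a) (x a) (U a) (F a) (X a) (i a + 1) (o' a) := by
  refine DP.cases (p := fun a => (o a).getLeft? = none) (ho.getLeft?.decide_eq DP.none)
    (R := fun a o' => InnerP_I (G a) (x a) (U a) (F a) (X a) (i a + 1) o')
    ⟨fun a => o a.1, ho.restrict _, fun a => InnerP_I_none (hr a.1) a.2 _⟩ ?_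
  · have hs : ∀ a : {a // ¬ (o a).getLeft? = none}, (o a.1).getLeft?.isSome = true := fun a =>
      Option.isSome_iff_ne_none.2 a.2
    have h2 : DP fun a : {a // ¬ (o a).getLeft? = none} => (o a.1).getLeft?.get (hs a) :=
      Poly.of_enc (Poly.left (Poly.restrict ho.getLeft? _)) fun a => by
        obtain ⟨x, hx⟩ := Option.isSome_iff_exists.1 (hs a)
        simp only [hx]
        rfl
    exact InnerP_step (hG.comp poly_val) (hx.comp poly_val) (hxb.comp poly_val)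
      (hU.comp poly_val) (hF.comp poly_val) (hX.comp poly_val) (fun a => h1 a.1)
      (fun a => hc a.1) (fun a => hU' a.1) h2 (i := fun a => i a.1)
      fun a => InnerP_I_left (hr a.1) (hs a)

theorem InnerP_sz {k : ℕ} {H : Fin k → Fin k → ℕ} {T : ℕ} (h : ∑ u, ∑ v, H u v ≤ T) :
    sz H ≤ k * (k * (4 * T + 2) + 1 + 1) + 1 :=
  sz_fun_le fun u => sz_natFun_le fun v =>
    ((single_le_sum (f := fun v => H u v) (fun _ _ => Nat.zero_le _) (mem_univ v)).trans
      (single_le_sum (f := fun u => ∑ v, H u v) (fun _ _ => Nat.zero_le _) (mem_univ u))).trans h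

/-- The inner solver. -/
theorem PG.exists_inner (hG : PG G) (hx : Poly x) (hxb : PB x) (hU : Poly U) (hF : DP F)
    (hX : DP X) (h1 : ∀ a, 1 ≤ x a) (hc : ∀ a u v, (G a).Conn univ u v)
    (hU' : ∀ a, m a * (1 + x a ^ 2) ≤ U a) :
    ∃ o : ∀ a, (Fin (n a) → Fin (n a) → ℕ) ⊕ (Fin (m a) → ℕ), DP o ∧
      ∀ a, (G a).InnerOK (x a) (U a) (F a) (X a) (o a) := by
  obtain ⟨hcg, hcb⟩ := hG.cg hx
  have hn := hG.np; have hnb := hG.nb; have hm := hG.mp; have hmb := hG.mb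
  have hUs := hU.pb_sz
  let T : α → ℕ := fun a => (G a).cg (x a) * (m a * (1 + x a ^ 2)) + 1
  have hT : Poly T := (hcg.mul (by fun_prop)).add (poly_const 1)
  have hT' : PB T := (hcb.mul (by fun_prop)).add (PB.const 1)
  have hB : PB fun a => n a * (n a * (4 * T a + 2) + 1 + 1) +
      m a * (4 * ((G a).cg (x a) * (1 + x a ^ 2)) + 2) + m a * (4 * sz (U a) + 1) + 10 :=
    (((hnb.mul (((hnb.mul (((PB.const 4).mul hT').add (PB.const 2))).add (PB.const 1)).add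
      (PB.const 1))).add (hmb.mul (((PB.const 4).mul (hcb.mul (by fun_prop))).add
      (PB.const 2)))).add (hmb.mul (((PB.const 4).mul hUs).add (PB.const 1)))).add (PB.const 10)
  have hi : DP fun a => (Sum.inl (0, 0) : ((Fin (n a) → Fin (n a) → ℕ) × (Fin (m a) → ℕ)) ⊕
      ((Fin (n a) → Fin (n a) → ℕ) ⊕ (Fin (m a) → ℕ))) :=
    ((DP.fn₂ (v := fun a (_ : Fin (n a)) (_ : Fin (n a)) => 0) hn hnb hn hnb (poly_const 0)).pair
      (DP.fn' (v := fun a (_ : Fin (m a)) => 0) hm hmb (poly_const 0))).inl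
  obtain ⟨out, hout, hI⟩ := DP.loop hT hT' hB
    (fun a i o => InnerP_I (G a) (x a) (U a) (F a) (X a) i o) hi (fun a => MG.IReach.zero)
    (by
      have π := (poly_fst (β := fun a => Un × (((Fin (n a) → Fin (n a) → ℕ) × (Fin (m a) → ℕ)) ⊕
        ((Fin (n a) → Fin (n a) → ℕ) ⊕ (Fin (m a) → ℕ))))).comp (poly_val (p := fun p =>
          InnerP_I (G p.1) (x p.1) (U p.1) (F p.1) (X p.1) p.2.1.n p.2.2 ∧ p.2.1.n < T p.1))
      exact InnerP_round (hG.comp π) (hx.comp π) (hxb.comp π) (hU.comp π) (hF.comp π)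
        (hX.comp π) (fun p => h1 _) (fun p => hc _) (fun p => hU' _)
        ((DP.snd.comp poly_val).snd') (i := fun p => p.1.2.1.n) fun p => p.2.1)
    (by
      rintro a i (⟨H, c⟩ | H | Δ) hi h
      · obtain ⟨h2, h3, -⟩ := MG.IReach.inv (h1 a) h
        have h4 := InnerP_sz (H := H) (h3.le.trans hi)
        have h5 := sz_natFun_le (v := c) fun e => (h2 e).trans
          (Nat.mul_le_mul_left _ (MG.InnerB.cap_le (x a) (X a) e))
        rw [sz_inl, sz_pair]
        omega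
      · have h2 : ∑ u, ∑ v, H u v ≤ T a := by
          refine (MG.Served.tot h).trans ((Nat.mul_le_mul_left _
            (MG.InnerB.sum_cap_le (x a) (X a))).trans ?_)
          simp [T]
        have h4 := InnerP_sz h2
        rw [sz_inr, sz_inl]
        omega
      · have h4 := sz_fun_le (v := Δ) fun e => sz_le_of_le (MG.Fail.le h e)
        rw [sz_inr, sz_inr]
        omega)
  have hs : ∀ a, (out a).getRight?.isSome = true := fun a => by
    have := hI a
    generalize out a = t at this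
    cases t with
    | inl s =>
      have h2 := MG.IReach.le (h1 a) this
      simp [T] at h2
    | inr s => rfl
  refine ⟨fun a => (out a).getRight?.get (hs a),
    Poly.of_enc (Poly.left hout.getRight?) fun a => ?_, fun a => InnerP_I_right (hI a) (hs a)⟩
  obtain ⟨x, hx⟩ := Option.isSome_iff_exists.1 (hs a)
  simp only [hx]
  rfl

end Crest.Agent.R37
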