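import Crest.Agent.R37.Halve

set_option autoImplicit false
open Finset Matrix Crest.CombinatoricsR.Multigraph
open Crest.Agent.Lib.PolyTime
open scoped Classical

noncomputable section
namespace Crest.Agent.R37

/-- The potential controlling the accumulated loss. -/
def Iter_G (κ : ℕ) : ℝ := Real.exp (21000 * (1 - (49 / 50) ^ Nat.log 2 κ))

theorem Iter_G_bounds (κ : ℕ) : 1 ≤ Iter_G κ ∧ Iter_G κ ≤ Real.exp 21000 := by
  have h1 : ((49 : ℝ) / 50) ^ Nat.log 2 κ ≤ 1 := pow_le_one₀ (by norm_num) (by norm_num)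
  have h2 : 0 ≤ ((49 : ℝ) / 50) ^ Nat.log 2 κ := by positivity
  exact ⟨Real.one_le_exp (by linarith), Real.exp_le_exp.2 (by linarith)⟩

theorem Iter_geo (L : ℕ) : 1 / (2 : ℝ) ^ (L / 30) ≤ 2 * (49 / 50) ^ L := by
  have h1 : (1 : ℝ) / 2 ≤ (49 / 50) ^ 30 := by norm_num
  have h2 : ((49 : ℝ) / 50) ^ (30 * (L / 30 + 1)) ≤ (49 / 50) ^ L :=
    pow_le_pow_of_le_one (by norm_num) (by norm_num) (by omega)
  have h3 := pow_le_pow_left₀ (by norm_num) h1 (L / 30 + 1)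
  rw [← pow_mul, pow_succ, _root_.one_div_pow] at h3
  linarith

theorem Iter_step {κ : ℕ} (h : 2 ^ 300 ≤ κ) : 1 ≤ nxt κ ∧ nxt κ < κ ∧
    (1 / 2 + 103 / (yOf κ : ℝ)) * (Iter_G (nxt κ) / nxt κ) ≤ Iter_G κ / κ := by
  obtain ⟨h1, h2, -⟩ := Halve_y h
  clear h
  have h3 : yOf κ * yOf κ ^ 21 ≤ κ := by
    rw [← pow_succ']
    exact (Nat.pow_le_pow_right (by omega) (by norm_num)).trans h2
  have h4 : 1 ≤ yOf κ ^ 21 := Nat.one_le_pow _ _ (by omega)
  have h5 := Nat.mul_le_mul_right (yOf κ ^ 21) h1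
  have h6 : κ ≤ 2 * nxt κ + yOf κ ^ 21 + 1 := by unfold nxt; omega
  have h7 : 2 * nxt κ ≤ κ := by unfold nxt; omega
  have h8 : 1 ≤ nxt κ := by omega
  refine ⟨h8, by omega, ?_⟩
  have h9 : Nat.log 2 (nxt κ) + 1 ≤ Nat.log 2 κ := by
    rw [← Nat.log_mul_base (by norm_num) (by omega)]
    exact Nat.log_mono_right (by omega)
  have g1 : (1 + 210 / (yOf κ : ℝ)) * Iter_G (nxt κ) ≤ Iter_G κ := by
    have a1 := Iter_geo (Nat.log 2 κ)
    have a2 : ((49 : ℝ) / 50) ^ Nat.log 2 κ ≤ (49 / 50) ^ (Nat.log 2 (nxt κ) + 1) :=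
      pow_le_pow_of_le_one (by norm_num) (by norm_num) h9
    have a3 : 210 / (yOf κ : ℝ) = 210 * (1 / 2 ^ (Nat.log 2 κ / 30)) := by
      rw [yOf]
      push_cast
      ring
    rw [pow_succ] at a2
    have a5 : 0 ≤ ((49 : ℝ) / 50) ^ Nat.log 2 κ := by positivity
    have a4 := Real.add_one_le_exp (210 / (yOf κ : ℝ))
    refine (mul_le_mul_of_nonneg_right ((add_comm _ _).trans_le a4) (Real.exp_pos _).le).trans ?_
    rw [← Real.exp_add]
    exact Real.exp_le_exp.2 (by linarith)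
  have y0 : (1024 : ℝ) ≤ yOf κ := by exact_mod_cast h1
  have k0 : (1 : ℝ) ≤ nxt κ := by exact_mod_cast h8
  have g2 : (1 / 2 + 103 / (yOf κ : ℝ)) * κ ≤ (1 + 210 / (yOf κ : ℝ)) * nxt κ := by
    have b3 : (yOf κ : ℝ) * yOf κ ^ 21 ≤ κ := by exact_mod_cast h3
    have b4 : (1 : ℝ) ≤ yOf κ ^ 21 := by exact_mod_cast h4
    have b6 : (κ : ℝ) ≤ 2 * nxt κ + yOf κ ^ 21 + 1 := by exact_mod_cast h6
    generalize (yOf κ : ℝ) ^ 21 = t at *
    generalize (yOf κ : ℝ) = y at *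
    field_simp
    nlinarith [mul_le_mul_of_nonneg_left b6 (show 0 ≤ y + 210 by linarith),
      mul_le_mul (show y + 210 ≤ 2 * y by linarith) (show t + 1 ≤ 2 * t by linarith)
        (by linarith) (by linarith)]
  have k1 : (0 : ℝ) < κ := by exact_mod_cast (show 0 < κ by omega)
  have g0 := (Iter_G_bounds (nxt κ)).1
  rw [← mul_div_assoc, div_le_div_iff₀ (by linarith) k1]
  nlinarith [mul_le_mul_of_nonneg_left g2 (show 0 ≤ Iter_G (nxt κ) by linarith),
    mul_le_mul_of_nonneg_right g1 (show (0 : ℝ) ≤ nxt κ by linarith)]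

/-- The loop invariant. -/
structure Iter_I {n m : ℕ} (G : MG (Fin n) (Fin m)) (κ i : ℕ) (s : ℕ × Finset (Fin m)) : Prop where
  pos : 1 ≤ s.1
  le : s.1 ≤ κ
  pc : G.PC s.1 (ind s.2)
  prog : s.1 < 2 ^ 300 ∨ s.1 + i ≤ κ
  thin : ∀ S : Finset (Fin n), S.Nonempty → S ≠ univ →
    (#(s.2 ∩ G.cut S) : ℝ) * (Iter_G s.1 / s.1) ≤ #(G.cut S) * (Iter_G κ / κ)

/-- Thin spanning trees in partition-connected graphs. -/
theorem exists_thin : ∃ C : ℝ, 0 < C ∧ ∀ (α : Type) [PEnc α] (n m : α → ℕ)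
    (G : ∀ a, MG (Fin (n a)) (Fin (m a))) (κ : α → ℕ), PG G → Poly κ → PB κ → (∀ a, 1 ≤ κ a) →
    (∀ a, 2 ≤ n a) → (∀ a, (G a).PC (κ a) (ind univ)) →
    ∃ T : ∀ a, Finset (Fin (m a)), DP T ∧ ∀ a, #(T a) + 1 = n a ∧
      (∀ u v, (G a).Conn (T a) u v) ∧ ∀ S : Finset (Fin (n a)), S.Nonempty → S ≠ univ →
        (#(T a ∩ (G a).cut S) : ℝ) ≤ C / κ a * #((G a).cut S) := by
  refine ⟨(2 ^ 300 : ℕ) * Real.exp 21000, by positivity, fun α _ n m G κ hG hκ hκb h1 h2 hpc => ?_⟩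
  have hmb := hG.mb
  obtain ⟨out, ho, hI⟩ := DP.loop (β := fun a => ℕ × Finset (Fin (m a))) hκ hκb
    (B := fun a => 4 * κ a + 1 + (m a * 4 + 1) + 1) (by fun_prop)
    (fun a i s => Iter_I (G a) (κ a) i s) ((DP.of_poly hκ).pair (DP.univ hG.mp hG.mb))
    (fun a => ⟨h1 a, le_rfl, hpc a, .inr le_rfl, fun S _ _ => by rw [univ_inter]⟩) (by
      let τ := {p : Σ a, Un × (ℕ × Finset (Fin (m a))) //
        Iter_I (G p.1) (κ p.1) p.2.1.n p.2.2 ∧ p.2.1.n < κ p.1}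
      have ha : Poly fun p : τ => p.1.1 := poly_fst.comp poly_val
      have hs : DP fun p : τ => p.1.2.2 := (DP.snd.comp poly_val).snd'
      have hk : Poly fun p : τ => p.1.2.2.1 := hs.fst.poly
      refine DP.cases (p := fun p : τ => 2 ^ 300 ≤ p.1.2.2.1) ((poly_const _).decide_le hk)
        (R := fun p s => Iter_I (G p.1.1) (κ p.1.1) (p.1.2.1.n + 1) s) ?_
        ⟨fun p => p.1.1.2.2, hs.restrict _, fun p => ?_⟩
      · obtain ⟨o, ho, h⟩ := (hG.comp (ha.restrict fun p => 2 ^ 300 ≤ p.1.2.2.1)).exists_halve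
          (hk.restrict _) ((hκb.comp (ha.restrict _)).mono fun p => p.1.2.1.le) (fun p => p.2)
          (fun p => h2 _) (hs.snd'.restrict _) fun p => p.1.2.1.pc
        refine ⟨fun p => (nxt p.1.1.2.2.1, o p),
          (DP.of_poly (Halve_poly_nxt (hk.restrict _))).pair ho, fun p => ?_⟩
        obtain ⟨a1, a2, a3⟩ := Iter_step p.2
        have hI := p.1.2.1
        refine ⟨a1, a2.le.trans hI.le, (h p).2.1, .inr ?_, fun S hS hS' => ?_⟩
        · have := hI.prog.resolve_left (not_lt.2 p.2)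
          exact (Nat.add_lt_add_right a2 _).trans_le this
        · have b0 := (Iter_G_bounds (nxt p.1.1.2.2.1)).1
          refine (mul_le_mul_of_nonneg_right ((h p).2.2 S hS hS') (by positivity)).trans
            (le_trans ?_ (hI.thin S hS hS'))
          rw [mul_comm (_ + _), mul_assoc]
          exact mul_le_mul_of_nonneg_left a3 (Nat.cast_nonneg _)
      · have hI := p.1.2.1
        exact ⟨hI.pos, hI.le, hI.pc, .inl (not_le.1 p.2), hI.thin⟩)
    fun a i s _ hI => by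
      have h3 := sz_le_self s.1
      have h4 := sz_finset_le s.2
      have h5 := hI.le
      have h6 : sz s = sz s.1 + sz s.2 + 1 := rfl
      omega
  obtain ⟨T, hT, h⟩ := hG.exists_tree (fun a => by have := h2 a; omega) ho.snd'
    fun a => (hI a).pc.conn (hI a).pos
  refine ⟨T, hT, fun a => ⟨(h a).2.1, (h a).2.2, fun S hS hS' => ?_⟩⟩
  have b1 : (#(T a ∩ (G a).cut S) : ℝ) ≤ #((out a).2 ∩ (G a).cut S) := by
    exact_mod_cast card_le_card (inter_subset_inter_right (h a).1)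
  have b2 := (hI a).thin S hS hS'
  have b3 : (out a).1 ≤ 2 ^ 300 := ((hI a).prog.resolve_right fun h =>
    absurd ((Nat.add_le_add_right (hI a).pos _).trans h) (by omega)).le
  have b4 : (0 : ℝ) < (out a).1 := by exact_mod_cast (hI a).pos
  have b5 : ((out a).1 : ℝ) ≤ (2 ^ 300 : ℕ) := Nat.cast_le.2 b3
  have b6 := (Iter_G_bounds (out a).1).1
  have b7 := Iter_G_bounds (κ a)
  generalize ((2 ^ 300 : ℕ) : ℝ) = M at b5 ⊢
  calc (#(T a ∩ (G a).cut S) : ℝ) ≤ #((out a).2 ∩ (G a).cut S) * (1 / (out a).1) * (out a).1 := by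
        rw [mul_assoc, one_div_mul_cancel b4.ne', mul_one]
        exact b1
    _ ≤ #((out a).2 ∩ (G a).cut S) * (Iter_G (out a).1 / (out a).1) * (out a).1 := by gcongr
    _ ≤ #((G a).cut S) * (Iter_G (κ a) / κ a) * (out a).1 := by gcongr
    _ ≤ #((G a).cut S) * (Real.exp 21000 / κ a) * M := by gcongr; exact b7.2
    _ = _ := by ring

end Crest.Agent.R37
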