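import Crest.Agent.R37.KSDir

set_option autoImplicit false
open Finset Matrix Crest.CombinatoricsR.Multigraph
open scoped Classical

noncomputable section
namespace Crest.Agent.R37
namespace KSAn
variable {V I : Type} [Fintype V] [DecidableEq V] {A : Matrix V V ℝ}

/-- the second order term of the resolvent expansion -/
def MM (A : Matrix V V ℝ) (s : Finset I) (w : I → V → ℝ) (u : I → ℝ) (v : V → ℝ) : ℝ :=
  ∑ i ∈ s, ∑ j ∈ s, u i * u j * (v ⬝ᵥ A⁻¹ *ᵥ w i) * (w i ⬝ᵥ A⁻¹ *ᵥ w j) * (v ⬝ᵥ A⁻¹ *ᵥ w j)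

theorem MM_nonneg (hA : A.PosDef) (s : Finset I) (w : I → V → ℝ) (u : I → ℝ) (v : V → ℝ) :
    0 ≤ MM A s w u v := by
  refine (qf_inv_nonneg hA (∑ i ∈ s, (u i * (v ⬝ᵥ A⁻¹ *ᵥ w i)) • w i)).trans_eq ?_
  simp only [MM, sum_dotProduct, Matrix.mulVec_sum, dotProduct_sum, Matrix.mulVec_smul,
    smul_dotProduct, dotProduct_smul, smul_eq_mul, mul_sum]
  rw [sum_comm]
  exact sum_congr rfl fun i _ => sum_congr rfl fun j _ => by ring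

theorem MM_sq_le (hA : A.PosDef) (s : Finset I) (w : I → V → ℝ) (τ : I → ℝ) (v : V → ℝ) :
    MM A s w (fun i => τ i ^ 2) v ≤ (∑ i ∈ s, τ i ^ 2 * (v ⬝ᵥ A⁻¹ *ᵥ w i) ^ 2) *
      ∑ i ∈ s, τ i ^ 2 * (w i ⬝ᵥ A⁻¹ *ᵥ w i) := by
  obtain ⟨g, hg⟩ : ∃ g : I → ℝ, ∀ i, v ⬝ᵥ A⁻¹ *ᵥ w i = g i := ⟨_, fun _ => rfl⟩
  have h1 : ∀ i j, 2 * (g i * (w i ⬝ᵥ A⁻¹ *ᵥ w j) * g j) ≤
      g i ^ 2 * (w j ⬝ᵥ A⁻¹ *ᵥ w j) + g j ^ 2 * (w i ⬝ᵥ A⁻¹ *ᵥ w i) := fun i j => by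
    have := qf_inv_nonneg hA (g j • w i - g i • w j)
    simp only [Matrix.mulVec_sub, Matrix.mulVec_smul, sub_dotProduct, dotProduct_sub,
      smul_dotProduct, dotProduct_smul, smul_eq_mul, qf_symm hA (w j) (w i)] at this
    linarith
  have h2 : ∑ i ∈ s, ∑ j ∈ s, τ i ^ 2 * g i ^ 2 * (τ j ^ 2 * (w j ⬝ᵥ A⁻¹ *ᵥ w j)) =
      ∑ i ∈ s, ∑ j ∈ s, τ j ^ 2 * g j ^ 2 * (τ i ^ 2 * (w i ⬝ᵥ A⁻¹ *ᵥ w i)) := sum_comm
  have h3 : 2 * MM A s w (fun i => τ i ^ 2) v ≤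
      ∑ i ∈ s, ∑ j ∈ s, τ i ^ 2 * g i ^ 2 * (τ j ^ 2 * (w j ⬝ᵥ A⁻¹ *ᵥ w j)) +
      ∑ i ∈ s, ∑ j ∈ s, τ j ^ 2 * g j ^ 2 * (τ i ^ 2 * (w i ⬝ᵥ A⁻¹ *ᵥ w i)) := by
    simp only [MM, hg, mul_sum, ← sum_add_distrib]
    refine sum_le_sum fun i _ => sum_le_sum fun j _ => ?_
    linarith [mul_le_mul_of_nonneg_left (h1 i j) (mul_nonneg (sq_nonneg (τ i)) (sq_nonneg (τ j)))]
  simp only [hg, sum_mul_sum]
  linarith

theorem key (hA : A.PosDef) (s : Finset I) (w : I → V → ℝ) (η τ : I → ℝ) {ε β : ℝ} (hβ : 0 ≤ β)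
    (ha : ∑ i ∈ s, |ε * η i - β * ε ^ 2 * τ i ^ 2| * (w i ⬝ᵥ A⁻¹ *ᵥ w i) ≤ 1 / 2)
    (hb : 16 * β * ε ^ 2 * ∑ i ∈ s, τ i ^ 2 * (w i ⬝ᵥ A⁻¹ *ᵥ w i) ≤ 1) {A' : Matrix V V ℝ}
    (hs : A'.IsSymm) (hle : ∀ z, z ⬝ᵥ A *ᵥ z - ∑ i ∈ s, (ε * η i - β * ε ^ 2 * τ i ^ 2) *
      (w i ⬝ᵥ z) ^ 2 ≤ z ⬝ᵥ A' *ᵥ z) :
    A'.PosDef ∧ ∀ v, v ⬝ᵥ A'⁻¹ *ᵥ v ≤ v ⬝ᵥ A⁻¹ *ᵥ v + ε * ∑ i ∈ s, η i * (v ⬝ᵥ A⁻¹ *ᵥ w i) ^ 2 -
      3 / 4 * β * ε ^ 2 * ∑ i ∈ s, τ i ^ 2 * (v ⬝ᵥ A⁻¹ *ᵥ w i) ^ 2 + 4 * ε ^ 2 * MM A s w η v := by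
  obtain ⟨h1, h2⟩ := resolvent hA s w _ ha
  obtain ⟨h3, h4, -⟩ := qf_inv_anti h1 hs fun z => by
    simpa only [Matrix.sub_mulVec, dotProduct_sub, Matrix.sum_mulVec, dotProduct_sum,
      Matrix.smul_mulVec, dotProduct_smul, smul_eq_mul, qf_vecMulVec] using hle z
  refine ⟨h3, fun v => ((h4 v).trans (h2 v)).trans ?_⟩
  change _ + 2 * MM A s w (fun i => ε * η i - β * ε ^ 2 * τ i ^ 2) v ≤ _
  have e1 : MM A s w (fun i => ε * η i - β * ε ^ 2 * τ i ^ 2) v +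
      MM A s w (fun i => ε * η i + β * ε ^ 2 * τ i ^ 2) v =
      2 * ε ^ 2 * MM A s w η v + 2 * (β * ε ^ 2) ^ 2 * MM A s w (fun i => τ i ^ 2) v := by
    simp only [MM, mul_sum, ← sum_add_distrib]
    exact sum_congr rfl fun i _ => sum_congr rfl fun j _ => by ring
  have e2 : ∑ i ∈ s, (ε * η i - β * ε ^ 2 * τ i ^ 2) * (v ⬝ᵥ A⁻¹ *ᵥ w i) ^ 2 =
      ε * ∑ i ∈ s, η i * (v ⬝ᵥ A⁻¹ *ᵥ w i) ^ 2 -
        β * ε ^ 2 * ∑ i ∈ s, τ i ^ 2 * (v ⬝ᵥ A⁻¹ *ᵥ w i) ^ 2 := by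
    simp only [mul_sum, ← sum_sub_distrib]
    exact sum_congr rfl fun i _ => by ring
  have h5 := MM_nonneg hA s w (fun i => ε * η i + β * ε ^ 2 * τ i ^ 2) v
  have h6 := mul_le_mul_of_nonneg_left (MM_sq_le hA s w τ v) (sq_nonneg (β * ε ^ 2))
  have h7 := mul_le_mul_of_nonneg_left hb (mul_nonneg (mul_nonneg hβ (sq_nonneg ε))
    (sum_nonneg fun i (_ : i ∈ s) => mul_nonneg (sq_nonneg (τ i)) (sq_nonneg (v ⬝ᵥ A⁻¹ *ᵥ w i))))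
  rw [e2]
  linarith

theorem scalar {s A B s' : ℝ} (hs : 0 < s) (hA : 0 ≤ A) (hAs : A ≤ s) (hB : 0 ≤ B) (hBs : B ≤ s / 2)
    (h : s + A - B ≤ s') : 0 < s' ∧ 1 / s' ≤ 1 / s - A / (2 * s ^ 2) + 2 * B / s ^ 2 := by
  have h0 : 0 < s + A - B := by linarith
  refine ⟨by linarith, (one_div_le_one_div_of_le h0 h).trans ?_⟩
  rw [show 1 / s - A / (2 * s ^ 2) + 2 * B / s ^ 2 = (s - A / 2 + 2 * B) / s ^ 2 by field_simp,
    div_le_div_iff₀ h0 (by positivity)]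
  nlinarith [mul_nonneg hB (show 0 ≤ s - 2 * B by linarith), mul_nonneg hA (sub_nonneg.2 hAs),
    mul_nonneg hA hB]

theorem num {B : ℝ} (hB : 3200 ≤ B) {c : ℝ} (hc : c ≤ 3200) {m n : ℕ} (h : m < n) :
    c * (B ^ m / B ^ n) ≤ 1 := by
  have h0 : 0 < B := by linarith
  rw [← mul_div_assoc, div_le_one (by positivity)]
  calc c * B ^ m ≤ B * B ^ m := by gcongr; linarith
    _ = B ^ (m + 1) := by ring
    _ ≤ B ^ n := pow_le_pow_right₀ (by linarith) h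

theorem sum_single (x y : V → ℝ) :
    ∑ v, (Pi.single v (1 : ℝ) ⬝ᵥ x) * (Pi.single v (1 : ℝ) ⬝ᵥ y) = x ⬝ᵥ y := by
  simp [dotProduct, Pi.single_apply]

end KSAn
open KSAn

namespace KP
variable {V E : Type} [Fintype V] [DecidableEq V] [Fintype E] [DecidableEq E] {P : KP V E} {s : KS E} {R : Finset E}

/-- First-order change of the potential. -/
def lin (P : KP V E) (s : KS E) (τ : E → ℝ) : ℝ :=
  ∑ f ∈ s.al, P.eta s τ f * (((P.Pm s)⁻¹ *ᵥ P.G.b f) ⬝ᵥ ((P.Pm s)⁻¹ *ᵥ P.G.b f))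

/-- Second-order change of the potential. -/
def quad (P : KP V E) (s : KS E) (τ : E → ℝ) : ℝ :=
  8 * ∑ f ∈ s.al, ∑ g ∈ s.al, P.eta s τ f * (P.Gm s f g * P.Km s f g) * P.eta s τ g -
    3 / 8 * P.bb * ∑ f ∈ s.al, P.Km s f f * τ f ^ 2

/-- The analytic part of a move: any state `s'` with the same alive set, the same dead values,
`t' ≤ t + ε τ` and `t' - y' ≥ t - y + ε (τ - h) - err`. -/
theorem move_an (h : P.Pre) (hv : P.Valid s) (hΦ : P.Phi s ≤ (P.B : ℝ) ^ 4) {τ : E → ℝ}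
    (hτ : P.Dir s R τ) {s' : KS E} (hal : s'.al = s.al) (hy : ∀ e, e ∉ s.al → s'.y e = s.y e)
    (ht : ∀ e ∈ s.al, 0 ≤ (s.t e : ℝ) / P.N + P.eps * τ e ∧ (s.t e : ℝ) / P.N + P.eps * τ e ≤ 1 ∧
      (s'.t e : ℝ) / P.N ≤ s.t e / P.N + P.eps * τ e)
    {err : E → ℝ} (h0 : ∀ e, 0 ≤ err e) (hs : ∑ e ∈ s.al, err e ≤ 2 / (P.B : ℝ) ^ 61)
    (he : ∀ e ∈ s.al, (s.t e : ℝ) / P.N - s.y e / P.N + P.eps * (τ e - P.hv s τ e) - err e ≤
      (s'.t e : ℝ) / P.N - s'.y e / P.N) :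
    (P.Pm s').PosDef ∧ (∀ e ∈ s.al, 0 < P.sl s' e) ∧
      P.Phi s' ≤ P.Phi s + P.eps * P.lin s τ + P.eps ^ 2 * P.quad s τ + 4 / (P.B : ℝ) ^ 53 := by
  have hB : (3200 : ℝ) ≤ P.B := by exact_mod_cast h.B_ge
  have hB0 : (0 : ℝ) < P.B := by linarith
  have hp : (800 : ℝ) ≤ P.p := by exact_mod_cast h.p
  have hN : (0 : ℝ) < P.N := by rw [N]; push_cast; positivity
  have hβ0 : 0 ≤ P.bb := by rw [bb]; positivity
  have hβ : P.bb ≤ 1 / 2 := by rw [bb, div_le_iff₀ (by linarith)]; linarith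
  have hr0 : 0 < P.r0 := by rw [r0]; positivity
  have hr : P.r0 ≤ 1 := by rw [r0, div_le_one (by linarith)]; linarith
  have hε : 0 < P.eps := by rw [eps]; positivity
  have hG : ∀ f ∈ s.al, P.Gm s f f ≤ 1 := fun f hf => (hv.Gm_le h hf).trans hr
  have hG2 : ∀ e ∈ s.al, ∀ f ∈ s.al, P.Gm s e f ^ 2 ≤ 1 := fun e he f hf =>
    (hv.Gm_sq_le e f).trans (mul_le_one₀ (hG e he) (hv.Gm_nonneg f) (hG f hf))
  have hG1 : ∀ e ∈ s.al, ∀ f ∈ s.al, |P.Gm s e f| ≤ 1 := fun e he f hf =>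
    (sq_le_one_iff_abs_le_one _).1 (hG2 e he f hf)
  have hη : ∑ f ∈ s.al, |P.eta s τ f| ≤ 3 / 2 * (P.B : ℝ) ^ 6 := by
    refine le_trans ?_ (mul_le_mul_of_nonneg_left hτ.l1 (by norm_num))
    rw [mul_sum]
    refine sum_le_sum fun f _ => ?_
    obtain ⟨-, -, h1, h2⟩ := h.ell_mem (t := s.t f / P.N) (by positivity)
      ((div_le_one hN).2 (by exact_mod_cast hv.tle f))
    rw [eta, abs_mul, abs_of_nonneg (by linarith)]
    gcongr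
  have n1 : P.eps * (P.B : ℝ) ^ 6 * 6 ≤ 1 := by
    have := num hB (c := 6) (by norm_num) (show 6 < 23 by norm_num)
    rw [eps]; linarith [show 1 / (P.B : ℝ) ^ 23 * P.B ^ 6 = P.B ^ 6 / P.B ^ 23 by ring]
  have n2 : P.eps ^ 2 * (P.B : ℝ) ^ 12 * 36 ≤ 1 / (P.B : ℝ) ^ 4 := by
    have := num hB (c := 36) (by norm_num) (show 16 < 46 by norm_num)
    rw [eps, le_div_iff₀ (by positivity)]
    linarith [show (1 / (P.B : ℝ) ^ 23) ^ 2 * P.B ^ 12 * 36 * P.B ^ 4 = 36 * (P.B ^ 16 / P.B ^ 46)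
      by ring]
  have n3 : 2 / (P.B : ℝ) ^ 61 * 4 ≤ 1 / (P.B : ℝ) ^ 4 := by
    have := num hB (c := 8) (by norm_num) (show 4 < 61 by norm_num)
    rw [le_div_iff₀ (by positivity)]
    linarith [show 2 / (P.B : ℝ) ^ 61 * 4 * P.B ^ 4 = 8 * (P.B ^ 4 / P.B ^ 61) by ring]
  have n0 : 0 < 1 / (P.B : ℝ) ^ 4 := by positivity
  have n4 : 1 / (P.B : ℝ) ^ 4 ≤ 1 := by
    rw [div_le_one (by positivity)]; exact one_le_pow₀ (by linarith)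
  have n5 : P.eps ^ 2 * ∑ f ∈ s.al, τ f ^ 2 ≤ 1 / (P.B : ℝ) ^ 4 / 36 := by
    have := mul_le_mul_of_nonneg_left (hτ.l2.trans
      (pow_le_pow_right₀ (by linarith) (show 11 ≤ 12 by norm_num))) (sq_nonneg P.eps)
    linarith
  have n6 : ∀ c : E → ℝ, (∀ f ∈ s.al, c f ≤ 1) →
      P.bb * P.eps ^ 2 * ∑ f ∈ s.al, τ f ^ 2 * c f ≤ 1 / (P.B : ℝ) ^ 4 / 72 := fun c hc => by
    have h1 : ∑ f ∈ s.al, τ f ^ 2 * c f ≤ ∑ f ∈ s.al, τ f ^ 2 :=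
      sum_le_sum fun f hf => mul_le_of_le_one_right (sq_nonneg _) (hc f hf)
    have h2 := mul_le_mul_of_nonneg_left h1 (mul_nonneg hβ0 (sq_nonneg P.eps))
    have h3 := mul_le_mul_of_nonneg_right hβ (mul_nonneg (sq_nonneg P.eps)
      (sum_nonneg fun f (_ : f ∈ s.al) => sq_nonneg (τ f)))
    linarith
  obtain ⟨hpd, hk⟩ := key hv.pd s.al P.G.b (P.eta s τ) τ (ε := P.eps) hβ0 (by
      have h1 : ∑ f ∈ s.al, |P.eps * P.eta s τ f - P.bb * P.eps ^ 2 * τ f ^ 2| * P.Gm s f f ≤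
          P.eps * ∑ f ∈ s.al, |P.eta s τ f| + P.bb * P.eps ^ 2 * ∑ f ∈ s.al, τ f ^ 2 * 1 := by
        simp only [mul_sum, ← sum_add_distrib]
        refine sum_le_sum fun f hf => (mul_le_of_le_one_right (abs_nonneg _) (hG f hf)).trans
          ((abs_sub _ _).trans_eq ?_)
        rw [abs_mul, abs_of_pos hε, mul_one,
          abs_of_nonneg (mul_nonneg (mul_nonneg hβ0 (sq_nonneg _)) (sq_nonneg _))]
      have h2 := mul_le_mul_of_nonneg_left hη hε.le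
      have h3 := n6 (fun _ => 1) fun _ _ => le_rfl
      exact h1.trans (by linarith))
    (by have := n6 _ hG; simp only [Gm] at this; linarith) (h.Pm_symm s') fun z => by
      rw [qf_Pm, qf_Pm, sub_sub, sub_le_sub_iff_left, ← sum_ite_mem_eq s.al, ← sum_add_distrib]
      refine sum_le_sum fun e _ => ?_
      by_cases hea : e ∈ s.al
      · obtain ⟨h1, h2, h3⟩ := ht e hea
        have := h.ell_mono (by positivity) h3 h2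
        rw [ell_add] at this
        rw [if_pos hea, MG.b_dot, ← add_mul]
        refine mul_le_mul_of_nonneg_right ?_ (sq_nonneg _)
        simp only [cc, hal, hea, if_true, eta]
        linarith
      · simp [cc, hal, hea, hy e hea]
  have hsl : ∀ e ∈ s.al, 0 < P.sl s' e ∧ 1 / P.sl s' e ≤ 1 / P.sl s e -
      (3 / 4 * P.bb * P.eps ^ 2 * ∑ f ∈ s.al, τ f ^ 2 * P.Gm s e f ^ 2) / (2 * P.sl s e ^ 2) +
      2 * (4 * P.eps ^ 2 * MM (P.Pm s) s.al P.G.b (P.eta s τ) (P.G.b e) + P.r0 * err e) /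
        P.sl s e ^ 2 := fun e hea => by
    have h1 := hv.sl_ge h hΦ hea
    have h2 := n6 _ (hG2 e hea)
    have h3 : MM (P.Pm s) s.al P.G.b (P.eta s τ) (P.G.b e) ≤ (3 / 2 * (P.B : ℝ) ^ 6) ^ 2 := by
      refine le_trans ?_ (pow_le_pow_left₀ (sum_nonneg fun _ _ => abs_nonneg _) hη 2)
      rw [sq, sum_mul_sum]
      refine sum_le_sum fun f hf => sum_le_sum fun g hg => (le_abs_self _).trans ?_
      change |_ * _ * P.Gm s e f * P.Gm s f g * P.Gm s e g| ≤ _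
      simp only [abs_mul]
      exact (mul_le_of_le_one_right (by positivity) (hG1 e hea g hg)).trans
        ((mul_le_of_le_one_right (by positivity) (hG1 f hf g hg)).trans
          (mul_le_of_le_one_right (by positivity) (hG1 e hea f hf)))
    have h4 := mul_le_mul_of_nonneg_left h3 (sq_nonneg P.eps)
    have h5 : P.r0 * err e ≤ 2 / (P.B : ℝ) ^ 61 := (mul_le_of_le_one_left (h0 e) hr).trans
      ((single_le_sum (fun f _ => h0 f) hea).trans hs)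
    have h6 := MM_nonneg hv.pd s.al P.G.b (P.eta s τ) (P.G.b e)
    have h7 := h0 e
    refine scalar (hv.sl e hea) (by positivity) (by linarith) (by positivity) (by linarith) ?_
    have h8 := hk (P.G.b e)
    have h9 := mul_le_mul_of_nonneg_left (he e hea) hr0.le
    have h10 : P.r0 * (τ e - P.hv s τ e) = ∑ f ∈ s.al, P.eta s τ f * P.Gm s e f ^ 2 := by
      rw [KP.hv, sub_sub_cancel, mul_div_cancel₀ _ hr0.ne']
      exact sum_congr rfl fun f _ => mul_comm _ _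
    simp only [sl, Gm] at h10 ⊢
    rw [← h10] at h8
    linarith
  refine ⟨hpd, fun e hea => (hsl e hea).1, ?_⟩
  obtain ⟨K, hK⟩ : ∃ K : E → E → ℝ, ∀ f g,
    ((P.Pm s)⁻¹ *ᵥ P.G.b f) ⬝ᵥ ((P.Pm s)⁻¹ *ᵥ P.G.b g) = K f g := ⟨_, fun _ _ => rfl⟩
  have e1 : ∑ v, MM (P.Pm s) s.al P.G.b (P.eta s τ) (Pi.single v 1) =
      ∑ f ∈ s.al, ∑ g ∈ s.al, P.eta s τ f * (P.Gm s f g * K f g) * P.eta s τ g := by
    simp only [MM, ← hK, ← sum_single ((P.Pm s)⁻¹ *ᵥ _), mul_sum, sum_mul, Gm]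
    rw [sum_comm]
    refine sum_congr rfl fun f _ => ?_
    rw [sum_comm]
    exact sum_congr rfl fun g _ => sum_congr rfl fun v _ => by ring
  have e2 : ∀ c : E → ℝ, ∑ v, ∑ f ∈ s.al, c f * (Pi.single v 1 ⬝ᵥ (P.Pm s)⁻¹ *ᵥ P.G.b f) ^ 2 =
      ∑ f ∈ s.al, c f * K f f := fun c => by
    rw [sum_comm]
    simp only [← mul_sum, sq, sum_single, hK]
  have t1 := sum_le_sum fun v (_ : v ∈ univ) => hk (Pi.single v 1)
  simp only [sum_add_distrib, sum_sub_distrib, ← mul_sum, ← trace_eq_sum_qf, e1, e2] at t1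
  have t2 : 0 ≤ P.eps ^ 2 *
      ∑ f ∈ s.al, ∑ g ∈ s.al, P.eta s τ f * (P.Gm s f g * K f g) * P.eta s τ g :=
    mul_nonneg (sq_nonneg _) (e1 ▸ sum_nonneg fun v _ => MM_nonneg hv.pd _ _ _ _)
  have t3 : 0 ≤ P.bb * P.eps ^ 2 * ∑ f ∈ s.al, τ f ^ 2 * K f f :=
    mul_nonneg (by positivity) (e2 _ ▸ sum_nonneg fun v _ => sum_nonneg fun f _ => by positivity)
  have t4 := sum_le_sum fun e hea => (hsl e hea).2
  have e3 : ∑ e ∈ s.al, (1 / P.sl s e -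
      (3 / 4 * P.bb * P.eps ^ 2 * ∑ f ∈ s.al, τ f ^ 2 * P.Gm s e f ^ 2) / (2 * P.sl s e ^ 2) +
      2 * (4 * P.eps ^ 2 * MM (P.Pm s) s.al P.G.b (P.eta s τ) (P.G.b e) + P.r0 * err e) /
        P.sl s e ^ 2) = ∑ e ∈ s.al, 1 / P.sl s e - 3 / 8 * P.bb * P.eps ^ 2 *
          ∑ f ∈ s.al, (∑ e ∈ s.al, P.Gm s e f * P.Gm s e f / P.sl s e ^ 2) * τ f ^ 2 +
        8 * P.eps ^ 2 * ∑ f ∈ s.al, ∑ g ∈ s.al, P.eta s τ f * (P.Gm s f g *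
          ∑ e ∈ s.al, P.Gm s e f * P.Gm s e g / P.sl s e ^ 2) * P.eta s τ g +
        2 * ∑ e ∈ s.al, P.r0 * err e / P.sl s e ^ 2 := by
    simp only [mul_sum, sum_mul]
    rw [sum_comm (s := s.al) (t := s.al), sum_congr rfl fun f _ => sum_comm (s := s.al) (t := s.al)
      (f := fun g e => 8 * P.eps ^ 2 * (P.eta s τ f * (P.Gm s f g *
        (P.Gm s e f * P.Gm s e g / P.sl s e ^ 2)) * P.eta s τ g)), sum_comm (s := s.al) (t := s.al)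
      (f := fun f e => ∑ g ∈ s.al, 8 * P.eps ^ 2 * (P.eta s τ f * (P.Gm s f g *
        (P.Gm s e f * P.Gm s e g / P.sl s e ^ 2)) * P.eta s τ g))]
    simp only [← sum_add_distrib, ← sum_sub_distrib]
    refine sum_congr rfl fun e _ => ?_
    simp only [MM, mul_add, add_div, mul_sum, sum_div, Gm, add_assoc]
    congr 2
    · exact sum_congr rfl fun f _ => by ring
    · exact sum_congr rfl fun f _ => sum_congr rfl fun g _ => by ring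
    · ring
  have t5 : ∑ e ∈ s.al, P.r0 * err e / P.sl s e ^ 2 ≤ 2 / (P.B : ℝ) ^ 53 := by
    calc _ ≤ ∑ e ∈ s.al, (P.B : ℝ) ^ 8 * err e := sum_le_sum fun e hea => by
          have h1 := hv.sl_ge h hΦ hea
          have h2 := h0 e
          calc _ ≤ 1 * err e / (1 / (P.B : ℝ) ^ 4) ^ 2 := by gcongr
            _ = _ := by field_simp
      _ ≤ (P.B : ℝ) ^ 8 * (2 / (P.B : ℝ) ^ 61) := by rw [← mul_sum]; gcongr
      _ = _ := by field_simp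
  rw [e3] at t4
  simp only [Phi, hal, lin, quad, Km, hK, mul_add, add_mul, sum_add_distrib, mul_comm (K _ _) (_ ^ 2)]
  linarith [show 4 / (P.B : ℝ) ^ 53 = 2 * (2 / (P.B : ℝ) ^ 53) by ring]

end KP
end Crest.Agent.R37
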