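import Crest.Agent.R37.PC

set_option autoImplicit false
open Finset Matrix Crest.CombinatoricsR.Multigraph
open scoped Classical

noncomputable section
namespace Crest.Agent.R37
namespace MG
variable {V E : Type} [Fintype V] [DecidableEq V] [Fintype E] [DecidableEq E] {G : MG V E} {K : ℕ} {y : E → ℕ}

theorem tight_aux_mod (y : E → ℕ) (A B : Finset E) :
    ∑ e ∈ (A ∪ B)ᶜ, y e + ∑ e ∈ (A ∩ B)ᶜ, y e = ∑ e ∈ Aᶜ, y e + ∑ e ∈ Bᶜ, y e := by
  rw [compl_union, compl_inter, add_comm, sum_union_inter]

theorem tight_aux_both (h : G.PC K y) {A B : Finset E} (hA : G.Tight K y A)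
    (hB : G.Tight K y B) : G.Tight K y (A ∪ B) ∧ G.Tight K y (A ∩ B) := by
  have h1 := Nat.mul_le_mul_left K (G.ncomp_supermod A B)
  have h2 := tight_aux_mod y A B
  have h3 := h (A ∪ B)
  have h4 := h (A ∩ B)
  rw [mul_add, mul_add] at h1
  unfold Tight at hA hB ⊢
  omega

theorem Tight.union (h : G.PC K y) {A B : Finset E} (hA : G.Tight K y A) (hB : G.Tight K y B) :
    G.Tight K y (A ∪ B) := (tight_aux_both h hA hB).1

theorem Tight.inter (h : G.PC K y) {A B : Finset E} (hA : G.Tight K y A) (hB : G.Tight K y B) :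
    G.Tight K y (A ∩ B) := (tight_aux_both h hA hB).2

theorem tight_univ [Nonempty V] (h : G.PC K y) : G.Tight K y univ := by
  have h1 := h univ
  have h2 := Nat.mul_le_mul_left K (G.ncomp_pos univ)
  unfold Tight
  simp only [compl_univ, sum_empty, zero_add, mul_one] at h1 h2 ⊢
  omega

theorem same_refl (e : Option E) : G.Same K y e e := fun _ _ => Iff.rfl

theorem Same.symm {e f : Option E} (h : G.Same K y e f) : G.Same K y f e :=
  fun A hA => (h A hA).symm

theorem Same.trans {e f g : Option E} (h : G.Same K y e f) (h' : G.Same K y f g) :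
    G.Same K y e g := fun A hA => (h A hA).trans (h' A hA)

theorem tight_aux_ite (A : Finset E) (e : Option E) (c : ℕ) :
    ∑ g ∈ Aᶜ, (if e = some g then c else 0) = if memO A e then 0 else c := by
  cases e with
  | none => simp [memO]
  | some e => simp [memO]

theorem tight_aux_exch {e f : Option E} {c : ℕ} (hc : ∀ g, f = some g → c ≤ y g) (A : Finset E) :
    ∑ g ∈ Aᶜ, exch y e f c g + (if memO A f then 0 else c)
      = ∑ g ∈ Aᶜ, y g + (if memO A e then 0 else c) := by
  rw [← tight_aux_ite, ← tight_aux_ite, ← sum_add_distrib, ← sum_add_distrib]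
  refine sum_congr rfl fun g _ => ?_
  unfold exch
  by_cases h1 : f = some g
  · have := hc g h1
    simp only [if_pos h1]
    omega
  · simp only [if_neg h1]
    omega

/-- An exchange is feasible iff every set containing `e` but not `f` has slack at least `c`. -/
theorem pc_exch_iff (h : G.PC K y) {e f : Option E} (hef : e ≠ f) {c : ℕ}
    (hc : ∀ g, f = some g → c ≤ y g) :
    G.PC K (exch y e f c) ↔
      ∀ A, memO A e → ¬ memO A f → K * G.ncomp A + c ≤ ∑ g ∈ Aᶜ, y g + K := by
  constructor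
  · intro h1 A hA hA'
    have h2 := h1 A
    have h3 := tight_aux_exch (e := e) hc A
    rw [if_pos hA, if_neg hA'] at h3
    omega
  · intro h1 A
    have h2 := h A
    have h3 := tight_aux_exch (e := e) hc A
    have h4 := h1 A
    split_ifs at h3 with h5 h6 h6
    · omega
    · omega
    · have := h4 h6 h5
      omega
    · omega

/-- The oracle for `Same`. -/
theorem same_iff (h : G.PC K y) {e f : Option E} (he : ∀ g, e = some g → 1 ≤ y g)
    (hf : ∀ g, f = some g → 1 ≤ y g) :
    G.Same K y e f ↔ e = f ∨ (G.PC K (exch y e f 1) ∧ G.PC K (exch y f e 1)) := by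
  by_cases hef : e = f
  · subst hef
    exact ⟨fun _ => Or.inl rfl, fun _ => same_refl e⟩
  rw [or_iff_right hef, pc_exch_iff h hef hf, pc_exch_iff h (Ne.symm hef) he]
  constructor
  · intro hs
    refine ⟨fun A hA hA' => ?_, fun A hA hA' => ?_⟩
    · have h1 : ¬ G.Tight K y A := fun ht => hA' ((hs A ht).1 hA)
      have h2 := h A
      unfold Tight at h1
      omega
    · have h1 : ¬ G.Tight K y A := fun ht => hA' ((hs A ht).2 hA)
      have h2 := h A
      unfold Tight at h1
      omega
  · rintro ⟨h1, h2⟩ A hA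
    unfold Tight at hA
    constructor
    · intro h3
      by_contra h4
      have := h1 A h3 h4
      omega
    · intro h3
      by_contra h4
      have := h2 A h3 h4
      omega

/-- A fractional edge is in the class of `none` or has a fractional partner. -/
theorem class_partner {k N : ℕ} (h : G.PC (k * N) y) {al : Finset E}
    (hal : ∀ e ∈ al, 0 < y e ∧ y e < N) (hd : ∀ e, e ∉ al → y e = 0 ∨ y e = N) {e : E}
    (he : e ∈ al) (hs : ¬ G.Same (k * N) y (some e) none) :
    ∃ f ∈ al, f ≠ e ∧ G.Same (k * N) y (some e) (some f) := by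
  have : Nonempty V := ⟨G.src e⟩
  have hne : (univ.filter fun A : Finset E => G.Tight (k * N) y A ∧ e ∉ A).Nonempty := by
    by_contra h0
    refine hs fun A hA => ⟨fun _ => trivial, fun _ => ?_⟩
    by_contra h1
    exact h0 ⟨A, mem_filter.2 ⟨mem_univ _, hA, h1⟩⟩
  obtain ⟨A, hA, hAmax⟩ := exists_max_image _ card hne
  obtain ⟨hA1, hA2⟩ := (mem_filter.1 hA).2
  have hAsub : ∀ A', G.Tight (k * N) y A' → e ∉ A' → A' ⊆ A := by
    intro A' h1 h2
    have h3 := hAmax (A ∪ A') (mem_filter.2 ⟨mem_univ _, hA1.union h h1, by simp [hA2, h2]⟩)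
    exact union_eq_left.1 (eq_of_subset_of_card_le subset_union_left h3).symm
  have hne' : (univ.filter fun B : Finset E => G.Tight (k * N) y B ∧ insert e A ⊆ B).Nonempty :=
    ⟨univ, mem_filter.2 ⟨mem_univ _, tight_univ h, subset_univ _⟩⟩
  obtain ⟨B, hB, hBmin⟩ := exists_min_image _ card hne'
  obtain ⟨hB1, hB2⟩ := (mem_filter.1 hB).2
  have hBsub : ∀ B', G.Tight (k * N) y B' → insert e A ⊆ B' → B ⊆ B' := by
    intro B' h1 h2
    have h3 := hBmin (B ∩ B') (mem_filter.2 ⟨mem_univ _, hB1.inter h h1, subset_inter hB2 h2⟩)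
    exact inter_eq_left.1 (eq_of_subset_of_card_le inter_subset_left h3)
  have hAB : A ⊆ B := (subset_insert e A).trans hB2
  have heB : e ∈ B \ A := mem_sdiff.2 ⟨hB2 (mem_insert_self e A), hA2⟩
  have hsum : ∑ g ∈ Aᶜ, y g = ∑ g ∈ Bᶜ, y g + ∑ g ∈ B \ A, y g := by
    rw [← sum_union]
    · congr 1
      ext g
      have := @hAB g
      simp only [mem_compl, mem_union, mem_sdiff]
      tauto
    · rw [disjoint_left]
      intro g h1 h2
      exact mem_compl.1 h1 (mem_sdiff.1 h2).1
  have hdvd : N ∣ ∑ g ∈ B \ A, y g := by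
    unfold Tight at hA1 hB1
    have h1 : k * N * G.ncomp A = k * N * G.ncomp B + ∑ g ∈ B \ A, y g := by omega
    have h2 : N ∣ k * N * G.ncomp A := Dvd.dvd.mul_right (Dvd.intro_left k rfl) _
    rw [h1] at h2
    exact (Nat.dvd_add_right (Dvd.dvd.mul_right (Dvd.intro_left k rfl) _)).1 h2
  have hex : ∃ f ∈ (B \ A).erase e, f ∈ al := by
    by_contra h0
    have h1 : N ∣ ∑ g ∈ (B \ A).erase e, y g := by
      refine dvd_sum fun g hg => ?_
      rcases hd g (fun h' => h0 ⟨g, hg, h'⟩) with h2 | h2 <;> simp [h2]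
    rw [← add_sum_erase _ _ heB] at hdvd
    have h2 := Nat.le_of_dvd (hal e he).1 ((Nat.dvd_add_left h1).1 hdvd)
    have := (hal e he).2
    omega
  obtain ⟨f, hf, hfal⟩ := hex
  obtain ⟨hfe, hf'⟩ := mem_erase.1 hf
  obtain ⟨hfB, hfA⟩ := mem_sdiff.1 hf'
  refine ⟨f, hfal, hfe, fun A' hA' => ⟨fun h1 => ?_, fun h1 => ?_⟩⟩
  · have h2 := hBsub (A' ∪ A) (hA'.union h hA1)
      (insert_subset (mem_union_left _ h1) subset_union_right) hfB
    exact (mem_union.1 h2).resolve_right hfA
  · by_contra h2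
    exact hfA (hAsub A' hA' h2 h1)

/-- An exchange inside a class keeps all tight sets tight. -/
theorem Tight.exch {e f : Option E} (hef : e ≠ f) (hs : G.Same K y e f) {c : ℕ}
    (hc : ∀ g, f = some g → c ≤ y g) {A : Finset E} (hA : G.Tight K y A) :
    G.Tight K (exch y e f c) A := by
  have h1 := tight_aux_exch (e := e) hc A
  rw [if_congr (hs A hA) rfl rfl] at h1
  unfold Tight at hA ⊢
  omega

/-- A maximal exchange separates the pair. -/
theorem not_same_exch (h : G.PC K y) {e : Option E} {f : E} (hef : e ≠ some f) {c : ℕ}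
    (hc : c < y f) (h₁ : G.PC K (exch y e (some f) c))
    (h₂ : ¬ G.PC K (exch y e (some f) (c + 1))) :
    ¬ G.Same K (exch y e (some f) c) e (some f) := by
  have hc1 : ∀ g, some f = some g → c ≤ y g := fun g hg => by
    rw [← Option.some.inj hg]; exact hc.le
  have hc2 : ∀ g, some f = some g → c + 1 ≤ y g := fun g hg => by
    rw [← Option.some.inj hg]; exact hc
  rw [pc_exch_iff h hef hc2] at h₂
  rw [pc_exch_iff h hef hc1] at h₁
  intro hs
  refine h₂ fun A hA hA' => ?_
  by_contra h3
  have h4 := h₁ A hA hA'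
  have h5 := tight_aux_exch (e := e) hc1 A
  rw [if_pos hA, if_neg hA'] at h5
  refine hA' ((hs A ?_).1 hA)
  unfold Tight
  omega

/-- Small moves that keep the class sums are feasible when all exchange capacities are large. -/
theorem pc_move (h : G.PC K y) {al : Finset E} {z : ℕ}
    (hex : ∀ e : Option E, memO al e → ∀ f ∈ al, e ≠ some f → G.Same K y e (some f) →
      z ≤ y f ∧ G.PC K (exch y e (some f) z))
    {y' : E → ℕ} (hoff : ∀ e, e ∉ al → y' e = y e)
    (hsm : ∑ e, |(y' e : ℤ) - y e| ≤ z)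
    (hcl : ∀ e ∈ al, ¬ G.Same K y (some e) none →
      ∑ f ∈ al.filter (fun f => G.Same K y (some e) (some f)), y' f =
        ∑ f ∈ al.filter (fun f => G.Same K y (some e) (some f)), y f) :
    G.PC K y' ∧ ∀ A, G.Tight K y A → G.Tight K y' A := by
  have key : ∀ A : Finset E,
      (¬ ∃ e : Option E, memO al e ∧ memO A e ∧ ∃ f ∈ al, f ∉ A ∧ G.Same K y e (some f)) →
      ∑ g ∈ Aᶜ, y' g = ∑ g ∈ Aᶜ, y g := by
    intro A hA
    rw [← sum_filter_add_sum_filter_not Aᶜ (· ∈ al), ← sum_filter_add_sum_filter_not Aᶜ (· ∈ al) y]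
    congr 1
    swap
    · exact sum_congr rfl fun g hg => hoff g (mem_filter.1 hg).2
    set T := Aᶜ.filter (· ∈ al) with hT
    let cl : E → Finset E := fun e => al.filter fun f => G.Same K y (some e) (some f)
    have hfib : ∀ e ∈ T, T.filter (fun f => cl f = cl e) = cl e := by
      intro e he
      obtain ⟨he1, he2⟩ := mem_filter.1 he
      ext f
      constructor
      · intro hf
        obtain ⟨hf1, hf2⟩ := mem_filter.1 hf
        rw [← hf2]
        exact mem_filter.2 ⟨(mem_filter.1 hf1).2, same_refl _⟩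
      · intro hf
        obtain ⟨hf1, hf2⟩ := mem_filter.1 hf
        refine mem_filter.2 ⟨mem_filter.2 ⟨mem_compl.2 fun hfA => ?_, hf1⟩, ?_⟩
        · exact hA ⟨some f, hf1, hfA, e, he2, mem_compl.1 he1, hf2.symm⟩
        · exact filter_congr fun g _ => ⟨fun hg => hf2.trans hg, fun hg => hf2.symm.trans hg⟩
    have hmap : ∀ f ∈ T, cl f ∈ T.image cl := fun f hf => mem_image_of_mem cl hf
    rw [← sum_fiberwise_of_maps_to hmap y', ← sum_fiberwise_of_maps_to hmap y]
    refine sum_congr rfl fun C hC => ?_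
    obtain ⟨e, he, rfl⟩ := mem_image.1 hC
    rw [hfib e he]
    obtain ⟨he1, he2⟩ := mem_filter.1 he
    exact hcl e he2 fun hs => hA ⟨none, trivial, trivial, e, he2, mem_compl.1 he1, hs.symm⟩
  constructor
  · intro A
    by_cases hA : ∃ e : Option E, memO al e ∧ memO A e ∧ ∃ f ∈ al, f ∉ A ∧ G.Same K y e (some f)
    · obtain ⟨e, he1, he2, f, hf1, hf2, hs⟩ := hA
      have hne : e ≠ some f := by
        rintro rfl
        exact hf2 he2
      obtain ⟨h1, h2⟩ := hex e he1 f hf1 hne hs
      have h3 := (pc_exch_iff h hne (fun g hg => by rw [← Option.some.inj hg]; exact h1)).1 h2 A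
        he2 hf2
      have h4 : ∑ g ∈ Aᶜ, ((y g : ℤ) - y' g) ≤ z := by
        refine le_trans (sum_le_sum fun g _ => ?_)
          ((sum_le_sum_of_subset_of_nonneg (subset_univ Aᶜ) fun g _ _ => abs_nonneg _).trans hsm)
        rw [abs_sub_comm]
        exact le_abs_self _
      rw [sum_sub_distrib, ← Nat.cast_sum, ← Nat.cast_sum] at h4
      omega
    · rw [key A hA]
      exact h A
  · intro A hA
    unfold Tight
    rw [key A]
    · exact hA
    · rintro ⟨e, -, he2, f, -, hf2, hs⟩
      exact hf2 ((hs A hA).1 he2)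

/-- More tight sets, fewer related pairs. -/
theorem Same.of_tight {y' : E → ℕ} (h : ∀ A, G.Tight K y A → G.Tight K y' A) {e f : Option E}
    (hs : G.Same K y' e f) : G.Same K y e f := fun A hA => hs A (h A hA)

end MG
end Crest.Agent.R37
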