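import Crest.Agent.R37.Resolv
import Crest.Agent.R37.Tight

set_option autoImplicit false
open Finset Matrix Crest.CombinatoricsR.Multigraph
open scoped Classical

noncomputable section
namespace Crest.Agent.R37
namespace KP
variable {V E : Type} [Fintype V] [DecidableEq V] [Fintype E] [DecidableEq E] {P : KP V E} {s : KS E}

theorem Pre.four_p_le (_h : P.Pre) : 4 * P.p ≤ P.B := by
  unfold B
  nlinarith [Nat.zero_le (P.p * (Fintype.card V + Fintype.card E + P.Z))]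

theorem Pre.B_ge (h : P.Pre) : 3200 ≤ P.B := by
  have := h.four_p_le
  have := h.p
  omega

theorem Pre.card_le (h : P.Pre) :
    2 * (Fintype.card V + Fintype.card E + P.Z + 2) ≤ P.B :=
  Nat.mul_le_mul_right _ (by have := h.p; omega)

namespace KSBasicAux

theorem p_ge (h : P.Pre) : (800 : ℝ) ≤ P.p := by exact_mod_cast h.p

theorem p_pos (h : P.Pre) : (0 : ℝ) < P.p := by linarith [p_ge h]

theorem bb_mem (h : P.Pre) : 0 < P.bb ∧ P.bb ≤ 1 / 2 := by
  have := p_ge h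
  refine ⟨by unfold bb; positivity, ?_⟩
  rw [bb, div_le_iff₀ (p_pos h)]
  linarith

theorem r0_mem (h : P.Pre) : 0 < P.r0 ∧ P.r0 ≤ 1 := by
  have := p_ge h
  refine ⟨by unfold r0; positivity, ?_⟩
  rw [r0, div_le_iff₀ (p_pos h)]
  linarith

theorem N_pos (h : P.Pre) : 0 < P.N := pow_pos (by have := h.B_ge; omega) _

theorem N_posR (h : P.Pre) : (0 : ℝ) < P.N := by exact_mod_cast N_pos h

theorem B_posR (h : P.Pre) : (0 : ℝ) < P.B := by
  exact_mod_cast (by have := h.B_ge; omega : 0 < P.B)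

omit [DecidableEq V] [DecidableEq E] in
theorem exists_N (P : KP V E) : ∃ M : ℕ, P.N = 2 * P.p * M :=
  (Dvd.intro _ rfl : 2 * P.p ∣ P.B).trans (dvd_pow_self _ (by norm_num))

theorem t0_mem (h : P.Pre) : (0 : ℝ) ≤ 1 / 2 + 2 / P.p ∧ (1 / 2 + 2 / P.p : ℝ) ≤ 1 := by
  have := p_ge h
  refine ⟨by positivity, ?_⟩
  have : (2 / P.p : ℝ) ≤ 1 / 2 := by rw [div_le_iff₀ (p_pos h)]; linarith
  linarith

theorem qf_U (P : KP V E) (z : V → ℝ) : z ⬝ᵥ P.U *ᵥ z = P.r0 * (z ⬝ᵥ P.Q *ᵥ z) +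
    ∑ e, (if e ∈ P.F then ell P.bb (1 / 2 + 2 / P.p) else 0) * P.G.dz z e ^ 2 := by
  rw [U, add_mulVec, dotProduct_add, smul_mulVec, dotProduct_smul, smul_eq_mul, MG.qf_lap]

omit [DecidableEq V] in
theorem dot_nonneg (z : V → ℝ) : 0 ≤ z ⬝ᵥ z := sum_nonneg fun _ _ => mul_self_nonneg _

end KSBasicAux

open KSBasicAux

theorem Pre.ell_mem (h : P.Pre) {t : ℝ} (h0 : 0 ≤ t) (h1 : t ≤ 1) :
    t ≤ ell P.bb t ∧ ell P.bb t ≤ 1 ∧ 1 / 2 ≤ ell' P.bb t ∧ ell' P.bb t ≤ 3 / 2 := by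
  obtain ⟨b0, b1⟩ := bb_mem h
  have a1 : 0 ≤ P.bb * t := by positivity
  have a2 : P.bb * t ≤ P.bb := mul_le_of_le_one_right b0.le h1
  unfold ell ell'
  refine ⟨?_, ?_, ?_, ?_⟩
  · nlinarith [mul_nonneg a1 (sub_nonneg.2 h1)]
  · nlinarith [mul_nonneg (sub_nonneg.2 h1) (by linarith : 0 ≤ 1 - P.bb * t)]
  · linarith
  · linarith

theorem Pre.ell_mono (h : P.Pre) {t t' : ℝ} (h0 : 0 ≤ t) (htt : t ≤ t') (h1 : t' ≤ 1) :
    ell P.bb t ≤ ell P.bb t' := by
  obtain ⟨b0, b1⟩ := bb_mem h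
  have a1 : P.bb * t ≤ P.bb := mul_le_of_le_one_right b0.le (htt.trans h1)
  have a2 : P.bb * t' ≤ P.bb := mul_le_of_le_one_right b0.le h1
  unfold ell
  nlinarith [mul_nonneg (sub_nonneg.2 htt) (by linarith : 0 ≤ 1 + P.bb - P.bb * t - P.bb * t')]

theorem ell_add (b t a : ℝ) : ell b (t + a) = ell b t + ell' b t * a - b * a ^ 2 := by
  unfold ell ell'
  ring

theorem Pre.Pm_symm (h : P.Pre) (s : KS E) : (P.Pm s).IsSymm :=
  ((h.q.symm.smul _).add (P.G.lap_symm _)).sub (P.G.lap_symm _)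

theorem qf_Pm (s : KS E) (z : V → ℝ) :
    z ⬝ᵥ P.Pm s *ᵥ z = z ⬝ᵥ P.U *ᵥ z - ∑ e, P.cc s e * P.G.dz z e ^ 2 := by
  rw [Pm, sub_mulVec, dotProduct_sub, MG.qf_lap]

theorem Valid.Gm_symm (hv : P.Valid s) (e f : E) : P.Gm s e f = P.Gm s f e :=
  qf_symm hv.pd _ _

theorem Valid.Gm_nonneg (hv : P.Valid s) (e : E) : 0 ≤ P.Gm s e e := qf_inv_nonneg hv.pd _

theorem Valid.Gm_sq_le (hv : P.Valid s) (e f : E) :
    P.Gm s e f ^ 2 ≤ P.Gm s e e * P.Gm s f f := qf_inv_cs hv.pd _ _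

theorem Valid.y_lt (h : P.Pre) (hv : P.Valid s) {e : E} (he : e ∈ s.al) : s.y e < s.t e := by
  have h1 := hv.sl e he
  have h2 := hv.Gm_nonneg e
  have h3 : 0 < P.r0 * ((s.t e : ℝ) / P.N - s.y e / P.N) := by
    unfold KP.sl at h1
    linarith
  have h4 := sub_pos.1 ((mul_pos_iff_of_pos_left (r0_mem h).1).1 h3)
  exact_mod_cast (div_lt_div_iff_of_pos_right (N_posR h)).1 h4

theorem Valid.y_le (h : P.Pre) (hv : P.Valid s) (e : E) : s.y e ≤ P.N := by
  by_cases he : e ∈ s.al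
  · exact (hv.y_lt h he).le.trans (hv.tle e)
  · rcases hv.dead e he with h1 | h1 <;> omega

theorem Valid.Gm_le (h : P.Pre) (hv : P.Valid s) {e : E} (he : e ∈ s.al) :
    P.Gm s e e ≤ P.r0 := by
  have h1 := hv.sl e he
  have h2 : (s.t e : ℝ) / P.N ≤ 1 := (div_le_one (N_posR h)).2 (by exact_mod_cast hv.tle e)
  have h3 : (0 : ℝ) ≤ s.y e / P.N := by positivity
  have h4 : P.r0 * ((s.t e : ℝ) / P.N - s.y e / P.N) ≤ P.r0 :=
    mul_le_of_le_one_right (r0_mem h).1.le (by linarith)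
  unfold KP.sl at h1
  linarith

theorem Valid.trace_nonneg (hv : P.Valid s) : 0 ≤ (P.Pm s)⁻¹.trace := by
  rw [trace_eq_sum_qf]
  exact sum_nonneg fun _ _ => qf_inv_nonneg hv.pd _

theorem Valid.Phi_nonneg (hv : P.Valid s) : 0 ≤ P.Phi s :=
  add_nonneg (sum_nonneg fun e he => one_div_nonneg.2 (hv.sl e he).le) hv.trace_nonneg

theorem Valid.trace_le (hv : P.Valid s) : (P.Pm s)⁻¹.trace ≤ P.Phi s :=
  le_add_of_nonneg_left (sum_nonneg fun e he => one_div_nonneg.2 (hv.sl e he).le)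

theorem Valid.sl_ge (h : P.Pre) (hv : P.Valid s) (hΦ : P.Phi s ≤ (P.B : ℝ) ^ 4) {e : E}
    (he : e ∈ s.al) : 1 / (P.B : ℝ) ^ 4 ≤ P.sl s e := by
  have h1 : 1 / P.sl s e ≤ ∑ e ∈ s.al, 1 / P.sl s e :=
    single_le_sum (f := fun e => 1 / P.sl s e) (fun e he => one_div_nonneg.2 (hv.sl e he).le) he
  have h2 := hv.trace_nonneg
  have h3 : 1 / P.sl s e ≤ (P.B : ℝ) ^ 4 := by
    unfold Phi at hΦ
    linarith
  exact (one_div_le (pow_pos (B_posR h) 4) (hv.sl e he)).2 h3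

theorem Valid.qf_le (h : P.Pre) (hv : P.Valid s) (z : V → ℝ) :
    z ⬝ᵥ P.Pm s *ᵥ z ≤ P.B * (z ⬝ᵥ z) := by
  have h0 := dot_nonneg z
  have h1 : 0 ≤ ∑ e, P.cc s e * P.G.dz z e ^ 2 := by
    refine sum_nonneg fun e _ => mul_nonneg ?_ (sq_nonneg _)
    unfold cc
    split_ifs
    · have a1 : (0 : ℝ) ≤ s.t e / P.N := by positivity
      exact a1.trans (h.ell_mem a1 ((div_le_one (N_posR h)).2 (by exact_mod_cast hv.tle e))).1
    · positivity
  have h2 : ∑ e, (if e ∈ P.F then ell P.bb (1 / 2 + 2 / P.p) else 0) * P.G.dz z e ^ 2 ≤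
      ∑ _e : E, 2 * (z ⬝ᵥ z) := by
    refine sum_le_sum fun e _ => le_trans ?_ (P.G.dz_sq_le z e)
    refine mul_le_of_le_one_left (sq_nonneg _) ?_
    split_ifs
    · exact (h.ell_mem (t0_mem h).1 (t0_mem h).2).2.1
    · exact zero_le_one
  rw [sum_const, card_univ, nsmul_eq_mul] at h2
  have h3 : P.r0 * (z ⬝ᵥ P.Q *ᵥ z) ≤ P.Z * (z ⬝ᵥ z) :=
    (mul_le_mul_of_nonneg_left (h.q.upper z) (r0_mem h).1.le).trans
      (mul_le_of_le_one_left (by positivity) (r0_mem h).2)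
  have h4 : (2 * Fintype.card E + P.Z : ℝ) ≤ P.B := by
    exact_mod_cast (by have := h.card_le; omega : 2 * Fintype.card E + P.Z ≤ P.B)
  have h5 := mul_le_mul_of_nonneg_right h4 h0
  rw [qf_Pm, qf_U]
  linarith

theorem Valid.Km_bounds (h : P.Pre) (hv : P.Valid s) (hΦ : P.Phi s ≤ (P.B : ℝ) ^ 4) {f : E}
    (hf : f ∈ s.al) : 2 / (P.B : ℝ) ^ 2 ≤ P.Km s f f ∧ P.Km s f f ≤ (P.B : ℝ) ^ 9 := by
  have hB := B_posR h
  constructor
  · have h1 := le_sq_inv hv.pd (hv.qf_le h) (P.G.b f)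
    rw [MG.b_dot_self] at h1
    refine le_add_of_nonneg_of_le (sum_nonneg fun e _ =>
      div_nonneg (mul_self_nonneg _) (sq_nonneg _)) ?_
    rw [div_le_iff₀' (by positivity)]
    exact h1
  · have h1 := sq_inv_le_trace hv.pd (P.G.b f)
    rw [MG.b_dot_self] at h1
    have h2 : (P.Pm s)⁻¹.trace ^ 2 ≤ ((P.B : ℝ) ^ 4) ^ 2 :=
      pow_le_pow_left₀ hv.trace_nonneg (hv.trace_le.trans hΦ) 2
    have h3 : ∑ e ∈ s.al, P.Gm s e f * P.Gm s e f / P.sl s e ^ 2 ≤
        ∑ _e ∈ s.al, ((P.B : ℝ) ^ 4) ^ 2 := by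
      refine sum_le_sum fun e he => ?_
      have a1 : P.Gm s e f * P.Gm s e f ≤ 1 := by
        rw [← sq]
        exact (hv.Gm_sq_le e f).trans (mul_le_one₀ ((hv.Gm_le h he).trans (r0_mem h).2)
          (hv.Gm_nonneg f) ((hv.Gm_le h hf).trans (r0_mem h).2))
      have a2 : 1 / P.sl s e ≤ (P.B : ℝ) ^ 4 :=
        (one_div_le (pow_pos hB 4) (hv.sl e he)).1 (hv.sl_ge h hΦ he)
      calc _ ≤ 1 / P.sl s e ^ 2 := by gcongr
        _ = (1 / P.sl s e) ^ 2 := by rw [div_pow, one_pow]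
        _ ≤ _ := pow_le_pow_left₀ (one_div_nonneg.2 (hv.sl e he).le) a2 2
    rw [sum_const, nsmul_eq_mul] at h3
    have h4 : (#s.al + 2 : ℝ) ≤ P.B := by
      have := h.card_le
      have := card_le_univ s.al
      exact_mod_cast (by omega : #s.al + 2 ≤ P.B)
    have h5 := mul_le_mul_of_nonneg_right h4 (by positivity : 0 ≤ ((P.B : ℝ) ^ 4) ^ 2)
    unfold Km
    nlinarith

theorem meas_le (s : KS E) : P.meas s ≤ (Fintype.card E + 1) ^ 3 := by
  have h1 := card_le_univ s.al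
  have h2 := card_le_univ
    ((univ : Finset (Option E × Option E)).filter fun q => P.G.Same P.KK s.y q.1 q.2)
  rw [Fintype.card_prod, Fintype.card_option] at h2
  calc P.meas s ≤ Fintype.card E * (Fintype.card E + 1) ^ 2 +
        (Fintype.card E + 1) * (Fintype.card E + 1) := add_le_add (by gcongr) h2
    _ = _ := by ring

theorem KSBasicAux.partner' (h : P.Pre) (hv : P.Valid s) {e : E} (he : e ∈ s.al)
    (hs : ¬ P.G.Same P.KK s.y (some e) none) :
    ∃ f ∈ s.al, f ≠ e ∧ P.G.Same P.KK s.y (some e) (some f) :=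
  MG.class_partner hv.pc (fun e he => ⟨hv.ypos e he, (hv.y_lt h he).trans_le (hv.tle e)⟩) hv.dead
    he hs

/-- Every alive edge has a partner in its class (possibly `none`). -/
theorem Valid.partner (h : P.Pre) (hv : P.Valid s) {f : E} (hf : f ∈ s.al) :
    ∃ e : Option E, memO s.al e ∧ e ≠ some f ∧ P.G.Same P.KK s.y e (some f) := by
  by_cases hs : P.G.Same P.KK s.y (some f) none
  · exact ⟨none, trivial, by simp, hs.symm⟩
  · obtain ⟨e, he, hne, hs'⟩ := partner' h hv hf hs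
    exact ⟨some e, he, by simpa using hne, hs'.symm⟩

theorem Reps.card_le (h : P.Pre) (hv : P.Valid s) {R : Finset E} (hR : P.Reps s R) :
    2 * #R ≤ #s.al := by
  have h1 : ∀ r : E, ∃ f, r ∈ R → f ∈ s.al ∧ f ≠ r ∧ P.G.Same P.KK s.y (some r) (some f) := by
    intro r
    by_cases hr : r ∈ R
    · obtain ⟨f, hf⟩ := partner' h hv (hR.mem r hr).1 (hR.mem r hr).2
      exact ⟨f, fun _ => hf⟩
    · exact ⟨r, fun h => absurd h hr⟩
  choose f hf using h1
  have h2 : #(R.image f) = #R := by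
    refine card_image_of_injOn fun r hr r' hr' e => hR.uniq r hr r' hr' ?_
    exact (hf r hr).2.2.trans (e ▸ (hf r' hr').2.2.symm)
  have h3 : Disjoint R (R.image f) := by
    refine disjoint_left.2 fun r hr hr' => ?_
    obtain ⟨r', h4, rfl⟩ := mem_image.1 hr'
    exact (hf r' h4).2.1 (hR.uniq _ h4 _ hr (hf r' h4).2.2).symm
  have h4 : R ∪ R.image f ⊆ s.al := by
    refine union_subset (fun r hr => (hR.mem r hr).1) fun r hr => ?_
    obtain ⟨r', h4, rfl⟩ := mem_image.1 hr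
    exact (hf r' h4).1
  have h5 := card_le_card h4
  rw [card_union_of_disjoint h3, h2] at h5
  omega

theorem exists_reps (s : KS E) : ∃ R, P.Reps s R := by
  obtain ⟨R, hR, hmax⟩ := exists_max_image ((univ : Finset (Finset E)).filter fun R =>
    (∀ r ∈ R, r ∈ s.al ∧ ¬ P.G.Same P.KK s.y (some r) none) ∧
      ∀ r ∈ R, ∀ r' ∈ R, P.G.Same P.KK s.y (some r) (some r') → r = r') card ⟨∅, by simp⟩
  obtain ⟨h1, h2⟩ := (mem_filter.1 hR).2
  refine ⟨R, h1, fun e he hs => ?_, h2⟩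
  by_contra hc
  have h3 : ∀ r ∈ R, ¬ P.G.Same P.KK s.y (some r) (some e) := fun r hr h => hc ⟨r, hr, h⟩
  have h4 : e ∉ R := fun h => h3 e h (MG.same_refl _)
  have h5 := hmax (insert e R) (mem_filter.2 ⟨mem_univ _, fun r hr => ?_, fun r hr r' hr' h => ?_⟩)
  · rw [card_insert_of_notMem h4] at h5
    omega
  · rcases mem_insert.1 hr with rfl | hr
    exacts [⟨he, hs⟩, h1 r hr]
  · rcases mem_insert.1 hr with e1 | hr <;> rcases mem_insert.1 hr' with e2 | hr'
    exacts [e1.trans e2.symm, absurd (e1 ▸ h.symm) (h3 _ hr'), absurd (e2 ▸ h) (h3 _ hr),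
      h2 r hr r' hr' h]

theorem Pre.init_valid (h : P.Pre) : P.Valid P.init ∧ P.Phi P.init ≤ (P.B : ℝ) ^ 2 / 4 := by
  obtain ⟨M, hM⟩ := exists_N P
  have hp := p_pos h
  have hp' := h.p
  have hN := N_pos h
  have hM0 : 0 < M := Nat.pos_of_ne_zero fun h0 => by simp [h0] at hM; omega
  have hM1 : (0 : ℝ) < M := by exact_mod_cast hM0
  have e1 : P.N / 2 = P.p * M := by rw [hM, mul_assoc, Nat.mul_div_cancel_left _ two_pos]
  have e2 : 2 * P.N / P.p = 4 * M := by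
    rw [hM, show 2 * (2 * P.p * M) = P.p * (4 * M) by ring, Nat.mul_div_cancel_left _ (by omega)]
  have e3 : ∀ e ∈ P.F, (P.init.y e : ℝ) / P.N = 1 / 2 := by
    intro e he
    simp only [init, if_pos he, e1]
    rw [hM]
    push_cast
    field_simp
  have e4 : ∀ e ∈ P.F, (P.init.t e : ℝ) / P.N = 1 / 2 + 2 / P.p := by
    intro e he
    simp only [init, if_pos he, e1, e2]
    rw [hM]
    push_cast
    field_simp
    ring
  have e5 : P.Pm P.init = P.r0 • P.Q := by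
    have : P.cc P.init = fun e => if e ∈ P.F then ell P.bb (1 / 2 + 2 / P.p) else 0 := by
      funext e
      by_cases he : e ∈ P.F
      · rw [cc, if_pos (show e ∈ P.init.al from he), if_pos he, e4 e he]
      · rw [cc, if_neg (show e ∉ P.init.al from he), if_neg he]
        simp [init, he]
    rw [Pm, this, U, add_sub_cancel_right]
  have e6 : ∀ z, z ⬝ᵥ P.Q *ᵥ z = P.p * (z ⬝ᵥ P.Pm P.init *ᵥ z) := by
    intro z
    rw [e5, smul_mulVec, dotProduct_smul, smul_eq_mul, r0]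
    field_simp
  have hpd : (P.Pm P.init).PosDef := by
    refine posDef_of_qf (h.Pm_symm _) fun z hz => ?_
    have a1 : 0 < z ⬝ᵥ z := (dot_nonneg z).lt_of_ne' fun h0 => hz (dotProduct_self_eq_zero.1 h0)
    have a2 := a1.trans_le (h.q.lower z)
    rw [e6, ← mul_assoc] at a2
    exact lt_of_not_ge fun a3 => a2.not_ge (mul_nonpos_of_nonneg_of_nonpos (by positivity) a3)
  have hsl : ∀ e ∈ P.F, 1 / (P.p : ℝ) ^ 2 ≤ P.sl P.init e := by
    intro e he
    have a1 : P.Gm P.init e e ≤ 1 / (P.p : ℝ) ^ 2 := by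
      refine qf_inv_le hpd (by positivity) fun z => ?_
      have a2 := h.q.res e he z
      rw [e6] at a2
      push_cast at a2
      rw [MG.b_dot, one_div_mul_eq_div, le_div_iff₀ (by positivity)]
      exact le_of_mul_le_mul_left (by linarith) hp
    have a2 : P.r0 * (1 / 2 + 2 / P.p - 1 / 2) = 2 * (1 / (P.p : ℝ) ^ 2) := by
      rw [r0]
      field_simp
      ring
    rw [KP.sl, e3 e he, e4 e he, a2]
    linarith
  refine ⟨⟨hpd, fun e he => lt_of_lt_of_le (by positivity) (hsl e he), fun e he => ?_, fun e => ?_,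
    fun e he => Or.inl (if_neg he), fun e he => if_neg he, ?_⟩, ?_⟩
  · rw [show P.init.y e = P.N / 2 from if_pos he, e1]
    positivity
  · simp only [init, e1, e2]
    split_ifs
    · rw [hM]
      nlinarith
    · exact Nat.zero_le _
  · have a1 := (P.G.pc_smul (N := P.p * M) (by positivity)).2 h.pc
    rw [show 2 * P.k * (P.p * M) = P.KK by rw [KK, hM]; ring] at a1
    convert a1 using 2 with e
    simp only [init, ind, e1]
    split_ifs <;> simp
  · have a1 : ∑ e ∈ P.init.al, 1 / P.sl P.init e ≤ ∑ _e ∈ P.init.al, (P.p : ℝ) ^ 2 :=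
      sum_le_sum fun e he => (one_div_le (by positivity)
        (lt_of_lt_of_le (by positivity) (hsl e he))).1 (hsl e he)
    have a2 : (P.Pm P.init)⁻¹.trace ≤ ∑ _v : V, (P.Z * P.p : ℝ) := by
      rw [trace_eq_sum_qf]
      refine sum_le_sum fun v _ => qf_inv_le hpd (by positivity) fun z => ?_
      have b1 := h.q.lower z
      rw [e6, ← mul_assoc] at b1
      refine le_trans ?_ b1
      rw [single_dotProduct, one_mul, sq]
      exact single_le_sum (f := fun i => z i * z i) (fun _ _ => mul_self_nonneg _) (mem_univ v)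
    rw [sum_const, nsmul_eq_mul] at a1 a2
    rw [card_univ] at a2
    have a3 : (#P.init.al : ℝ) ≤ Fintype.card E := by exact_mod_cast card_le_univ _
    have a4 : (P.p : ℝ) ≤ (P.p : ℝ) ^ 2 := by nlinarith [p_ge h]
    have a5 : (Fintype.card E + Fintype.card V * P.Z : ℝ) ≤
        (Fintype.card V + Fintype.card E + P.Z + 2) ^ 2 := by
      have : Fintype.card E + Fintype.card V * P.Z ≤
        (Fintype.card V + Fintype.card E + P.Z + 2) ^ 2 := by nlinarith
      exact_mod_cast this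
    calc P.Phi P.init ≤ #P.init.al * (P.p : ℝ) ^ 2 + Fintype.card V * (P.Z * P.p) :=
          add_le_add a1 a2
      _ ≤ Fintype.card E * (P.p : ℝ) ^ 2 + Fintype.card V * (P.Z * (P.p : ℝ) ^ 2) := by gcongr
      _ = (Fintype.card E + Fintype.card V * P.Z) * (P.p : ℝ) ^ 2 := by ring
      _ ≤ (Fintype.card V + Fintype.card E + P.Z + 2) ^ 2 * (P.p : ℝ) ^ 2 := by gcongr
      _ = (P.B : ℝ) ^ 2 / 4 := by
        rw [B]
        push_cast
        ring

/-- The result when no edge is alive. -/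
theorem Valid.out (h : P.Pre) (hv : P.Valid s) (hal : s.al = ∅) :
    P.out s ⊆ P.F ∧ P.G.PC P.k (ind (P.out s)) ∧
      ∀ S : Finset V, S.Nonempty → S ≠ univ →
        (#(P.out s ∩ P.G.cut S) : ℝ) ≤ (1 / 2 + 103 / P.p) * #(P.G.cut S) := by
  have hN := N_pos h
  have hd : ∀ e, s.y e = 0 ∨ s.y e = P.N := fun e => hv.dead e (by simp [hal])
  have hy : ∀ e, s.y e = P.N * ind (P.out s) e := by
    intro e
    rcases hd e with h1 | h1
    · simp [ind, KP.out, h1, hN.ne]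
    · simp [ind, KP.out, h1]
  refine ⟨fun e he => ?_, ?_, fun S hS hS' => ?_⟩
  · by_contra hc
    have := hv.supp e hc
    have := (mem_filter.1 he).2
    omega
  · refine (P.G.pc_smul hN).1 ?_
    rw [← funext hy]
    exact hv.pc
  · have h1 : 0 ≤ indR S ⬝ᵥ P.Pm s *ᵥ indR S := by
      simpa using hv.pd.posSemidef.dotProduct_mulVec_nonneg (indR S)
    have h2 : ∑ e, P.cc s e * P.G.dz (indR S) e ^ 2 = #(P.out s ∩ P.G.cut S) := by
      rw [← MG.sum_ind, Nat.cast_sum, ← Finset.sum_ite_mem_eq (P.G.cut S)]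
      refine sum_congr rfl fun e _ => ?_
      rw [MG.dz_indR_sq, cc, if_neg (by simp [hal]), hy, Nat.cast_mul,
        mul_div_cancel_left₀ _ (N_posR h).ne', mul_ite, mul_one, mul_zero]
    have h3 : ell P.bb (1 / 2 + 2 / P.p) ≤ 1 / 2 + 102 / P.p := by
      have a1 : P.bb = 4 * (100 / P.p) := by rw [bb]; ring
      have a2 : (102 / P.p : ℝ) = 2 / P.p + 100 / P.p := by ring
      have a3 : (0 : ℝ) ≤ 100 / P.p := by positivity
      rw [ell, a1, a2]
      nlinarith [mul_nonneg a3 (sq_nonneg (2 / (P.p : ℝ)))]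
    have h4 : ∑ e, (if e ∈ P.F then ell P.bb (1 / 2 + 2 / P.p) else 0) * P.G.dz (indR S) e ^ 2 ≤
        ∑ _e ∈ P.G.cut S, (1 / 2 + 102 / P.p : ℝ) := by
      rw [← Finset.sum_ite_mem_eq (P.G.cut S)]
      refine sum_le_sum fun e _ => ?_
      rw [MG.dz_indR_sq, mul_ite, mul_one, mul_zero]
      split_ifs
      exacts [h3, by positivity, le_rfl]
    rw [sum_const, nsmul_eq_mul] at h4
    have h5 := mul_le_mul_of_nonneg_left (h.q.cut S hS hS') (r0_mem h).1.le
    rw [qf_Pm, qf_U, h2] at h1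
    have h6 : (1 / 2 + 103 / P.p : ℝ) = 1 / 2 + 102 / P.p + P.r0 := by rw [r0]; ring
    rw [h6]
    linarith

end KP
end Crest.Agent.R37
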