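import Crest.Agent.R37.Defs

set_option autoImplicit false
open Finset Matrix Crest.CombinatoricsR.Multigraph
open scoped Classical

noncomputable section
namespace Crest.Agent.R37
variable {E : Type} [Fintype E] [DecidableEq E]

/-- The regularised projection. -/
def projM (al : Finset E) (D : E → ℝ) (C : Matrix E E ℝ) (lam : ℝ) : Matrix E E ℝ :=
  1 - (diagonal fun f => if f ∈ al then (D f)⁻¹ else 0) * Cᵀ *
    (C * (diagonal fun f => if f ∈ al then (D f)⁻¹ else 0) * Cᵀ + lam • (1 : Matrix E E ℝ))⁻¹ * C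

variable {al : Finset E} {D : E → ℝ} {C : Matrix E E ℝ} {lam : ℝ}

namespace ProjAux

/-- the diagonal weights -/
def dl (al : Finset E) (D : E → ℝ) : E → ℝ := fun f => if f ∈ al then (D f)⁻¹ else 0

/-- the Gram matrix -/
def Mm (al : Finset E) (D : E → ℝ) (C : Matrix E E ℝ) : Matrix E E ℝ :=
  C * diagonal (dl al D) * Cᵀ

/-- the resolvent -/
def Wm (al : Finset E) (D : E → ℝ) (C : Matrix E E ℝ) (lam : ℝ) : Matrix E E ℝ :=
  (Mm al D C + lam • (1 : Matrix E E ℝ))⁻¹

theorem proj_eq : projM al D C lam = 1 - diagonal (dl al D) * Cᵀ * Wm al D C lam * C := rfl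

theorem dl_nonneg (hD : ∀ f ∈ al, 0 < D f) (f : E) : 0 ≤ dl al D f := by
  unfold dl
  split_ifs with h
  · exact (inv_pos.2 (hD f h)).le
  · exact le_rfl

theorem posDef (hD : ∀ f ∈ al, 0 < D f) (hlam : 0 < lam) :
    (Mm al D C + lam • (1 : Matrix E E ℝ)).PosDef := by
  have h1 : (diagonal (dl al D)).PosSemidef := PosSemidef.diagonal (dl_nonneg hD)
  have h2 := h1.mul_mul_conjTranspose_same C
  rw [conjTranspose_eq_transpose_of_trivial] at h2
  exact PosDef.posSemidef_add h2 (PosDef.one.smul hlam)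

theorem W_symm (hD : ∀ f ∈ al, 0 < D f) (hlam : 0 < lam) :
    (Wm al D C lam)ᵀ = Wm al D C lam := by
  have := (posDef (C := C) hD hlam).inv.isHermitian.eq
  rwa [conjTranspose_eq_transpose_of_trivial] at this

theorem W_diag (hD : ∀ f ∈ al, 0 < D f) (hlam : 0 < lam) (r : E) : 0 ≤ Wm al D C lam r r :=
  (posDef (C := C) hD hlam).inv.posSemidef.diag_nonneg

theorem M_W (hD : ∀ f ∈ al, 0 < D f) (hlam : 0 < lam) :
    Mm al D C * Wm al D C lam = 1 - lam • Wm al D C lam := by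
  have h := mul_nonsing_inv _ ((isUnit_iff_isUnit_det _).1 (posDef (C := C) hD hlam).isUnit)
  rw [add_mul, smul_mul_assoc, one_mul] at h
  exact eq_sub_of_add_eq h

theorem W_M (hD : ∀ f ∈ al, 0 < D f) (hlam : 0 < lam) :
    Wm al D C lam * Mm al D C = 1 - lam • Wm al D C lam := by
  have h := nonsing_inv_mul _ ((isUnit_iff_isUnit_det _).1 (posDef (C := C) hD hlam).isUnit)
  rw [mul_add, mul_smul_comm, mul_one] at h
  exact eq_sub_of_add_eq h

theorem C_proj (hD : ∀ f ∈ al, 0 < D f) (hlam : 0 < lam) :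
    C * projM al D C lam = lam • (Wm al D C lam * C) := by
  have h : C * (diagonal (dl al D) * Cᵀ * Wm al D C lam * C) = Mm al D C * Wm al D C lam * C := by
    simp only [Mm, Matrix.mul_assoc]
  rw [proj_eq, mul_sub, mul_one, h, M_W hD hlam, sub_mul, one_mul, smul_mul_assoc, sub_sub_cancel]

theorem proj_apply (f e : E) : projM al D C lam f e =
    (if f = e then 1 else 0) - dl al D f * ∑ r, C r f * (Wm al D C lam * C) r e := by
  rw [proj_eq, Matrix.sub_apply, Matrix.one_apply, Matrix.mul_assoc, Matrix.mul_assoc,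
    diagonal_mul, Matrix.mul_apply]
  simp only [transpose_apply]

theorem decomp (hD : ∀ f ∈ al, 0 < D f) (hlam : 0 < lam) :
    diagonal (dl al D) = (projM al D C lam)ᵀᵀ * diagonal (dl al D) * (projM al D C lam)ᵀ +
      (Cᵀ * (Wm al D C lam * C * diagonal (dl al D)))ᵀ * diagonal (dl al D) *
        (Cᵀ * (Wm al D C lam * C * diagonal (dl al D))) +
      (Wm al D C lam * C * diagonal (dl al D))ᵀ * diagonal (fun _ => 2 * lam) *
        (Wm al D C lam * C * diagonal (dl al D)) := by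
  have hW := W_symm (C := C) hD hlam
  have hMW := M_W (C := C) hD hlam
  have h2 : (diagonal (fun _ => 2 * lam) : Matrix E E ℝ) = (2 * lam) • (1 : Matrix E E ℝ) := by
    rw [smul_one_eq_diagonal]
  rw [proj_eq, h2]
  set W := Wm al D C lam
  set Δ := diagonal (dl al D) with hΔ
  have hΔt : Δᵀ = Δ := diagonal_transpose _
  have key : ∀ Z : Matrix E E ℝ, C * (Δ * (Cᵀ * (W * Z))) = Z - lam • (W * Z) := by
    intro Z
    have : C * (Δ * (Cᵀ * (W * Z))) = Mm al D C * W * Z := by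
      simp only [Mm, Matrix.mul_assoc, hΔ]
    rw [this, hMW, sub_mul, one_mul, smul_mul_assoc]
  simp only [transpose_transpose, transpose_sub, transpose_one, transpose_mul, hW, hΔt,
    Matrix.mul_assoc, sub_mul, mul_sub, one_mul, mul_one, key, smul_mul_assoc, mul_smul_comm]
  module

theorem pair (Γ : E → E → ℝ) (Z : Matrix E E ℝ) (a : E → ℝ) :
    ∑ f ∈ al, ∑ g ∈ al, Γ f g * (Zᵀ * diagonal a * Z) f g =
      ∑ r, a r * ∑ f ∈ al, ∑ g ∈ al, Z r f * Γ f g * Z r g := by
  simp only [Matrix.mul_apply (M := Zᵀ * diagonal a), mul_diagonal, transpose_apply, Finset.mul_sum]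
  rw [Finset.sum_comm (s := univ)]
  refine Finset.sum_congr rfl fun f _ => ?_
  rw [Finset.sum_comm (s := univ)]
  refine Finset.sum_congr rfl fun g _ => Finset.sum_congr rfl fun r _ => ?_
  ring

theorem part_a (hD : ∀ f ∈ al, 0 < D f) (hlam : 0 < lam) {Γ : E → E → ℝ}
    (hΓ : ∀ z : E → ℝ, 0 ≤ ∑ f ∈ al, ∑ g ∈ al, z f * Γ f g * z g)
    {γ : ℝ} (hγ : ∀ f ∈ al, Γ f f ≤ γ * D f) :
    ∑ e ∈ al, (D e)⁻¹ * ∑ f ∈ al, ∑ g ∈ al, projM al D C lam f e * Γ f g * projM al D C lam g e ≤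
      γ * #al := by
  have h1 : ∑ f ∈ al, ∑ g ∈ al, Γ f g * diagonal (dl al D) f g ≤ γ * #al := by
    rw [mul_comm, ← nsmul_eq_mul]
    refine Finset.sum_le_card_nsmul _ _ _ fun f hf => ?_
    rw [Finset.sum_eq_single f]
    · rw [diagonal_apply_eq, dl, if_pos hf, mul_inv_le_iff₀ (hD f hf)]
      exact hγ f hf
    · intro g _ hg
      rw [diagonal_apply_ne _ hg.symm, mul_zero]
    · intro h
      exact absurd hf h
  rw [decomp (C := C) hD hlam] at h1
  simp only [Matrix.add_apply, mul_add, Finset.sum_add_distrib, pair] at h1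
  have h2 : 0 ≤ ∑ r, dl al D r * ∑ f ∈ al, ∑ g ∈ al,
      (Cᵀ * (Wm al D C lam * C * diagonal (dl al D))) r f * Γ f g *
        (Cᵀ * (Wm al D C lam * C * diagonal (dl al D))) r g :=
    Finset.sum_nonneg fun r _ => mul_nonneg (dl_nonneg hD r) (hΓ _)
  have h3 : 0 ≤ ∑ r, 2 * lam * ∑ f ∈ al, ∑ g ∈ al,
      (Wm al D C lam * C * diagonal (dl al D)) r f * Γ f g *
        (Wm al D C lam * C * diagonal (dl al D)) r g :=
    Finset.sum_nonneg fun r _ => mul_nonneg (by positivity) (hΓ _)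
  refine le_trans (le_of_eq ?_) (le_trans (by linarith) h1 :
    ∑ r, dl al D r * ∑ f ∈ al, ∑ g ∈ al,
      (projM al D C lam)ᵀ r f * Γ f g * (projM al D C lam)ᵀ r g ≤ _)
  simp only [dl, ite_mul, zero_mul, transpose_apply]
  rw [← Finset.sum_filter]
  simp

theorem part_b (hD : ∀ f ∈ al, 0 < D f) (hlam : 0 < lam) {R : Finset E}
    (hC : ∀ r, r ∉ R → ∀ f, C r f = 0) : (#al : ℝ) - #R ≤ ∑ e ∈ al, projM al D C lam e e := by
  have h1 : ∑ e ∈ al, projM al D C lam e e =
      #al - (diagonal (dl al D) * Cᵀ * Wm al D C lam * C).trace := by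
    simp only [proj_eq, Matrix.sub_apply, Matrix.one_apply_eq, Finset.sum_sub_distrib,
      Finset.sum_const, nsmul_eq_mul, mul_one, Matrix.trace, Matrix.diag_apply]
    congr 1
    refine Finset.sum_subset (Finset.subset_univ _) fun e _ he => ?_
    rw [Matrix.mul_assoc, Matrix.mul_assoc, diagonal_mul, dl, if_neg he, zero_mul]
  have h2 : (diagonal (dl al D) * Cᵀ * Wm al D C lam * C).trace =
      (Wm al D C lam * Mm al D C).trace := by
    rw [Matrix.mul_assoc, trace_mul_comm]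
    simp only [Mm, Matrix.mul_assoc]
  rw [h1, h2]
  have h3 : (Wm al D C lam * Mm al D C).trace = ∑ r ∈ R, (Wm al D C lam * Mm al D C) r r := by
    refine (Finset.sum_subset (Finset.subset_univ _) fun r _ hr => ?_).symm
    rw [Mm, ← Matrix.mul_assoc, Matrix.diag_apply, Matrix.mul_apply]
    simp [hC r hr]
  have h4 : ∑ r ∈ R, (Wm al D C lam * Mm al D C) r r ≤ #R • (1 : ℝ) := by
    refine Finset.sum_le_card_nsmul _ _ _ fun r _ => ?_
    rw [W_M hD hlam, Matrix.sub_apply, Matrix.one_apply_eq, Matrix.smul_apply, smul_eq_mul]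
    have := mul_nonneg hlam.le (W_diag (C := C) hD hlam r)
    linarith
  rw [nsmul_eq_mul, mul_one] at h4
  linarith

end ProjAux

theorem projM_supp {e f : E} (he : e ∈ al) (hf : f ∉ al) : projM al D C lam f e = 0 := by
  have hne : f ≠ e := fun h => hf (h ▸ he)
  rw [ProjAux.proj_apply, if_neg hne, ProjAux.dl, if_neg hf, zero_mul, sub_zero]

/-- The columns are short and almost in the kernel of `C`. -/
theorem projM_col (hD : ∀ f ∈ al, 0 < D f) (hlam : 0 < lam) {e : E} (he : e ∈ al) :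
    ∑ f ∈ al, D f * projM al D C lam f e ^ 2 ≤ D e ∧
      ∑ r, (C *ᵥ fun f => projM al D C lam f e) r ^ 2 ≤ lam * D e / 2 := by
  set w : E → ℝ := fun r => (ProjAux.Wm al D C lam * C) r e with hw
  set τ : E → ℝ := fun f => projM al D C lam f e with hτ
  have hC : ∀ r, (C *ᵥ τ) r = lam * w r := by
    intro r
    have := congrFun (congrFun (ProjAux.C_proj (C := C) hD hlam) r) e
    rw [Matrix.mul_apply, Matrix.smul_apply, smul_eq_mul] at this
    exact this
  have h1 : ∑ f ∈ al, τ f * ∑ r, C r f * w r = lam * ∑ r, w r ^ 2 := by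
    rw [Finset.sum_subset (Finset.subset_univ al) fun f _ hf => by
      rw [show τ f = 0 from projM_supp he hf, zero_mul]]
    simp only [Finset.mul_sum]
    rw [Finset.sum_comm]
    refine Finset.sum_congr rfl fun r _ => ?_
    have := hC r
    simp only [mulVec, dotProduct] at this
    rw [sq, ← mul_assoc, ← this, Finset.sum_mul]
    refine Finset.sum_congr rfl fun f _ => by ring
  have h2 : ∑ f ∈ al, (D f * τ f ^ 2 + 2 * (τ f * ∑ r, C r f * w r)) ≤
      ∑ f ∈ al, D f * (if f = e then 1 else 0) := by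
    refine Finset.sum_le_sum fun f hf => ?_
    have h3 : τ f = (if f = e then 1 else 0) - (D f)⁻¹ * ∑ r, C r f * w r := by
      rw [hτ]
      simp only
      rw [ProjAux.proj_apply, ProjAux.dl, if_pos hf]
    have hDf := hD f hf
    generalize ∑ r, C r f * w r = u at h3 ⊢
    have h4 : D f * (if f = e then 1 else 0) = D f * (τ f + (D f)⁻¹ * u) ^ 2 := by
      rw [h3, sub_add_cancel]
      split_ifs <;> simp
    have h5 : D f * (τ f + (D f)⁻¹ * u) ^ 2 = D f * τ f ^ 2 + 2 * (τ f * u) + (D f)⁻¹ * u ^ 2 := by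
      field_simp
      ring
    rw [h4, h5]
    have : 0 ≤ (D f)⁻¹ * u ^ 2 := by positivity
    linarith
  rw [Finset.sum_add_distrib, ← Finset.mul_sum, h1] at h2
  simp only [mul_ite, mul_one, mul_zero, Finset.sum_ite_eq', if_pos he] at h2
  have h6 : 0 ≤ ∑ r, w r ^ 2 := Finset.sum_nonneg fun r _ => sq_nonneg _
  have h7 : 0 ≤ ∑ f ∈ al, D f * τ f ^ 2 :=
    Finset.sum_nonneg fun f hf => mul_nonneg (hD f hf).le (sq_nonneg _)
  have h8 := mul_nonneg hlam.le h6
  refine ⟨by linarith, ?_⟩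
  simp only [hC, mul_pow, ← Finset.mul_sum]
  nlinarith

/-- Some column is a direction of negative curvature. -/
theorem projM_exists (hD : ∀ f ∈ al, 0 < D f) (hlam : 0 < lam) {R : Finset E}
    (hC : ∀ r, r ∉ R → ∀ f, C r f = 0) (hR : 2 * #R ≤ #al) (hal : al.Nonempty) {Γ : E → E → ℝ}
    (hs : ∀ f g, Γ f g = Γ g f) (hΓ : ∀ z : E → ℝ, 0 ≤ ∑ f ∈ al, ∑ g ∈ al, z f * Γ f g * z g)
    {γ β : ℝ} (hγ : ∀ f ∈ al, Γ f f ≤ γ * D f) (hβ : 0 ≤ β) :
    ∃ e ∈ al, 8 * ∑ f ∈ al, ∑ g ∈ al, projM al D C lam f e * Γ f g * projM al D C lam g e -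
      β * ∑ f ∈ al, D f * projM al D C lam f e ^ 2 ≤ (8 * γ - β / 4) * D e := by
  have ha := ProjAux.part_a (C := C) hD hlam hΓ hγ
  have hb := ProjAux.part_b hD hlam hC
  have hR' : 2 * (#R : ℝ) ≤ #al := by exact_mod_cast hR
  have hpos : (0 : ℝ) < #al := by exact_mod_cast hal.card_pos
  have hcs := sq_sum_le_card_mul_sum_sq (s := al) (f := fun e => projM al D C lam e e)
  have hc : (#al : ℝ) / 4 ≤ ∑ e ∈ al, projM al D C lam e e ^ 2 := by
    refine le_of_mul_le_mul_left (le_trans ?_ hcs) hpos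
    nlinarith
  have hd : ∑ e ∈ al, projM al D C lam e e ^ 2 ≤
      ∑ e ∈ al, (D e)⁻¹ * ∑ f ∈ al, D f * projM al D C lam f e ^ 2 := by
    refine Finset.sum_le_sum fun e he => ?_
    rw [le_inv_mul_iff₀ (hD e he)]
    exact Finset.single_le_sum (f := fun f => D f * projM al D C lam f e ^ 2)
      (fun f hf => mul_nonneg (hD f hf).le (sq_nonneg _)) he
  have hsum : ∑ e ∈ al, (D e)⁻¹ * (8 * ∑ f ∈ al, ∑ g ∈ al,
      projM al D C lam f e * Γ f g * projM al D C lam g e -
      β * ∑ f ∈ al, D f * projM al D C lam f e ^ 2) ≤ ∑ e ∈ al, (8 * γ - β / 4) := by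
    simp only [mul_sub, mul_left_comm _ (8 : ℝ), mul_left_comm _ β, Finset.sum_sub_distrib,
      ← Finset.mul_sum, Finset.sum_const, nsmul_eq_mul]
    have := mul_le_mul_of_nonneg_left (hc.trans hd) hβ
    nlinarith
  obtain ⟨e, he, h⟩ := Finset.exists_le_of_sum_le hal hsum
  refine ⟨e, he, ?_⟩
  rwa [inv_mul_le_iff₀ (hD e he), mul_comm (D e)] at h

end Crest.Agent.R37
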