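import Crest.Agent.R37.KSBasic
import Crest.Agent.R37.Proj

set_option autoImplicit false
open Finset Matrix Crest.CombinatoricsR.Multigraph
open scoped Classical

noncomputable section
namespace Crest.Agent.R37
namespace KP
variable {V E : Type} [Fintype V] [DecidableEq V] [Fintype E] [DecidableEq E] {P : KP V E} {s : KS E} {R : Finset E}

/-- What is known about a candidate direction. -/
structure Dir (P : KP V E) (s : KS E) (R : Finset E) (τ : E → ℝ) : Prop where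
  supp : ∀ f, f ∉ s.al → τ f = 0
  l1 : ∑ f ∈ s.al, |τ f| ≤ (P.B : ℝ) ^ 6
  l2 : ∑ f ∈ s.al, τ f ^ 2 ≤ (P.B : ℝ) ^ 11
  hl1 : ∑ f ∈ s.al, |P.hv s τ f| ≤ (P.B : ℝ) ^ 7
  cls : ∑ r ∈ R, |∑ f ∈ P.cls s r, P.hv s τ f| ≤ 1 / (P.B : ℝ) ^ 38

theorem Pj_eq (s : KS E) (R : Finset E) :
    P.Pj s R = projM s.al (fun f => P.Km s f f) (P.Cm s R) P.lam := rfl

theorem KSDir_hv_eq_sum (s : KS E) (τ : E → ℝ) (e : E) :
    P.hv s τ e = ∑ f, P.hv s (Pi.single f 1) e * τ f := by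
  unfold hv eta
  simp only [sub_mul, sum_sub_distrib]
  congr 1
  · simp [Pi.single_apply]
  · simp only [div_mul_eq_mul_div, ← sum_div, sum_mul]
    rw [sum_comm]
    congr 1
    refine sum_congr rfl fun g _ => ?_
    simp [Pi.single_apply, mul_assoc]

theorem Cm_mulVec (s : KS E) (R : Finset E) (τ : E → ℝ) (r : E) :
    (P.Cm s R *ᵥ τ) r = if r ∈ R then ∑ e ∈ P.cls s r, P.hv s τ e else 0 := by
  unfold Cm
  simp only [mulVec, dotProduct, of_apply]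
  split_ifs with hr
  · simp only [sum_mul]
    rw [sum_comm]
    exact sum_congr rfl fun e _ => (KSDir_hv_eq_sum s τ e).symm
  · simp

theorem KSDir_B (h : P.Pre) : (3200 : ℝ) ≤ P.B := by exact_mod_cast h.B_ge

theorem KSDir_card (h : P.Pre) (A : Finset E) : 2 * (#A : ℝ) + 4 ≤ P.B := by
  have h1 := h.card_le
  have h2 : #A ≤ Fintype.card E := card_le_univ A
  have h3 : 2 * #A + 4 ≤ P.B := by omega
  exact_mod_cast h3

theorem KSDir_N (P : KP V E) : (P.N : ℝ) = (P.B : ℝ) ^ 63 := by simp [N]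

theorem KSDir_N_pos (h : P.Pre) : (0 : ℝ) < P.N := by
  have := KSDir_B h
  rw [KSDir_N]
  positivity

theorem KSDir_N_eps (h : P.Pre) : (P.N : ℝ) * P.eps = (P.B : ℝ) ^ 40 := by
  have := KSDir_B h
  rw [KSDir_N, eps]
  field_simp

theorem KSDir_abs_hv (h : P.Pre) (hv : P.Valid s) (τ : E → ℝ) {e : E} (he : e ∈ s.al) :
    |P.hv s τ e| ≤ |τ e| + ∑ f ∈ s.al, |τ f| := by
  have hp : (800 : ℝ) ≤ P.p := by exact_mod_cast h.p
  have hr : 0 < P.r0 := by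
    unfold r0
    positivity
  have hr1 : P.r0 ≤ 1 / 800 := one_div_le_one_div_of_le (by norm_num) hp
  have hN := KSDir_N_pos h
  unfold KP.hv
  refine (abs_sub _ _).trans (add_le_add le_rfl ?_)
  rw [abs_div, abs_of_pos hr, div_le_iff₀ hr, sum_mul]
  refine (abs_sum_le_sum_abs _ _).trans (sum_le_sum fun f hf => ?_)
  have h1 : P.Gm s e f ^ 2 ≤ P.r0 * P.r0 :=
    (hv.Gm_sq_le e f).trans (mul_le_mul (hv.Gm_le h he) (hv.Gm_le h hf) (hv.Gm_nonneg f) hr.le)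
  have h2 := h.ell_mem (t := s.t f / P.N) (by positivity) (by
    rw [div_le_one hN]
    exact_mod_cast hv.tle f)
  unfold eta
  rw [abs_mul, abs_mul, abs_of_nonneg (sq_nonneg _), abs_of_nonneg (by linarith [h2.2.2.1])]
  have h3 := abs_nonneg (τ f)
  calc P.Gm s e f ^ 2 * (ell' P.bb (s.t f / P.N) * |τ f|)
      ≤ P.r0 * P.r0 * (3 / 2 * |τ f|) :=
        mul_le_mul h1 (mul_le_mul_of_nonneg_right h2.2.2.2 h3)
          (mul_nonneg (by linarith [h2.2.2.1]) h3) (by positivity)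
    _ = |τ f| * P.r0 * (3 / 2 * P.r0) := by ring
    _ ≤ |τ f| * P.r0 * 1 := mul_le_mul_of_nonneg_left (by linarith) (by positivity)
    _ = |τ f| * P.r0 := mul_one _

theorem dir_tau (h : P.Pre) (hv : P.Valid s) (hΦ : P.Phi s ≤ (P.B : ℝ) ^ 4) (R : Finset E) {e : E}
    (he : e ∈ s.al) (σ : Bool) : P.Dir s R (P.tau s R e σ) := by
  have hB := KSDir_B h
  have hB0 : (0 : ℝ) < P.B := by linarith
  have hD : ∀ f ∈ s.al, 0 < P.Km s f f := fun f hf =>
    lt_of_lt_of_le (by positivity) (hv.Km_bounds h hΦ hf).1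
  have hlam : 0 < P.lam := by
    unfold lam
    positivity
  obtain ⟨c1, c2⟩ := projM_col (C := P.Cm s R) hD hlam he
  rw [← Pj_eq] at c1 c2
  have hσ : (if σ then (1 : ℝ) else -1) ^ 2 = 1 := by cases σ <;> simp
  have hsq : ∀ f, P.tau s R e σ f ^ 2 = P.Pj s R f e ^ 2 := fun f => by
    unfold tau
    rw [mul_pow, hσ, one_mul]
  have l2 : ∑ f ∈ s.al, P.tau s R e σ f ^ 2 ≤ (P.B : ℝ) ^ 11 := by
    have h1 : 2 / (P.B : ℝ) ^ 2 * ∑ f ∈ s.al, P.tau s R e σ f ^ 2 ≤ (P.B : ℝ) ^ 9 := by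
      rw [mul_sum]
      refine le_trans (sum_le_sum fun f hf => ?_) (c1.trans (hv.Km_bounds h hΦ he).2)
      rw [hsq]
      exact mul_le_mul_of_nonneg_right (hv.Km_bounds h hΦ hf).1 (sq_nonneg _)
    rw [div_mul_eq_mul_div, div_le_iff₀ (by positivity)] at h1
    have h2 : 0 ≤ ∑ f ∈ s.al, P.tau s R e σ f ^ 2 := sum_nonneg fun _ _ => sq_nonneg _
    have h3 : (P.B : ℝ) ^ 9 * (P.B : ℝ) ^ 2 = (P.B : ℝ) ^ 11 := by ring
    linarith
  have l1 : ∑ f ∈ s.al, |P.tau s R e σ f| ≤ (P.B : ℝ) ^ 6 := by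
    refine (abs_le_of_sq_le_sq' ?_ (by positivity)).2
    refine sq_sum_le_card_mul_sum_sq.trans ?_
    simp only [sq_abs]
    calc (#s.al : ℝ) * ∑ f ∈ s.al, P.tau s R e σ f ^ 2 ≤ P.B * (P.B : ℝ) ^ 11 :=
          mul_le_mul (by linarith [KSDir_card h s.al, Nat.cast_nonneg (α := ℝ) #s.al]) l2
            (sum_nonneg fun _ _ => sq_nonneg _) hB0.le
      _ = ((P.B : ℝ) ^ 6) ^ 2 := by ring
  refine ⟨fun f hf => ?_, l1, l2, ?_, ?_⟩
  · unfold tau
    rw [Pj_eq, projM_supp he hf, mul_zero]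
  · calc ∑ f ∈ s.al, |P.hv s (P.tau s R e σ) f|
        ≤ ∑ f ∈ s.al, (|P.tau s R e σ f| + ∑ g ∈ s.al, |P.tau s R e σ g|) :=
          sum_le_sum fun f hf => KSDir_abs_hv h hv _ hf
      _ = (1 + #s.al) * ∑ g ∈ s.al, |P.tau s R e σ g| := by
          rw [sum_add_distrib, sum_const, nsmul_eq_mul]
          ring
      _ ≤ P.B * (P.B : ℝ) ^ 6 :=
          mul_le_mul (by linarith [KSDir_card h s.al, Nat.cast_nonneg (α := ℝ) #s.al]) l1
            (sum_nonneg fun _ _ => abs_nonneg _) hB0.le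
      _ = (P.B : ℝ) ^ 7 := by ring
  · refine (abs_le_of_sq_le_sq' ?_ (by positivity)).2
    refine sq_sum_le_card_mul_sum_sq.trans ?_
    simp only [sq_abs]
    have h1 : ∑ r ∈ R, (∑ f ∈ P.cls s r, P.hv s (P.tau s R e σ) f) ^ 2
        ≤ ∑ r, (P.Cm s R *ᵥ fun f => P.Pj s R f e) r ^ 2 := by
      refine le_trans (le_of_eq (sum_congr rfl fun r hr => ?_))
        (sum_le_sum_of_subset_of_nonneg (subset_univ R) fun _ _ _ => sq_nonneg _)
      have h2 := Cm_mulVec (P := P) s R (P.tau s R e σ) r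
      rw [if_pos hr] at h2
      have h3 : P.tau s R e σ = (if σ then (1 : ℝ) else -1) • fun f => P.Pj s R f e := rfl
      rw [← h2, h3, mulVec_smul, Pi.smul_apply, smul_eq_mul, mul_pow, hσ, one_mul]
    have h2 : P.lam * P.Km s e e / 2 ≤ P.lam * (P.B : ℝ) ^ 9 := by
      have := mul_le_mul_of_nonneg_left (hv.Km_bounds h hΦ he).2 hlam.le
      have := mul_pos hlam (hD e he)
      linarith
    calc (#R : ℝ) * ∑ r ∈ R, (∑ f ∈ P.cls s r, P.hv s (P.tau s R e σ) f) ^ 2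
        ≤ P.B * (P.lam * (P.B : ℝ) ^ 9) :=
          mul_le_mul (by linarith [KSDir_card h R, Nat.cast_nonneg (α := ℝ) #R])
            (h1.trans (c2.trans h2)) (sum_nonneg fun _ _ => sq_nonneg _) hB0.le
      _ = (1 / (P.B : ℝ) ^ 38) ^ 2 := by
          unfold lam
          field_simp

theorem KSDir_mem_cls {e f : E} :
    f ∈ P.cls s e ↔ f ∈ s.al ∧ P.G.Same P.KK s.y (some e) (some f) := mem_filter

theorem KSDir_sum_cls (hR : P.Reps s R) {g : E → ℝ} (hg : ∀ f, 0 ≤ g f) :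
    ∑ r ∈ R, ∑ f ∈ P.cls s r, g f ≤ ∑ f ∈ s.al, g f := by
  rw [← sum_biUnion]
  · refine sum_le_sum_of_subset_of_nonneg (biUnion_subset.2 fun r _ => filter_subset _ _)
      fun _ _ _ => hg _
  · intro r hr r' hr' hne
    rw [Function.onFun, disjoint_left]
    intro f hf hf'
    exact hne (hR.uniq r hr r' hr' ((KSDir_mem_cls.1 hf).2.trans (KSDir_mem_cls.1 hf').2.symm))

/-- the change of `y` -/
def KSDir_d (P : KP V E) (s : KS E) (R : Finset E) (τ : E → ℝ) (e : E) : ℤ :=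
  if e ∈ s.al then (if e ∈ R then -∑ f ∈ (P.cls s e).erase e, P.fl s τ f else P.fl s τ e) else 0

theorem KSDir_abs_floor (x : ℝ) : |((⌊x⌋ : ℤ) : ℝ)| ≤ |x| + 1 := by
  rw [abs_le]
  constructor <;> linarith [Int.floor_le x, Int.lt_floor_add_one x, le_abs_self x, neg_abs_le x]

theorem KSDir_sum_d (h : P.Pre) (hR : P.Reps s R) {τ : E → ℝ} (hτ : P.Dir s R τ) :
    ∑ e, |P.KSDir_d s R τ e| < P.zz := by
  have hB := KSDir_B h
  have hB0 : (0 : ℝ) < P.B := by linarith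
  have hA : ∑ f ∈ s.al, |(P.fl s τ f : ℝ)| ≤ (P.B : ℝ) ^ 47 + P.B := by
    calc ∑ f ∈ s.al, |(P.fl s τ f : ℝ)|
        ≤ ∑ f ∈ s.al, ((P.B : ℝ) ^ 40 * |P.hv s τ f| + 1) := by
          refine sum_le_sum fun f _ => (KSDir_abs_floor _).trans (le_of_eq ?_)
          rw [KSDir_N_eps h, abs_mul, abs_of_pos (by positivity)]
      _ = (P.B : ℝ) ^ 40 * ∑ f ∈ s.al, |P.hv s τ f| + #s.al := by
          rw [sum_add_distrib, mul_sum, sum_const, nsmul_eq_mul, mul_one]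
      _ ≤ (P.B : ℝ) ^ 40 * (P.B : ℝ) ^ 7 + P.B :=
          add_le_add (mul_le_mul_of_nonneg_left hτ.hl1 (by positivity))
            (by linarith [KSDir_card h s.al, Nat.cast_nonneg (α := ℝ) #s.al])
      _ = (P.B : ℝ) ^ 47 + P.B := by ring
  have h1 : ∀ e, |(P.KSDir_d s R τ e : ℝ)| ≤ (if e ∈ s.al then |(P.fl s τ e : ℝ)| else 0) +
      if e ∈ R then ∑ f ∈ P.cls s e, |(P.fl s τ f : ℝ)| else 0 := by
    intro e
    have h2 : 0 ≤ ∑ f ∈ P.cls s e, |(P.fl s τ f : ℝ)| := sum_nonneg fun _ _ => abs_nonneg _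
    unfold KSDir_d
    split_ifs with h3 h4 h4
    · push_cast
      rw [abs_neg]
      have h5 : ∑ f ∈ (P.cls s e).erase e, |(P.fl s τ f : ℝ)| ≤
          ∑ f ∈ P.cls s e, |(P.fl s τ f : ℝ)| :=
        sum_le_sum_of_subset_of_nonneg (erase_subset _ _) fun _ _ _ => abs_nonneg _
      linarith [abs_sum_le_sum_abs (fun f => (P.fl s τ f : ℝ)) ((P.cls s e).erase e),
        abs_nonneg (P.fl s τ e : ℝ)]
    · simp
    · simpa using h2
    · simp
  have h2 : ∑ e, |(P.KSDir_d s R τ e : ℝ)| ≤ 2 * ((P.B : ℝ) ^ 47 + P.B) := by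
    refine (sum_le_sum fun e _ => h1 e).trans ?_
    rw [sum_add_distrib, sum_ite_mem, sum_ite_mem, univ_inter, univ_inter]
    linarith [KSDir_sum_cls hR (g := fun f => |(P.fl s τ f : ℝ)|) fun _ => abs_nonneg _]
  have h3 : 2 * ((P.B : ℝ) ^ 47 + P.B) < (P.B : ℝ) ^ 52 := by
    have h4 : (P.B : ℝ) ≤ (P.B : ℝ) ^ 47 := le_self_pow₀ (by linarith) (by norm_num)
    have h5 : (P.B : ℝ) ≤ (P.B : ℝ) ^ 5 := le_self_pow₀ (by linarith) (by norm_num)
    have h6 : (0 : ℝ) < (P.B : ℝ) ^ 47 := by positivity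
    calc 2 * ((P.B : ℝ) ^ 47 + P.B) ≤ (P.B : ℝ) ^ 47 * 4 := by linarith
      _ < (P.B : ℝ) ^ 47 * (P.B : ℝ) ^ 5 := mul_lt_mul_of_pos_left (by linarith) h6
      _ = (P.B : ℝ) ^ 52 := by ring
  have h4 : ((∑ e, |P.KSDir_d s R τ e| : ℤ) : ℝ) < ((P.zz : ℤ) : ℝ) := by
    unfold zz
    push_cast
    exact h2.trans_lt h3
  exact_mod_cast h4

theorem KSDir_zz_le (h : P.Pre) (hv : P.Valid s) (hx : P.NoEx s) {f : E} (hf : f ∈ s.al) :
    P.zz ≤ s.y f := by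
  obtain ⟨e, h1, h2, h3⟩ := hv.partner h hf
  exact (hx e h1 f hf h2 h3).1

theorem KSDir_pos (h : P.Pre) (hv : P.Valid s) (hx : P.NoEx s) (hR : P.Reps s R) {τ : E → ℝ}
    (hτ : P.Dir s R τ) {e : E} (he : e ∈ s.al) : 0 < (s.y e : ℤ) + P.KSDir_d s R τ e := by
  have h1 : |P.KSDir_d s R τ e| ≤ ∑ e, |P.KSDir_d s R τ e| :=
    single_le_sum (f := fun e => |P.KSDir_d s R τ e|) (fun _ _ => abs_nonneg _) (mem_univ e)
  have h2 := KSDir_sum_d h hR hτ
  have h3 : (P.zz : ℤ) ≤ s.y e := by exact_mod_cast KSDir_zz_le h hv hx he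
  linarith [neg_abs_le (P.KSDir_d s R τ e)]

theorem KSDir_y (h : P.Pre) (hv : P.Valid s) (hx : P.NoEx s) (hR : P.Reps s R) {τ : E → ℝ}
    (hτ : P.Dir s R τ) (e : E) :
    ((P.move s R τ).y e : ℤ) = s.y e + P.KSDir_d s R τ e := by
  by_cases he : e ∈ s.al
  · have h1 := (KSDir_pos h hv hx hR hτ he).le
    unfold KSDir_d at h1 ⊢
    simp only [move, if_pos he] at h1 ⊢
    split_ifs at h1 ⊢ with h2
    · rw [sub_eq_add_neg, Int.toNat_of_nonneg h1]
    · rw [Int.toNat_of_nonneg h1]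
  · simp [move, KSDir_d, he]

theorem KSDir_c (h : P.Pre) {τ : E → ℝ} (hτ : P.Dir s R τ) {e : E} (he : e ∈ s.al) :
    |⌊(P.N : ℝ) * P.eps * τ e⌋| < P.zz := by
  have hB := KSDir_B h
  have hB0 : (0 : ℝ) < P.B := by linarith
  have h1 : |τ e| ≤ (P.B : ℝ) ^ 6 :=
    (single_le_sum (f := fun f => |τ f|) (fun _ _ => abs_nonneg _) he).trans hτ.l1
  have h2 := KSDir_abs_floor ((P.N : ℝ) * P.eps * τ e)
  have h3 : |(P.N : ℝ) * P.eps * τ e| ≤ (P.B : ℝ) ^ 46 := by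
    rw [KSDir_N_eps h, abs_mul, abs_of_pos (by positivity)]
    calc (P.B : ℝ) ^ 40 * |τ e| ≤ (P.B : ℝ) ^ 40 * (P.B : ℝ) ^ 6 := by gcongr
      _ = _ := by ring
  have h4 : (P.B : ℝ) ^ 46 + 1 < (P.B : ℝ) ^ 52 := by
    have h5 : (1 : ℝ) ≤ (P.B : ℝ) ^ 46 := one_le_pow₀ (by linarith)
    have h6 : (P.B : ℝ) ≤ (P.B : ℝ) ^ 6 := le_self_pow₀ (by linarith) (by norm_num)
    calc (P.B : ℝ) ^ 46 + 1 ≤ (P.B : ℝ) ^ 46 * 2 := by linarith
      _ < (P.B : ℝ) ^ 46 * (P.B : ℝ) ^ 6 := mul_lt_mul_of_pos_left (by linarith) (by positivity)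
      _ = (P.B : ℝ) ^ 52 := by ring
  have h5 : ((|⌊(P.N : ℝ) * P.eps * τ e⌋| : ℤ) : ℝ) < ((P.zz : ℤ) : ℝ) := by
    unfold zz
    push_cast
    linarith
  exact_mod_cast h5

theorem KSDir_cls_d (hR : P.Reps s R) (τ : E → ℝ) {r : E} (hr : r ∈ R) :
    ∑ f ∈ P.cls s r, P.KSDir_d s R τ f = 0 := by
  have h1 : r ∈ P.cls s r := KSDir_mem_cls.2 ⟨(hR.mem r hr).1, MG.same_refl _⟩
  rw [← add_sum_erase _ _ h1]
  have h2 : ∑ f ∈ (P.cls s r).erase r, P.KSDir_d s R τ f =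
      ∑ f ∈ (P.cls s r).erase r, P.fl s τ f := by
    refine sum_congr rfl fun f hf => ?_
    obtain ⟨h3, h4⟩ := mem_erase.1 hf
    obtain ⟨h5, h6⟩ := KSDir_mem_cls.1 h4
    unfold KSDir_d
    rw [if_pos h5, if_neg fun h7 => h3 (hR.uniq r hr f h7 h6).symm]
  rw [h2]
  unfold KSDir_d
  rw [if_pos (hR.mem r hr).1, if_pos hr, neg_add_cancel]

/-- The combinatorial part of a move, and the rounding errors. -/
theorem move_comb (h : P.Pre) (hv : P.Valid s) (hp : P.NoPay s) (hx : P.NoEx s)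
    (hR : P.Reps s R) {τ : E → ℝ} (hτ : P.Dir s R τ) :
    (∀ e ∈ s.al, 0 < (P.move s R τ).y e) ∧ (∀ e, (P.move s R τ).t e ≤ P.N) ∧
      P.G.PC P.KK (P.move s R τ).y ∧ P.meas (P.move s R τ) ≤ P.meas s ∧
      (∀ e ∈ s.al, 0 ≤ (s.t e : ℝ) / P.N + P.eps * τ e ∧ (s.t e : ℝ) / P.N + P.eps * τ e ≤ 1 ∧
        ((P.move s R τ).t e : ℝ) / P.N ≤ s.t e / P.N + P.eps * τ e) ∧
      ∃ err : E → ℝ, (∀ e, 0 ≤ err e) ∧ ∑ e ∈ s.al, err e ≤ 2 / (P.B : ℝ) ^ 61 ∧
        ∀ e ∈ s.al, (s.t e : ℝ) / P.N - s.y e / P.N + P.eps * (τ e - P.hv s τ e) - err e ≤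
          ((P.move s R τ).t e : ℝ) / P.N - (P.move s R τ).y e / P.N := by
  have hB := KSDir_B h
  have hB0 : (0 : ℝ) < P.B := by linarith
  have hN := KSDir_N_pos h
  have hε : 0 < P.eps := by
    unfold eps
    positivity
  have hy := KSDir_y h hv hx hR hτ
  have ht0 : ∀ e ∈ s.al, 0 ≤ (s.t e : ℤ) + ⌊(P.N : ℝ) * P.eps * τ e⌋ ∧
      (s.t e : ℤ) + ⌊(P.N : ℝ) * P.eps * τ e⌋ + 1 ≤ P.N := by
    intro e he
    have h1 := abs_lt.1 (KSDir_c h hτ he)
    have h2 := KSDir_zz_le h hv hx he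
    have h3 := hv.y_lt h he
    have h4 := hp e he
    omega
  have ht : ∀ e ∈ s.al, ((P.move s R τ).t e : ℤ) = s.t e + ⌊(P.N : ℝ) * P.eps * τ e⌋ := by
    intro e he
    simp only [move, if_pos he]
    exact Int.toNat_of_nonneg (ht0 e he).1
  have htR : ∀ e ∈ s.al,
      ((P.move s R τ).t e : ℝ) = s.t e + (⌊(P.N : ℝ) * P.eps * τ e⌋ : ℤ) := by
    intro e he
    exact_mod_cast ht e he
  have hyR : ∀ e, ((P.move s R τ).y e : ℝ) = s.y e + (P.KSDir_d s R τ e : ℤ) := by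
    intro e
    exact_mod_cast hy e
  obtain ⟨hpc, htight⟩ := MG.pc_move hv.pc hx (y' := (P.move s R τ).y)
    (fun e he => by simp [move, he])
    (by
      simp only [hy, add_sub_cancel_left]
      exact (KSDir_sum_d h hR hτ).le)
    (by
      intro e he hne
      obtain ⟨r, hr, hre⟩ := hR.ex e he hne
      have h1 : s.al.filter (fun f => P.G.Same P.KK s.y (some e) (some f)) = P.cls s r :=
        filter_congr fun f _ => ⟨fun h2 => hre.trans h2, fun h2 => hre.symm.trans h2⟩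
      rw [h1]
      have h2 : ((∑ f ∈ P.cls s r, (P.move s R τ).y f : ℕ) : ℤ)
          = ((∑ f ∈ P.cls s r, s.y f : ℕ) : ℤ) := by
        push_cast
        simp only [hy]
        rw [sum_add_distrib, KSDir_cls_d hR τ hr, add_zero]
      exact_mod_cast h2)
  refine ⟨fun e he => ?_, fun e => ?_, hpc, ?_, fun e he => ?_,
    fun e => 1 / P.N + if e ∈ R then
      P.eps * |∑ f ∈ P.cls s e, P.hv s τ f| + (∑ _f ∈ P.cls s e, (1 : ℝ)) / P.N else 0,
    fun e => ?_, ?_, fun e he => ?_⟩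
  · have h1 := KSDir_pos h hv hx hR hτ he
    rw [← hy] at h1
    exact_mod_cast h1
  · by_cases he : e ∈ s.al
    · have h1 := ht e he
      have h2 := (ht0 e he).2
      omega
    · simpa [move, he] using hv.tle e
  · unfold meas
    refine add_le_add le_rfl (card_le_card fun q hq => ?_)
    rw [mem_filter] at hq ⊢
    exact ⟨hq.1, MG.Same.of_tight htight hq.2⟩
  · have h1 : (s.t e : ℝ) / P.N + P.eps * τ e = (s.t e + P.N * P.eps * τ e) / P.N := by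
      field_simp
    have h2 : (0 : ℝ) ≤ s.t e + (⌊(P.N : ℝ) * P.eps * τ e⌋ : ℤ) := by
      exact_mod_cast (ht0 e he).1
    have h3 : (s.t e : ℝ) + (⌊(P.N : ℝ) * P.eps * τ e⌋ : ℤ) + 1 ≤ P.N := by
      exact_mod_cast (ht0 e he).2
    have h4 := Int.floor_le ((P.N : ℝ) * P.eps * τ e)
    have h5 := Int.lt_floor_add_one ((P.N : ℝ) * P.eps * τ e)
    rw [h1, htR e he]
    refine ⟨div_nonneg (by linarith) hN.le, (div_le_one hN).2 (by linarith), ?_⟩
    exact div_le_div_of_nonneg_right (by linarith) hN.le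
  · dsimp only
    split_ifs <;> positivity
  · have hRal : s.al ∩ R = R := inter_eq_right.2 fun r hr => (hR.mem r hr).1
    rw [sum_add_distrib, sum_ite_mem, hRal, sum_add_distrib, ← mul_sum, ← sum_div, ← sum_div]
    have h1 := KSDir_sum_cls hR (g := fun _ => (1 : ℝ)) fun _ => zero_le_one
    have h2 : ∑ _f ∈ s.al, (1 : ℝ) = #s.al := by simp
    have h3 := KSDir_card h s.al
    have h4 : P.eps * ∑ r ∈ R, |∑ f ∈ P.cls s r, P.hv s τ f| ≤ 1 / (P.B : ℝ) ^ 61 := by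
      refine (mul_le_mul_of_nonneg_left hτ.cls hε.le).trans (le_of_eq ?_)
      unfold eps
      field_simp
    have h5 : (∑ _f ∈ s.al, (1 : ℝ)) / P.N + (∑ r ∈ R, ∑ _f ∈ P.cls s r, (1 : ℝ)) / P.N
        ≤ 1 / (P.B : ℝ) ^ 61 := by
      rw [← add_div, KSDir_N, div_le_div_iff₀ (by positivity) (by positivity), one_mul]
      calc (∑ _f ∈ s.al, (1 : ℝ) + ∑ r ∈ R, ∑ _f ∈ P.cls s r, (1 : ℝ)) * (P.B : ℝ) ^ 61
          ≤ (P.B : ℝ) ^ 2 * (P.B : ℝ) ^ 61 := by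
            refine mul_le_mul_of_nonneg_right ?_ (by positivity)
            have h6 : (P.B : ℝ) ≤ (P.B : ℝ) ^ 2 := le_self_pow₀ (by linarith) (by norm_num)
            linarith
        _ = (P.B : ℝ) ^ 63 := by ring
    have h6 : 2 / (P.B : ℝ) ^ 61 = 1 / (P.B : ℝ) ^ 61 + 1 / (P.B : ℝ) ^ 61 := by ring
    linarith
  · have h1 := Int.lt_floor_add_one ((P.N : ℝ) * P.eps * τ e)
    have h2 : ((P.KSDir_d s R τ e : ℤ) : ℝ) ≤ P.N * P.eps * P.hv s τ e + P.N * if e ∈ R then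
        P.eps * |∑ f ∈ P.cls s e, P.hv s τ f| + (∑ _f ∈ P.cls s e, (1 : ℝ)) / P.N else 0 := by
      unfold KSDir_d
      rw [if_pos he]
      split_ifs with h3
      · have h4 : e ∈ P.cls s e := KSDir_mem_cls.2 ⟨he, MG.same_refl _⟩
        have h5 : ∑ f ∈ (P.cls s e).erase e, ((P.N : ℝ) * P.eps * P.hv s τ f - 1) ≤
            ∑ f ∈ (P.cls s e).erase e, (P.fl s τ f : ℝ) :=
          sum_le_sum fun f _ => (Int.sub_one_lt_floor _).le
        rw [sum_sub_distrib, ← mul_sum] at h5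
        have h6 := add_sum_erase (P.cls s e) (fun f => P.hv s τ f) h4
        have h7 := add_sum_erase (P.cls s e) (fun _ => (1 : ℝ)) h4
        have h8 := mul_le_mul_of_nonneg_left (neg_abs_le (∑ f ∈ P.cls s e, P.hv s τ f))
          (mul_pos hN hε).le
        push_cast
        rw [mul_add, mul_div_cancel₀ _ hN.ne', ← mul_assoc]
        rw [← h6] at h8 ⊢
        linarith
      · rw [mul_zero, add_zero]
        exact Int.floor_le _
    rw [htR e he, hyR e, ← sub_div, ← sub_div, le_div_iff₀ hN, sub_mul, add_mul, add_mul,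
      div_mul_cancel₀ _ hN.ne', div_mul_cancel₀ _ hN.ne']
    linarith

end KP
end Crest.Agent.R37
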