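import Crest.Agent.R37.KSBasic

set_option autoImplicit false
open Finset Matrix Crest.CombinatoricsR.Multigraph
open scoped Classical

noncomputable section
namespace Crest.Agent.R37
namespace KP
variable {V E : Type} [Fintype V] [DecidableEq V] [Fintype E] [DecidableEq E] {P : KP V E} {s : KS E}

theorem KSEvent_B (h : P.Pre) : (3200 : ℝ) ≤ P.B := by exact_mod_cast h.B_ge

theorem KSEvent_N_pos (h : P.Pre) : (0 : ℝ) < P.N := by
  have := KSEvent_B h
  change (0 : ℝ) < ((P.B ^ 63 : ℕ) : ℝ)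
  push_cast
  positivity

theorem KSEvent_zz (h : P.Pre) : (P.zz : ℝ) / P.N = 1 / (P.B : ℝ) ^ 11 := by
  have := KSEvent_B h
  change ((P.B ^ 52 : ℕ) : ℝ) / ((P.B ^ 63 : ℕ) : ℝ) = _
  push_cast
  field_simp

theorem KSEvent_r0 (h : P.Pre) : 0 ≤ P.r0 ∧ P.r0 ≤ 1 := by
  have h1 : (800 : ℝ) ≤ P.p := by exact_mod_cast h.p
  change 0 ≤ 1 / (P.p : ℝ) ∧ 1 / (P.p : ℝ) ≤ 1
  refine ⟨by positivity, ?_⟩
  rw [div_le_one (by linarith)]
  linarith

theorem KSEvent_zeta (h : P.Pre) : 4 * (1 / (P.B : ℝ) ^ 11) ≤ 1 / (P.B : ℝ) ^ 4 ∧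
    1 / (P.B : ℝ) ^ 11 ≤ 1 / 2 := by
  have hB := KSEvent_B h
  have h1 : (1 : ℝ) ≤ P.B := by linarith
  have h2 : (P.B : ℝ) ≤ (P.B : ℝ) ^ 7 := le_self_pow₀ h1 (by norm_num)
  have h3 : (P.B : ℝ) ≤ (P.B : ℝ) ^ 11 := le_self_pow₀ h1 (by norm_num)
  refine ⟨?_, one_div_le_one_div_of_le (by norm_num) (by linarith)⟩
  rw [mul_one_div, div_le_div_iff₀ (by positivity) (by positivity),
    show (P.B : ℝ) ^ 11 = (P.B : ℝ) ^ 7 * (P.B : ℝ) ^ 4 by ring, one_mul]
  exact mul_le_mul_of_nonneg_right (by linarith) (by positivity)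

/-- small changes of the slacks and of the trace change the potential a little -/
theorem KSEvent_phi (h : P.Pre) (hv : P.Valid s) (hΦ : P.Phi s ≤ (P.B : ℝ) ^ 4) {s' : KS E}
    (hal : s'.al ⊆ s.al) (hsl : ∀ g ∈ s'.al, P.sl s g - 2 * (1 / (P.B : ℝ) ^ 11) ≤ P.sl s' g)
    (htr : (P.Pm s')⁻¹.trace ≤ (P.Pm s)⁻¹.trace + 4 / (P.B : ℝ) ^ 3) :
    (∀ g ∈ s'.al, 0 < P.sl s' g) ∧ P.Phi s' ≤ P.Phi s + 2 / (P.B : ℝ) ^ 2 := by
  have hB := KSEvent_B h
  have hB0 : (0 : ℝ) < P.B := by linarith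
  have hz := (KSEvent_zeta h).1
  have hz0 : 0 < 1 / (P.B : ℝ) ^ 11 := by positivity
  have key : ∀ g ∈ s'.al, 0 < P.sl s' g ∧ 1 / P.sl s' g ≤ 1 / P.sl s g + 4 / (P.B : ℝ) ^ 3 := by
    intro g hg
    have h1 := hv.sl_ge h hΦ (hal hg)
    have h2 := hsl g hg
    have h3 := hv.sl g (hal hg)
    have h4 : P.sl s g / 2 ≤ P.sl s' g := by linarith
    have h5 : 0 < P.sl s' g := by linarith
    refine ⟨h5, ?_⟩
    have h6 : 1 / P.sl s g ≤ (P.B : ℝ) ^ 4 := by
      rw [div_le_iff₀ h3]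
      rwa [div_le_iff₀' (by positivity)] at h1
    have h7 : 1 / P.sl s' g ≤ 2 * (P.B : ℝ) ^ 4 := by
      refine (one_div_le_one_div_of_le (by linarith) h4).trans ?_
      rw [one_div_div, div_eq_mul_one_div]
      linarith
    have h8 : 1 / P.sl s' g - 1 / P.sl s g =
        (P.sl s g - P.sl s' g) * (1 / P.sl s g * (1 / P.sl s' g)) := by
      field_simp
    have h9 : (P.sl s g - P.sl s' g) * (1 / P.sl s g * (1 / P.sl s' g)) ≤
        2 * (1 / (P.B : ℝ) ^ 11) * ((P.B : ℝ) ^ 4 * (2 * (P.B : ℝ) ^ 4)) := by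
      have h11 : P.sl s g - P.sl s' g ≤ 2 * (1 / (P.B : ℝ) ^ 11) := by linarith
      refine (mul_le_mul_of_nonneg_right h11 (by positivity)).trans ?_
      gcongr
    have h10 : 2 * (1 / (P.B : ℝ) ^ 11) * ((P.B : ℝ) ^ 4 * (2 * (P.B : ℝ) ^ 4)) =
        4 / (P.B : ℝ) ^ 3 := by
      field_simp
      norm_num
    linarith
  refine ⟨fun g hg => (key g hg).1, ?_⟩
  have h1 : ∑ g ∈ s'.al, 1 / P.sl s' g ≤
      ∑ g ∈ s.al, 1 / P.sl s g + Fintype.card E * (4 / (P.B : ℝ) ^ 3) := by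
    refine (sum_le_sum fun g hg => (key g hg).2).trans ?_
    rw [sum_add_distrib, sum_const, nsmul_eq_mul]
    refine add_le_add (sum_le_sum_of_subset_of_nonneg hal fun g hg _ =>
      (one_div_pos.2 (hv.sl g hg)).le) (mul_le_mul_of_nonneg_right ?_ (by positivity))
    exact_mod_cast card_le_univ s'.al
  have h2 : 2 * ((Fintype.card E : ℝ) + 1) ≤ P.B := by
    have := h.card_le
    have h3 : 2 * (Fintype.card E + 1) ≤ P.B := by omega
    exact_mod_cast h3
  have h3 : ((Fintype.card E : ℝ) + 1) * (4 / (P.B : ℝ) ^ 3) ≤ 2 / (P.B : ℝ) ^ 2 := by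
    calc ((Fintype.card E : ℝ) + 1) * (4 / (P.B : ℝ) ^ 3) =
          2 * ((Fintype.card E : ℝ) + 1) * (2 / (P.B : ℝ) ^ 3) := by ring
      _ ≤ P.B * (2 / (P.B : ℝ) ^ 3) := by gcongr
      _ = _ := by field_simp
  change ∑ g ∈ s'.al, 1 / P.sl s' g + (P.Pm s')⁻¹.trace ≤
    ∑ g ∈ s.al, 1 / P.sl s g + (P.Pm s)⁻¹.trace + _
  linarith

/-- killing an edge decreases the measure -/
theorem KSEvent_meas_erase {s' : KS E} {e : E} (he : e ∈ s.al) (hal : s'.al = s.al.erase e) :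
    P.meas s' < P.meas s := by
  have h1 : #s'.al + 1 = #s.al := by rw [hal, card_erase_add_one he]
  have h2 : #((univ : Finset (Option E × Option E)).filter
      fun q => P.G.Same P.KK s'.y q.1 q.2) ≤ (Fintype.card E + 1) ^ 2 := by
    refine (card_le_univ _).trans_eq ?_
    rw [Fintype.card_prod, Fintype.card_option, sq]
  have h3 : 0 < #((univ : Finset (Option E × Option E)).filter
      fun q => P.G.Same P.KK s.y q.1 q.2) :=
    card_pos.2 ⟨(none, none), mem_filter.2 ⟨mem_univ _, MG.same_refl none⟩⟩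
  unfold meas
  rw [← h1, add_mul, one_mul]
  omega

theorem pay_step (h : P.Pre) (hv : P.Valid s) (hΦ : P.Phi s ≤ (P.B : ℝ) ^ 4) {e : E}
    (he : e ∈ s.al) (ht : P.N ≤ s.t e + P.zz) :
    P.Valid (P.pay s e) ∧ P.Phi (P.pay s e) ≤ P.Phi s + 2 / (P.B : ℝ) ^ 2 ∧
      P.meas (P.pay s e) < P.meas s := by
  have hB := KSEvent_B h
  have hN := KSEvent_N_pos h
  have hr := KSEvent_r0 h
  have hz := (KSEvent_zeta h).2
  set a : ℝ := 1 - ell P.bb (s.t e / P.N) with ha
  have ht1 : (s.t e : ℝ) / P.N ≤ 1 := by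
    rw [div_le_one hN]
    exact_mod_cast hv.tle e
  have hell := h.ell_mem (by positivity) ht1
  have ha0 : 0 ≤ a := by linarith [hell.2.1]
  have ha1 : a ≤ 1 / (P.B : ℝ) ^ 11 := by
    have h1 : (1 : ℝ) ≤ (s.t e + P.zz) / P.N := by
      rw [one_le_div hN]
      exact_mod_cast ht
    rw [add_div, KSEvent_zz h] at h1
    linarith [hell.1]
  have hGe := hv.Gm_le h he
  have hGe0 := hv.Gm_nonneg e
  have hPm : P.Pm (P.pay s e) =
      P.Pm s - ∑ i ∈ ({e} : Finset E), a • vecMulVec (P.G.b i) (P.G.b i) := by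
    have hcc : ∀ g, P.cc (P.pay s e) g = P.cc s g + if g = e then a else 0 := by
      intro g
      by_cases hg : g = e
      · subst hg
        simp [cc, pay, he, ha, hN.ne']
      · simp [cc, pay, hg]
    rw [sum_singleton]
    simp only [Pm, MG.lap, hcc, add_smul, sum_add_distrib, ite_smul, zero_smul, sum_ite_eq',
      mem_univ, if_true]
    abel
  have hres := resolvent hv.pd {e} P.G.b (fun _ => a) (by
    rw [sum_singleton, abs_of_nonneg ha0]
    have : a * P.Gm s e e ≤ a := mul_le_of_le_one_right ha0 (hGe.trans hr.2)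
    exact this.trans (ha1.trans hz))
  rw [← hPm] at hres
  have hq : ∀ v, v ⬝ᵥ (P.Pm (P.pay s e))⁻¹ *ᵥ v ≤ v ⬝ᵥ (P.Pm s)⁻¹ *ᵥ v +
      2 * (1 / (P.B : ℝ) ^ 11) * (v ⬝ᵥ (P.Pm s)⁻¹ *ᵥ P.G.b e) ^ 2 := by
    intro v
    refine (hres.2 v).trans ?_
    simp only [sum_singleton]
    have h1 : a * P.Gm s e e ≤ 1 / 2 :=
      (mul_le_of_le_one_right ha0 (hGe.trans hr.2)).trans (ha1.trans hz)
    have h2 := mul_le_mul_of_nonneg_right h1
      (mul_nonneg ha0 (sq_nonneg (v ⬝ᵥ (P.Pm s)⁻¹ *ᵥ P.G.b e)))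
    have h3 := mul_le_mul_of_nonneg_right ha1 (sq_nonneg (v ⬝ᵥ (P.Pm s)⁻¹ *ᵥ P.G.b e))
    change _ + 2 * (a * a * _ * P.Gm s e e * _) ≤ _
    nlinarith
  have hphi := KSEvent_phi h hv hΦ (s' := P.pay s e) (erase_subset _ _) (fun g hg => by
    obtain ⟨hge, hg'⟩ := mem_erase.1 hg
    have h1 := hq (P.G.b g)
    have h2 : P.Gm s g e ^ 2 ≤ 1 := (hv.Gm_sq_le g e).trans
      (mul_le_one₀ ((hv.Gm_le h hg').trans hr.2) hGe0 (hGe.trans hr.2))
    have h3 := mul_le_of_le_one_right (show 0 ≤ 2 * (1 / (P.B : ℝ) ^ 11) by positivity) h2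
    have h4 : P.sl (P.pay s e) g =
        P.r0 * (s.t g / P.N - s.y g / P.N) - P.Gm (P.pay s e) g g := by
      simp [sl, pay, hge]
    rw [h4]
    change P.Gm (P.pay s e) g g ≤ P.Gm s g g + _ * P.Gm s g e ^ 2 at h1
    change P.r0 * (s.t g / P.N - s.y g / P.N) - P.Gm s g g - _ ≤ _
    linarith) (by
    rw [trace_eq_sum_qf, trace_eq_sum_qf (P.Pm s)⁻¹]
    refine (sum_le_sum fun v _ => hq _).trans ?_
    rw [sum_add_distrib, ← mul_sum]
    have h1 : ∑ v, (Pi.single v (1 : ℝ) ⬝ᵥ (P.Pm s)⁻¹ *ᵥ P.G.b e) ^ 2 =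
        ((P.Pm s)⁻¹ *ᵥ P.G.b e) ⬝ᵥ ((P.Pm s)⁻¹ *ᵥ P.G.b e) := by
      simp only [single_dotProduct, one_mul, sq]
      rfl
    have h2 := sq_inv_le_trace hv.pd (P.G.b e)
    have h3 : (P.Pm s)⁻¹.trace ^ 2 ≤ ((P.B : ℝ) ^ 4) ^ 2 :=
      pow_le_pow_left₀ hv.trace_nonneg (hv.trace_le.trans hΦ) 2
    rw [P.G.b_dot_self] at h2
    rw [h1]
    have h4 : 2 * (1 / (P.B : ℝ) ^ 11) * (((P.B : ℝ) ^ 4) ^ 2 * 2) = 4 / (P.B : ℝ) ^ 3 := by
      field_simp
      norm_num
    rw [← h4]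
    gcongr
    linarith)
  refine ⟨⟨hres.1, hphi.1, fun g hg => ?_, hv.tle, fun g hg => ?_, fun g hg => ?_, ?_⟩, hphi.2,
    KSEvent_meas_erase he rfl⟩
  · obtain ⟨hge, hg'⟩ := mem_erase.1 hg
    simpa [pay, hge] using hv.ypos g hg'
  · by_cases hge : g = e
    · right
      simp [pay, hge]
    · have hg' : g ∉ s.al := fun h' => hg (mem_erase.2 ⟨hge, h'⟩)
      simpa [pay, hge] using hv.dead g hg'
  · have hge : g ≠ e := fun h' => (hv.ypos e he).ne' (h' ▸ hv.supp g hg)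
    simpa [pay, hge] using hv.supp g hg
  · refine hv.pc.mono le_rfl fun g => ?_
    by_cases hge : g = e
    · simpa [pay, hge] using hv.y_le h e
    · simp [pay, hge]

theorem exch_step (h : P.Pre) (hv : P.Valid s) (hΦ : P.Phi s ≤ (P.B : ℝ) ^ 4) {e : Option E}
    {f : E} {c : ℕ} (hx : P.ExOK s e f c) :
    P.Valid (P.exSt s e f c) ∧ P.Phi (P.exSt s e f c) ≤ P.Phi s + 2 / (P.B : ℝ) ^ 2 ∧
      P.meas (P.exSt s e f c) < P.meas s := by
  have hB := KSEvent_B h
  have hN := KSEvent_N_pos h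
  have hr := KSEvent_r0 h
  have hal : (P.exSt s e f c).al = if c = s.y f then s.al.erase f else s.al := rfl
  have hy : ∀ g, (P.exSt s e f c).y g =
      s.y g + (if e = some g then c else 0) - (if some f = some g then c else 0) := fun _ => rfl
  have hsub : (P.exSt s e f c).al ⊆ s.al := by
    rw [hal]
    split_ifs
    · exact erase_subset _ _
    · exact subset_rfl
  have hyd : ∀ g, g ∉ s.al → (P.exSt s e f c).y g = s.y g := by
    intro g hg
    have h1 : e ≠ some g := fun h' => hg (by have := hx.ale; rwa [h'] at this)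
    have h2 : some f ≠ some g := fun h' => hg (Option.some.inj h' ▸ hx.alf)
    rw [hy, if_neg h1, if_neg h2]
    rfl
  have hyk : ∀ g ∈ s.al, g ∉ (P.exSt s e f c).al → (P.exSt s e f c).y g = 0 := by
    intro g hg hg'
    rw [hal] at hg'
    split_ifs at hg' with hc
    · have hgf : g = f := by_contra fun h' => hg' (mem_erase.2 ⟨h', hg⟩)
      rw [hgf, hy, if_neg hx.ne, if_pos rfl]
      omega
    · exact absurd hg hg'
  have hcc : ∀ g, P.cc (P.exSt s e f c) g ≤ P.cc s g := by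
    intro g
    unfold cc
    by_cases h1 : g ∈ (P.exSt s e f c).al
    · rw [if_pos h1, if_pos (hsub h1)]
      exact le_rfl
    · rw [if_neg h1]
      by_cases h2 : g ∈ s.al
      · have ht1 : (s.t g : ℝ) / P.N ≤ 1 := by
          rw [div_le_one hN]
          exact_mod_cast hv.tle g
        rw [if_pos h2, hyk g h2 h1, Nat.cast_zero, zero_div]
        exact le_trans (by positivity) (h.ell_mem (by positivity) ht1).1
      · rw [if_neg h2, hyd g h2]
  have hanti := qf_inv_anti hv.pd (h.Pm_symm (P.exSt s e f c)) fun z => by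
    rw [qf_Pm, qf_Pm]
    exact sub_le_sub_left
      (sum_le_sum fun g _ => mul_le_mul_of_nonneg_right (hcc g) (sq_nonneg _)) _
  have hphi := KSEvent_phi h hv hΦ hsub (fun g _ => by
    have h1 : P.Gm (P.exSt s e f c) g g ≤ P.Gm s g g := hanti.2.1 _
    have h2 : (P.exSt s e f c).y g ≤ s.y g + P.zz := by
      have := hx.lt
      rw [hy]
      split_ifs <;> omega
    have h3 : ((P.exSt s e f c).y g : ℝ) / P.N ≤ s.y g / P.N + 1 / (P.B : ℝ) ^ 11 := by
      rw [← KSEvent_zz h, ← add_div]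
      gcongr
      exact_mod_cast h2
    have h4 := mul_le_mul_of_nonneg_left h3 hr.1
    have h5 : 0 ≤ 1 / (P.B : ℝ) ^ 11 := by positivity
    have h6 := mul_le_of_le_one_left h5 hr.2
    change P.r0 * (s.t g / P.N - s.y g / P.N) - P.Gm s g g - _ ≤
      P.r0 * (s.t g / P.N - (P.exSt s e f c).y g / P.N) - P.Gm (P.exSt s e f c) g g
    linarith) (hanti.2.2.trans (le_add_of_nonneg_right (by positivity)))
  refine ⟨⟨hanti.1, hphi.1, fun g hg => ?_, hv.tle, fun g hg => ?_, fun g hg => ?_, hx.pc⟩,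
    hphi.2, ?_⟩
  · have h1 := hv.ypos g (hsub hg)
    have h2 := hx.le
    rw [hy]
    by_cases hgf : g = f
    · subst hgf
      have hc : c ≠ s.y g := fun hc => by
        rw [hal, if_pos hc] at hg
        exact notMem_erase _ _ hg
      rw [if_pos rfl]
      omega
    · rw [if_neg (c := some f = some g) fun h' => hgf (Option.some.inj h').symm]
      omega
  · by_cases h2 : g ∈ s.al
    · exact Or.inl (hyk g h2 hg)
    · rw [hyd g h2]
      exact hv.dead g h2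
  · have h1 := hv.supp g hg
    rw [hyd g fun h' => (hv.ypos g h').ne' h1, h1]
  · by_cases hc : c = s.y f
    · exact KSEvent_meas_erase hx.alf (by rw [hal, if_pos hc])
    · have h1 : (P.exSt s e f c).al = s.al := by rw [hal, if_neg hc]
      unfold meas
      rw [h1]
      refine Nat.add_lt_add_left (card_lt_card ⟨fun q hq => ?_, fun hs => ?_⟩) _
      · refine mem_filter.2 ⟨mem_univ _, MG.Same.of_tight (fun A hA => ?_) (mem_filter.1 hq).2⟩
        exact MG.Tight.exch hx.ne hx.same (fun g hg => Option.some.inj hg ▸ hx.le) hA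
      · have h2 := (mem_filter.1 (hs (mem_filter.2 ⟨mem_univ (e, some f), hx.same⟩))).2
        exact MG.not_same_exch hv.pc hx.ne (lt_of_le_of_ne hx.le hc) hx.pc
          (hx.max.resolve_left hc) h2

omit [Fintype E] in
theorem KSEvent_exch_zero (y : E → ℕ) (e f : Option E) : exch y e f 0 = y := by
  funext g
  simp [exch]

/-- If some exchange capacity is small, the least `c` at which the exchange stops is an event. -/
theorem exOK_of_not (hv : P.Valid s) {e : Option E} {f : E} (he : memO s.al e) (hf : f ∈ s.al)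
    (hne : e ≠ some f) (hs : P.G.Same P.KK s.y e (some f)) {c : ℕ} (hc : c < P.zz)
    (hmax : c = s.y f ∨ ¬ P.G.PC P.KK (exch s.y e (some f) (c + 1)))
    (hmin : ∀ c' < c, ¬ (c' = s.y f ∨ ¬ P.G.PC P.KK (exch s.y e (some f) (c' + 1)))) :
    P.ExOK s e f c := by
  refine ⟨he, hf, hne, hs, hc, not_lt.1 fun hlt => hmin _ hlt (Or.inl rfl), ?_, hmax⟩
  rcases c with _ | c
  · rw [KSEvent_exch_zero]
    exact hv.pc
  · exact by_contra fun hn => hmin c (Nat.lt_succ_self c) (Or.inr hn)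

/-- If no exchange stops below `zz`, all capacities are large. -/
theorem noEx_of_forall (h : P.Pre) (hv : P.Valid s)
    (H : ∀ e : Option E, memO s.al e → ∀ f ∈ s.al, e ≠ some f → P.G.Same P.KK s.y e (some f) →
      ∀ c < P.zz, ¬ (c = s.y f ∨ ¬ P.G.PC P.KK (exch s.y e (some f) (c + 1)))) : P.NoEx s := by
  intro e he f hf hne hs
  have H' := H e he f hf hne hs
  refine ⟨not_lt.1 fun hlt => H' _ hlt (Or.inl rfl), ?_⟩
  have hz : 0 < P.zz := Nat.pow_pos (by have := h.B_ge; omega)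
  obtain ⟨c, hc⟩ := Nat.exists_eq_succ_of_ne_zero hz.ne'
  rw [hc] at H' ⊢
  exact by_contra fun hn => H' c (Nat.lt_succ_self c) (Or.inr hn)

end KP
end Crest.Agent.R37
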