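import Crest.Agent.R37.KSAn
import Crest.Agent.R37.KSEvent

set_option autoImplicit false
open Finset Matrix Crest.CombinatoricsR.Multigraph
open scoped Classical

noncomputable section
namespace Crest.Agent.R37
namespace KP
variable {V E : Type} [Fintype V] [DecidableEq V] [Fintype E] [DecidableEq E] {P : KP V E} {s : KS E} {R : Finset E}

theorem KSLoop_psd (hv : P.Valid s) (c : E → ℝ) :
    0 ≤ ∑ f ∈ s.al, ∑ g ∈ s.al, c f * P.Gm s f g * c g := by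
  have h := qf_inv_nonneg hv.pd (∑ f ∈ s.al, c f • P.G.b f)
  rw [mulVec_sum, sum_dotProduct] at h
  refine h.trans (le_of_eq (sum_congr rfl fun f _ => ?_))
  rw [dotProduct_sum]
  refine sum_congr rfl fun g _ => ?_
  rw [mulVec_smul, smul_dotProduct, dotProduct_smul, smul_eq_mul, smul_eq_mul, Gm]
  ring

theorem KSLoop_psd' (hv : P.Valid s) (a : E → ℝ) :
    0 ≤ ∑ f ∈ s.al, ∑ g ∈ s.al, a f * (P.Gm s f g * P.Km s f g) * a g := by
  have h1 : ∑ f ∈ s.al, ∑ g ∈ s.al, a f * (P.Gm s f g * P.Km s f g) * a g =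
      ∑ e ∈ s.al, ∑ f ∈ s.al, ∑ g ∈ s.al,
        (a f * (P.Gm s e f / P.sl s e)) * P.Gm s f g * (a g * (P.Gm s e g / P.sl s e)) +
      ∑ v, ∑ f ∈ s.al, ∑ g ∈ s.al, (a f * ((P.Pm s)⁻¹ *ᵥ P.G.b f) v) * P.Gm s f g *
        (a g * ((P.Pm s)⁻¹ *ᵥ P.G.b g) v) := by
    rw [sum_comm (t := s.al) (s := univ), sum_comm (f := fun e f => ∑ g ∈ s.al,
      (a f * (P.Gm s e f / P.sl s e)) * P.Gm s f g * (a g * (P.Gm s e g / P.sl s e))),
      ← sum_add_distrib]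
    refine sum_congr rfl fun f _ => ?_
    rw [sum_comm (t := s.al) (s := univ), sum_comm (f := fun e g =>
      (a f * (P.Gm s e f / P.sl s e)) * P.Gm s f g * (a g * (P.Gm s e g / P.sl s e))),
      ← sum_add_distrib]
    refine sum_congr rfl fun g _ => ?_
    rw [Km, dotProduct, mul_add, mul_add, add_mul, mul_sum, mul_sum, mul_sum, mul_sum, sum_mul,
      sum_mul]
    congr 1
    · exact sum_congr rfl fun e _ => by ring
    · exact sum_congr rfl fun v _ => by ring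
  rw [h1]
  exact add_nonneg (sum_nonneg fun e _ => KSLoop_psd hv _) (sum_nonneg fun v _ => KSLoop_psd hv _)

theorem KSLoop_quad_tau (R : Finset E) (e : E) (σ : Bool) :
    P.quad s (P.tau s R e σ) = P.quad s fun f => P.Pj s R f e := by
  cases σ <;> simp [quad, eta, tau]

/-- Some candidate has negative second-order term. -/
theorem exists_quad (h : P.Pre) (hv : P.Valid s) (hΦ : P.Phi s ≤ (P.B : ℝ) ^ 4) (hR : P.Reps s R)
    (hal : s.al.Nonempty) :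
    ∃ e ∈ s.al, ∀ σ, P.quad s (P.tau s R e σ) ≤ -40 / (P.B : ℝ) ^ 3 := by
  have hB : (3200 : ℝ) ≤ P.B := by exact_mod_cast h.B_ge
  have hp : (800 : ℝ) ≤ P.p := by exact_mod_cast h.p
  have hpB : 4 * (P.p : ℝ) ≤ P.B := by exact_mod_cast h.four_p_le
  have hN : (0 : ℝ) < P.N := by
    have : 0 < P.N := pow_pos (by have := h.B_ge; omega) _
    exact_mod_cast this
  have hK : ∀ f ∈ s.al, 0 < P.Km s f f := fun f hf =>
    lt_of_lt_of_le (by positivity) (hv.Km_bounds h hΦ hf).1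
  obtain ⟨e, he, hq⟩ := projM_exists (D := fun f => P.Km s f f) (C := P.Cm s R) (lam := P.lam)
    (Γ := fun f g => ell' P.bb (s.t f / P.N) * (P.Gm s f g * P.Km s f g) * ell' P.bb (s.t g / P.N))
    (γ := 4 * P.r0) (β := 3 / 8 * P.bb) hK (by unfold lam; positivity)
    (fun r hr f => by simp [Cm, hr]) (hR.card_le h hv) hal
    (fun f g => by
      have : P.Km s f g = P.Km s g f := by
        simp only [Km, mul_comm, dotProduct_comm]
      rw [this, hv.Gm_symm f g]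
      ring)
    (fun z => (KSLoop_psd' hv fun f => z f * ell' P.bb (s.t f / P.N)).trans
      (le_of_eq (sum_congr rfl fun f _ => sum_congr rfl fun g _ => by ring)))
    (fun f hf => by
      obtain ⟨-, -, h1, h2⟩ := h.ell_mem (t := s.t f / P.N) (by positivity)
        ((div_le_one hN).2 (by exact_mod_cast hv.tle f))
      have h3 := hv.Gm_le h hf
      have h4 := hv.Gm_nonneg f
      have h5 := (hK f hf).le
      calc _ = (ell' P.bb (s.t f / P.N) * ell' P.bb (s.t f / P.N)) * P.Gm s f f * P.Km s f f := by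
            ring
        _ ≤ 4 * P.r0 * P.Km s f f := by
            gcongr
            nlinarith)
    (by unfold bb; positivity)
  refine ⟨e, he, fun σ => ?_⟩
  rw [KSLoop_quad_tau]
  have h1 : (P.quad s fun f => P.Pj s R f e) ≤ (8 * (4 * P.r0) - 3 / 8 * P.bb / 4) * P.Km s e e := by
    refine le_trans (le_of_eq ?_) hq
    rw [quad, Pj_eq]
    congr 2
    exact sum_congr rfl fun f _ => sum_congr rfl fun g _ => by rw [eta, eta]; ring
  have h2 : 8 * (4 * P.r0) - 3 / 8 * P.bb / 4 = -(11 / 2 * (1 / P.p)) := by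
    rw [r0, bb]
    ring
  have h3 : 4 / (P.B : ℝ) ≤ 1 / P.p := by
    rw [div_le_div_iff₀ (by positivity) (by positivity)]
    linarith
  have h4 : 11 / 2 * (4 / (P.B : ℝ)) * (2 / (P.B : ℝ) ^ 2) ≤ 11 / 2 * (1 / P.p) * P.Km s e e := by
    have := (hv.Km_bounds h hΦ he).1
    gcongr
  have h5 : 11 / 2 * (4 / (P.B : ℝ)) * (2 / (P.B : ℝ) ^ 2) = 44 / (P.B : ℝ) ^ 3 := by
    field_simp
    norm_num
  have h6 : 40 / (P.B : ℝ) ^ 3 ≤ 44 / (P.B : ℝ) ^ 3 := by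
    gcongr
    norm_num
  rw [h2, neg_mul] at h1
  rw [neg_div]
  linarith

theorem KSLoop_move (h : P.Pre) (hv : P.Valid s) (hΦ : P.Phi s ≤ (P.B : ℝ) ^ 4) (hp : P.NoPay s)
    (hx : P.NoEx s) (hR : P.Reps s R) {τ : E → ℝ} (hτ : P.Dir s R τ) :
    P.Valid (P.move s R τ) ∧ P.meas (P.move s R τ) ≤ P.meas s ∧
      P.Phi (P.move s R τ) ≤
        P.Phi s + P.eps * P.lin s τ + P.eps ^ 2 * P.quad s τ + 4 / (P.B : ℝ) ^ 53 := by
  obtain ⟨h1, h2, h3, h4, h5, err, h6, h7, h8⟩ := move_comb h hv hp hx hR hτ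
  have hy : ∀ e, e ∉ s.al → (P.move s R τ).y e = s.y e := fun e he => if_neg he
  obtain ⟨a1, a2, a3⟩ := move_an h hv hΦ hτ (s' := P.move s R τ) rfl hy h5 h6 h7 h8
  refine ⟨⟨a1, a2, h1, h2, fun e he => ?_, fun e he => ?_, h3⟩, h4, a3⟩
  · rw [hy e he]
    exact hv.dead e he
  · have h9 := hv.supp e he
    rw [hy e fun h' => (hv.ypos e h').ne' h9, h9]

theorem move_valid (h : P.Pre) (hv : P.Valid s) (hΦ : P.Phi s ≤ (P.B : ℝ) ^ 4) (hp : P.NoPay s)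
    (hx : P.NoEx s) (hR : P.Reps s R) {e : E} (he : e ∈ s.al) (σ : Bool) :
    P.Valid (P.move s R (P.tau s R e σ)) ∧ P.meas (P.move s R (P.tau s R e σ)) ≤ P.meas s :=
  have h1 := KSLoop_move h hv hΦ hp hx hR (dir_tau h hv hΦ R he σ)
  ⟨h1.1, h1.2.1⟩

theorem exists_move (h : P.Pre) (hv : P.Valid s) (hΦ : P.Phi s ≤ (P.B : ℝ) ^ 4) (hp : P.NoPay s)
    (hx : P.NoEx s) (hR : P.Reps s R) (hal : s.al.Nonempty) :
    ∃ e ∈ s.al, ∃ σ, P.Phi (P.move s R (P.tau s R e σ)) ≤ P.Phi s - 1 / (P.B : ℝ) ^ 49 := by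
  have hB : (3200 : ℝ) ≤ P.B := by exact_mod_cast h.B_ge
  obtain ⟨e, he, hq⟩ := exists_quad h hv hΦ hR hal
  obtain ⟨σ, hσ⟩ : ∃ σ, P.lin s (P.tau s R e σ) ≤ 0 := by
    have h1 : P.lin s (P.tau s R e false) = -P.lin s (P.tau s R e true) := by
      simp [lin, eta, tau]
    rcases le_total (P.lin s (P.tau s R e true)) 0 with h2 | h2
    · exact ⟨true, h2⟩
    · exact ⟨false, by linarith⟩
  refine ⟨e, he, σ, (KSLoop_move h hv hΦ hp hx hR (dir_tau h hv hΦ R he σ)).2.2.trans ?_⟩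
  have h1 : P.eps * P.lin s (P.tau s R e σ) ≤ 0 :=
    mul_nonpos_of_nonneg_of_nonpos (by unfold eps; positivity) hσ
  have h2 := mul_le_mul_of_nonneg_left (hq σ) (sq_nonneg P.eps)
  have h3 : P.eps ^ 2 * (-40 / (P.B : ℝ) ^ 3) = -40 * (1 / (P.B : ℝ) ^ 49) := by
    rw [eps]
    field_simp
  have h4 : 1 / (P.B : ℝ) ^ 53 ≤ 1 / (P.B : ℝ) ^ 49 :=
    one_div_le_one_div_of_le (by positivity) (pow_le_pow_right₀ (by linarith) (by norm_num))
  have h5 : 4 / (P.B : ℝ) ^ 53 = 4 * (1 / (P.B : ℝ) ^ 53) := by ring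
  have h6 : 0 ≤ 1 / (P.B : ℝ) ^ 49 := by positivity
  linarith

/-- the combined potential -/
def KSLoop_Psi (P : KP V E) (s : KS E) : ℝ := P.Phi s + 3 * P.meas s / (P.B : ℝ) ^ 2

theorem KSLoop_step (h : P.Pre) (hv : P.Valid s) (hΦ : P.Phi s ≤ (P.B : ℝ) ^ 4) {s' : KS E}
    (hn : P.Next s s') : P.Valid s' ∧ ((s.al = ∅ ∧ s' = s) ∨
      (s.al.Nonempty ∧ P.KSLoop_Psi s' ≤ P.KSLoop_Psi s - 1 / (P.B : ℝ) ^ 49)) := by
  have hB : (3200 : ℝ) ≤ P.B := by exact_mod_cast h.B_ge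
  have ev : P.Phi s' ≤ P.Phi s + 2 / (P.B : ℝ) ^ 2 → P.meas s' < P.meas s →
      P.KSLoop_Psi s' ≤ P.KSLoop_Psi s - 1 / (P.B : ℝ) ^ 49 := fun h1 h2 => by
    have h3 : (P.meas s' : ℝ) + 1 ≤ P.meas s := by exact_mod_cast h2
    have h4 : 1 / (P.B : ℝ) ^ 49 ≤ 1 / (P.B : ℝ) ^ 2 :=
      one_div_le_one_div_of_le (by positivity) (pow_le_pow_right₀ (by linarith) (by norm_num))
    have h5 := mul_le_mul_of_nonneg_right h3 (by positivity : 0 ≤ 1 / (P.B : ℝ) ^ 2)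
    unfold KSLoop_Psi
    simp only [div_eq_mul_inv, one_mul] at *
    linarith
  rcases hn with ⟨h1, rfl⟩ | ⟨e, he, h1, rfl⟩ | ⟨e, f, c, h1, rfl⟩ |
    ⟨h1, h2, R, hR, e, he, σ, rfl, h3⟩
  · exact ⟨hv, Or.inl ⟨h1, rfl⟩⟩
  · obtain ⟨a1, a2, a3⟩ := pay_step h hv hΦ he h1
    exact ⟨a1, Or.inr ⟨⟨e, he⟩, ev a2 a3⟩⟩
  · obtain ⟨a1, a2, a3⟩ := exch_step h hv hΦ h1
    exact ⟨a1, Or.inr ⟨⟨f, h1.alf⟩, ev a2 a3⟩⟩
  · obtain ⟨a1, a2⟩ := move_valid h hv hΦ h1 h2 hR he σ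
    obtain ⟨e', he', σ', a3⟩ := exists_move h hv hΦ h1 h2 hR ⟨e, he⟩
    refine ⟨a1, Or.inr ⟨⟨e, he⟩, ?_⟩⟩
    have a4 := (h3 e' he' σ').trans a3
    have a5 : 3 * (P.meas (P.move s R (P.tau s R e σ)) : ℝ) / (P.B : ℝ) ^ 2 ≤
        3 * P.meas s / (P.B : ℝ) ^ 2 := by
      gcongr
    unfold KSLoop_Psi
    linarith

/-- Any step function that follows `Next` on valid states finishes within `B ^ 51` steps. -/
theorem run (h : P.Pre) (step : KS E → KS E) (hstep : ∀ s, P.Valid s → P.Next s (step s)) :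
    (∀ i, P.Valid (step^[i] P.init)) ∧ (step^[P.B ^ 51] P.init).al = ∅ := by
  have hB : (3200 : ℝ) ≤ P.B := by exact_mod_cast h.B_ge
  have h0 : P.KSLoop_Psi P.init ≤ (P.B : ℝ) ^ 2 / 2 := by
    have h1 : P.meas P.init ≤ P.B ^ 3 := (meas_le _).trans
      (Nat.pow_le_pow_left (by have := h.card_le; omega) 3)
    have h2 : (P.meas P.init : ℝ) ≤ (P.B : ℝ) ^ 3 := by exact_mod_cast h1
    have h3 : 3 * (P.meas P.init : ℝ) / (P.B : ℝ) ^ 2 ≤ 3 * P.B := by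
      rw [div_le_iff₀ (by positivity)]
      linarith
    have h4 := h.init_valid.2
    unfold KSLoop_Psi
    nlinarith
  have hle : ∀ s : KS E, P.Phi s ≤ P.KSLoop_Psi s := fun s =>
    le_add_of_nonneg_right (by positivity)
  have h24 : (P.B : ℝ) ^ 2 / 2 ≤ (P.B : ℝ) ^ 4 :=
    (half_le_self (by positivity)).trans (pow_le_pow_right₀ (by linarith) (by norm_num))
  have hpos : 0 ≤ 1 / (P.B : ℝ) ^ 49 := by positivity
  have key : ∀ i : ℕ, P.Valid (step^[i] P.init) ∧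
      P.KSLoop_Psi (step^[i] P.init) ≤ (P.B : ℝ) ^ 2 / 2 ∧ ((step^[i] P.init).al = ∅ ∨
        P.KSLoop_Psi (step^[i] P.init) ≤ (P.B : ℝ) ^ 2 / 2 - i * (1 / (P.B : ℝ) ^ 49)) := by
    intro i
    induction i with
    | zero => exact ⟨h.init_valid.1, h0, Or.inr (by simpa using h0)⟩
    | succ i ih =>
      obtain ⟨a1, a2, a3⟩ := ih
      rw [Function.iterate_succ_apply']
      obtain ⟨b1, ⟨b2, b3⟩ | ⟨b2, b3⟩⟩ :=
        KSLoop_step h a1 ((hle _).trans (a2.trans h24)) (hstep _ a1)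
      · rw [b3]
        exact ⟨a1, a2, Or.inl b2⟩
      · refine ⟨b1, by linarith, Or.inr ?_⟩
        have a4 := a3.resolve_left b2.ne_empty
        push_cast
        linarith
  refine ⟨fun i => (key i).1, (key _).2.2.resolve_right fun h1 => ?_⟩
  have h2 := (key (P.B ^ 51)).1.Phi_nonneg.trans ((hle _).trans h1)
  have h3 : ((P.B ^ 51 : ℕ) : ℝ) * (1 / (P.B : ℝ) ^ 49) = (P.B : ℝ) ^ 2 := by
    push_cast
    field_simp
  have h4 : 0 < (P.B : ℝ) ^ 2 := by positivity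
  linarith

end KP
end Crest.Agent.R37
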