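import Crest.Agent.R37.MatInv
import Crest.Agent.R37.Oracle
import Crest.Agent.R37.KSBasic

set_option autoImplicit false
open Finset Matrix Crest.CombinatoricsR.Multigraph
open Crest.Agent.Lib.PolyTime
open scoped Classical

noncomputable section
namespace Crest.Agent.R37
variable {α α' : Type} [PEnc α] [PEnc α'] {n m : α → ℕ}

/-- A polynomial-time family of inputs of the walk. -/
structure PK (P : ∀ a, KP (Fin (n a)) (Fin (m a))) : Prop where
  G : PG fun a => (P a).G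
  p : Poly fun a => (P a).p
  pb : PB fun a => (P a).p
  Z : Poly fun a => (P a).Z
  Zb : PB fun a => (P a).Z
  k : Poly fun a => (P a).k
  F : DP fun a => (P a).F
  Q : PRM fun a => (P a).Q

namespace PK
variable {P : ∀ a, KP (Fin (n a)) (Fin (m a))} {s : ∀ a, KS (Fin (m a))}

theorem comp (h : PK P) {u : α' → α} (hu : Poly u) : PK fun b => P (u b) :=
  ⟨h.G.comp hu, h.p.comp hu, h.pb.comp hu, h.Z.comp hu, h.Zb.comp hu, h.k.comp hu, h.F.comp hu,
    h.Q.comp hu⟩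

theorem B (h : PK P) : (Poly fun a => (P a).B) ∧ PB fun a => (P a).B := by
  have e : ∀ a, 2 * (P a).p * (n a + m a + (P a).Z + 2) = (P a).B := fun a => by simp [KP.B]
  refine ⟨(((poly_const 2).mul h.p).mul
    (((h.G.np.add h.G.mp).add h.Z).add (poly_const 2))).congr e, ?_⟩
  have := ((PB.const 2).mul h.pb).mul (((h.G.nb.add h.G.mb).add h.Zb).add (PB.const 2))
  simpa only [e] using this

theorem N (h : PK P) : (Poly fun a => (P a).N) ∧ PB fun a => (P a).N :=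
  ⟨h.B.1.pow (poly_const 63) (PB.const 63), h.B.2.pow 63⟩

theorem zz (h : PK P) : (Poly fun a => (P a).zz) ∧ PB fun a => (P a).zz :=
  ⟨h.B.1.pow (poly_const 52) (PB.const 52), h.B.2.pow 52⟩

theorem KK (h : PK P) : Poly fun a => (P a).KK := h.k.mul h.N.1

theorem init (h : PK P) : DP fun a => (P a).init := by
  have hm : Poly fun q : Σ a, Fin (m a) => decide (q.2 ∈ (P q.1).F) :=
    (h.F.comp poly_fst).mem DP.snd
  have hN : Poly fun q : Σ a, Fin (m a) => (P q.1).N := h.N.1.comp poly_fst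
  have hp : Poly fun q : Σ a, Fin (m a) => (P q.1).p := h.p.comp poly_fst
  exact DP.ks_mk h.F
    (DP.fn' h.G.mp h.G.mb (Poly.ite hm (hN.div (poly_const 2)) (poly_const 0)))
    (DP.fn' h.G.mp h.G.mb (Poly.ite hm
      ((hN.div (poly_const 2)).add (((poly_const 2).mul hN).div hp)) (poly_const 0)))

theorem out (h : PK P) (hs : DP s) : DP fun a => (P a).out (s a) := by
  have hy : Poly fun q : Σ a, Fin (m a) => (s q.1).y q.2 :=
    ((hs.ks_y.comp poly_fst).app DP.snd).poly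
  refine DP.set h.G.mp h.G.mb (Poly.decide_congr (hy.decide_eq (h.N.1.comp poly_fst)) fun q => ?_)
  simp [KP.out]

theorem pay (h : PK P) (hs : DP s) {e : ∀ a, Fin (m a)} (he : DP e) :
    DP fun a => (P a).pay (s a) (e a) := by
  have hy : Poly fun q : Σ a, Fin (m a) => (s q.1).y q.2 :=
    ((hs.ks_y.comp poly_fst).app DP.snd).poly
  have hq : Poly fun q : Σ a, Fin (m a) => decide (q.2 = e q.1) :=
    DP.snd.decide_eq (he.comp poly_fst)
  refine DP.ks_mk (DP.erase h.G.mp h.G.mb hs.ks_al he) (DP.fn' h.G.mp h.G.mb ?_) hs.ks_t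
  exact (Poly.ite hq (h.N.1.comp poly_fst) hy).congr fun q => by rw [Function.update_apply]

theorem exSt (h : PK P) (hs : DP s) {e : ∀ a, Option (Fin (m a))} {f : ∀ a, Fin (m a)}
    {c : α → ℕ} (he : DP e) (hf : DP f) (hc : Poly c) :
    DP fun a => (P a).exSt (s a) (e a) (f a) (c a) :=
  DP.ks_mk (DP.ite (hc.decide_eq (hs.ks_y.app hf).poly) (DP.erase h.G.mp h.G.mb hs.ks_al hf)
    hs.ks_al) (DP.exch h.G.mp h.G.mb hs.ks_y he hf.some hc) hs.ks_t

/-! ### Auxiliary families -/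

theorem KSPa_sum (hm : Poly m) (hb : PB m) {S : ∀ a, Finset (Fin (m a))} (hS : DP S)
    {F : ∀ a, Fin (m a) → ℝ} (hF : PR fun q : Σ a, Fin (m a) => F q.1 q.2) :
    PR fun a => ∑ e ∈ S a, F a e :=
  (PR.sum_fin (F := fun a e => if e ∈ S a then F a e else 0) hm hb
    (PR.ite ((hS.comp poly_fst).mem DP.snd) hF PR.zero)).congr fun _ => (sum_mem_eq _ _).symm

theorem KSPa_sumZ (hm : Poly m) (hb : PB m) {S : ∀ a, Finset (Fin (m a))} (hS : DP S)
    {F : ∀ a, Fin (m a) → ℤ} (hF : Poly fun q : Σ a, Fin (m a) => F q.1 q.2) :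
    Poly fun a => ∑ e ∈ S a, F a e :=
  (Poly.sum_fin (f := fun a e => if e ∈ S a then F a e else 0) hm hb
    (Poly.ite ((hS.comp poly_fst).mem DP.snd) hF (poly_const 0))).congr
    fun _ => (sum_mem_eq _ _).symm

theorem KSPa_sq {f : α → ℝ} (hf : PR f) : PR fun a => f a ^ 2 :=
  hf.pow (poly_const 2) (PB.const 2)

theorem KSPa_ell {b t : α → ℝ} (hb : PR b) (ht : PR t) : PR fun a => ell (b a) (t a) :=
  ht.add ((hb.mul ht).mul (PR.one.sub ht))

theorem KSPa_ell' {b t : α → ℝ} (hb : PR b) (ht : PR t) : PR fun a => ell' (b a) (t a) :=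
  PR.one.add (hb.mul (PR.one.sub ((PR.ofNat 2).mul ht)))

theorem KSPa_r0 (h : PK P) : PR fun a => (P a).r0 := PR.one.div (PR.natCast h.p)

theorem KSPa_bb (h : PK P) : PR fun a => (P a).bb := (PR.ofNat 400).div (PR.natCast h.p)

theorem KSPa_eps (h : PK P) : PR fun a => (P a).eps :=
  PR.one.div ((PR.natCast h.B.1).pow (poly_const 23) (PB.const 23))

theorem KSPa_lam (h : PK P) : PR fun a => (P a).lam :=
  PR.one.div ((PR.natCast h.B.1).pow (poly_const 86) (PB.const 86))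

theorem KSPa_y (h : PK P) (hs : DP s) {e : ∀ a, Fin (m a)} (he : DP e) :
    PR fun a => ((s a).y (e a) : ℝ) / (P a).N :=
  (PR.natCast (hs.ks_y.app he).poly).div (PR.natCast h.N.1)

theorem KSPa_t (h : PK P) (hs : DP s) {e : ∀ a, Fin (m a)} (he : DP e) :
    PR fun a => ((s a).t (e a) : ℝ) / (P a).N :=
  (PR.natCast (hs.ks_t.app he).poly).div (PR.natCast h.N.1)

theorem KSPa_U (h : PK P) : PRM fun a => (P a).U := by
  have h' : PK fun q : Σ a, Fin (m a) => P q.1 := h.comp poly_fst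
  refine (PRM.smul h.KSPa_r0 h.Q).add (h.G.lap (PRV.of_pr h.G.mp h.G.mb ?_))
  exact PR.ite (h'.F.mem DP.snd) (KSPa_ell h'.KSPa_bb
    ((PR.one.div (PR.ofNat 2)).add ((PR.ofNat 2).div (PR.natCast h'.p)))) PR.zero

theorem KSPa_cc (h : PK P) (hs : DP s) : PRV fun a => (P a).cc (s a) := by
  have h' : PK fun q : Σ a, Fin (m a) => P q.1 := h.comp poly_fst
  have hs' : DP fun q : Σ a, Fin (m a) => s q.1 := hs.comp poly_fst
  refine PRV.of_pr h.G.mp h.G.mb ?_
  exact PR.ite (hs'.ks_al.mem DP.snd) (KSPa_ell h'.KSPa_bb (h'.KSPa_t hs' DP.snd))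
    (h'.KSPa_y hs' DP.snd)

theorem KSPa_Pm (h : PK P) (hs : DP s) : PRM fun a => (P a).Pm (s a) :=
  h.KSPa_U.sub (h.G.lap (h.KSPa_cc hs))

theorem KSPa_Pi (h : PK P) (hs : DP s) : PRM fun a => ((P a).Pm (s a))⁻¹ :=
  PRM.inv h.G.np h.G.nb (h.KSPa_Pm hs)

theorem KSPa_Gm (h : PK P) (hs : DP s) {e f : ∀ a, Fin (m a)} (he : DP e) (hf : DP f) :
    PR fun a => (P a).Gm (s a) (e a) (f a) := h.G.form (h.KSPa_Pi hs) he hf

theorem KSPa_sl (h : PK P) (hs : DP s) {e : ∀ a, Fin (m a)} (he : DP e) :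
    PR fun a => (P a).sl (s a) (e a) :=
  (h.KSPa_r0.mul ((h.KSPa_t hs he).sub (h.KSPa_y hs he))).sub (h.KSPa_Gm hs he he)

theorem Phi (h : PK P) (hs : DP s) : PR fun a => (P a).Phi (s a) :=
  (KSPa_sum h.G.mp h.G.mb hs.ks_al (F := fun a e => 1 / (P a).sl (s a) e)
    (PR.one.div ((h.comp poly_fst).KSPa_sl (hs.comp poly_fst) DP.snd))).add
    (PRM.trace h.G.np h.G.nb (h.KSPa_Pi hs))

theorem KSPa_Km (h : PK P) (hs : DP s) {f g : ∀ a, Fin (m a)} (hf : DP f) (hg : DP g) :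
    PR fun a => (P a).Km (s a) (f a) (g a) := by
  have h' : PK fun q : Σ a, Fin (m a) => P q.1 := h.comp poly_fst
  have hs' : DP fun q : Σ a, Fin (m a) => s q.1 := hs.comp poly_fst
  have hM := h.KSPa_Pi hs
  exact (KSPa_sum h.G.mp h.G.mb hs.ks_al
    (F := fun a e => (P a).Gm (s a) e (f a) * (P a).Gm (s a) e (g a) / (P a).sl (s a) e ^ 2)
    (((h'.KSPa_Gm hs' DP.snd (hf.comp poly_fst)).mul
      (h'.KSPa_Gm hs' DP.snd (hg.comp poly_fst))).div (KSPa_sq (h'.KSPa_sl hs' DP.snd)))).add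
    (PRV.dot h.G.np h.G.nb (hM.mulVec h.G.np h.G.nb h.G.np h.G.nb (h.G.b hf))
      (hM.mulVec h.G.np h.G.nb h.G.np h.G.nb (h.G.b hg)))

theorem KSPa_eta (h : PK P) (hs : DP s) {τ : ∀ a, Fin (m a) → ℝ} (hτ : PRV τ)
    {f : ∀ a, Fin (m a)} (hf : DP f) : PR fun a => (P a).eta (s a) (τ a) (f a) :=
  (KSPa_ell' h.KSPa_bb (h.KSPa_t hs hf)).mul (hτ.app hf)

theorem KSPa_hv (h : PK P) (hs : DP s) {τ : ∀ a, Fin (m a) → ℝ} (hτ : PRV τ)
    {e : ∀ a, Fin (m a)} (he : DP e) : PR fun a => (P a).hv (s a) (τ a) (e a) := by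
  have h' : PK fun q : Σ a, Fin (m a) => P q.1 := h.comp poly_fst
  have hs' : DP fun q : Σ a, Fin (m a) => s q.1 := hs.comp poly_fst
  exact (hτ.app he).sub ((KSPa_sum h.G.mp h.G.mb hs.ks_al
    (F := fun a f => (P a).Gm (s a) (e a) f ^ 2 * (P a).eta (s a) (τ a) f)
    ((KSPa_sq (h'.KSPa_Gm hs' (he.comp poly_fst) DP.snd)).mul
      (h'.KSPa_eta hs' (hτ.comp poly_fst) DP.snd))).div h.KSPa_r0)

theorem KSPa_fl (h : PK P) (hs : DP s) {τ : ∀ a, Fin (m a) → ℝ} (hτ : PRV τ)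
    {e : ∀ a, Fin (m a)} (he : DP e) : Poly fun a => (P a).fl (s a) (τ a) (e a) :=
  (((PR.natCast h.N.1).mul h.KSPa_eps).mul (h.KSPa_hv hs hτ he)).floor

theorem KSPa_memO {S : ∀ a, Finset (Fin (m a))} (hS : DP S) {e : ∀ a, Option (Fin (m a))}
    (he : DP e) : Poly fun a => decide (memO (S a) (e a)) := by
  have h1 : DP fun a => (e a).elim true fun g => decide (g ∈ S a) :=
    he.optionElim (γ := fun _ => Bool) (DP.of_poly (poly_const true))
      (g := fun a g => decide (g ∈ S a)) (DP.of_poly ((hS.comp poly_fst).mem DP.snd))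
  refine h1.poly.decide_of_iff fun a => ?_
  cases e a <;> simp [memO]

/-- On valid states the class relation between alive elements is decidable. -/
theorem same (h : PK P) (hs : DP s) (hv : ∀ a, (P a).Valid (s a)) {e f : ∀ a, Option (Fin (m a))}
    (he : DP e) (hf : DP f) :
    Poly fun a => decide (memO (s a).al (e a) ∧ memO (s a).al (f a) ∧
      (P a).G.Same (P a).KK (s a).y (e a) (f a)) := by
  have h1 := h.G.decide_pc h.KK (DP.exch h.G.mp h.G.mb hs.ks_y he hf (poly_const 1))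
  have h2 := h.G.decide_pc h.KK (DP.exch h.G.mp h.G.mb hs.ks_y hf he (poly_const 1))
  have h3 := (KSPa_memO hs.ks_al he).decide_and ((KSPa_memO hs.ks_al hf).decide_and
    ((he.decide_eq hf).decide_or (h1.decide_and h2)))
  refine Poly.decide_congr h3 fun a => and_congr_right fun ha => and_congr_right fun hb => ?_
  refine (MG.same_iff (hv a).pc (fun g hg => ?_) fun g hg => ?_).symm
  · rw [hg] at ha
    exact (hv a).ypos g ha
  · rw [hg] at hb
    exact (hv a).ypos g hb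

theorem reps (h : PK P) (hs : DP s) (hv : ∀ a, (P a).Valid (s a)) :
    ∃ R : ∀ a, Finset (Fin (m a)), DP R ∧ ∀ a, (P a).Reps (s a) (R a) := by
  let R : ∀ a, Finset (Fin (m a)) := fun a => (s a).al.filter fun r =>
    ¬ (P a).G.Same (P a).KK (s a).y (some r) none ∧
      ∀ r' ∈ (s a).al, (P a).G.Same (P a).KK (s a).y (some r) (some r') → r ≤ r'
  refine ⟨R, DP.set h.G.mp h.G.mb ?_, fun a => ⟨fun r hr => ?_, fun e he hn => ?_, ?_⟩⟩
  · have h' : PK fun q : Σ a, Fin (m a) => P q.1 := h.comp poly_fst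
    have hs' : DP fun q : Σ a, Fin (m a) => s q.1 := hs.comp poly_fst
    have h1 := h'.same hs' (fun q => hv q.1) (e := fun q => some q.2) (f := fun _ => none)
      DP.snd.some DP.none
    have h2 := (h'.comp (poly_fst (β := fun q : Σ a, Fin (m a) => Fin (m q.1)))).same
      (hs'.comp poly_fst) (fun q => hv q.1.1) (e := fun q => some q.1.2) (f := fun q => some q.2)
      (DP.snd.comp poly_fst).some DP.snd.some
    have u1 : DP fun q : Σ p : (Σ a, Fin (m a)), Fin (m p.1) => q.1.2 := DP.snd.comp poly_fst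
    have u2 : DP fun q : Σ p : (Σ a, Fin (m a)), Fin (m p.1) => q.2 := DP.snd
    have h3 : Poly fun q : Σ p : (Σ a, Fin (m a)), Fin (m p.1) => decide ((q.1.2 : ℕ) ≤ q.2) :=
      u1.val.decide_le u2.val
    have h4 := Poly.decide_forall_fin (p := fun (q : Σ a, Fin (m a)) (r' : Fin (m q.1)) =>
      (memO (s q.1).al (some q.2) ∧ memO (s q.1).al (some r') ∧
        (P q.1).G.Same (P q.1).KK (s q.1).y (some q.2) (some r')) → (q.2 : ℕ) ≤ r')
      h'.G.mp h'.G.mb (h2.decide_imp h3)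
    refine Poly.decide_congr ((hs'.ks_al.mem DP.snd).decide_and (h1.decide_not.decide_and h4))
      fun q => ?_
    simp only [R, mem_filter, memO, true_and, Fin.le_def]
    refine and_congr_right fun hq => ?_
    simp only [hq, true_and, and_imp]
  · exact ⟨(mem_filter.1 hr).1, (mem_filter.1 hr).2.1⟩
  · obtain ⟨r, hr, hmin⟩ := exists_min_image ((s a).al.filter fun r =>
      (P a).G.Same (P a).KK (s a).y (some r) (some e)) id ⟨e, mem_filter.2 ⟨he, MG.same_refl _⟩⟩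
    obtain ⟨hr1, hr2⟩ := mem_filter.1 hr
    refine ⟨r, mem_filter.2 ⟨hr1, fun h0 => hn (hr2.symm.trans h0), fun r' h1 h2 => ?_⟩, hr2⟩
    exact hmin r' (mem_filter.2 ⟨h1, h2.symm.trans hr2⟩)
  · intro r hr r' hr' h0
    obtain ⟨h1, -, h2⟩ := mem_filter.1 hr
    obtain ⟨h3, -, h4⟩ := mem_filter.1 hr'
    exact le_antisymm (h2 r' h3 h0) (h4 r h1 h0.symm)

/-- The class of an alive edge (and the empty set for a dead edge). -/
theorem KSPa_cls (h : PK P) (hs : DP s) (hv : ∀ a, (P a).Valid (s a)) {e : ∀ a, Fin (m a)}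
    (he : DP e) : DP fun a => if e a ∈ (s a).al then (P a).cls (s a) (e a) else ∅ := by
  have h1 := (h.comp (poly_fst (β := fun a => Fin (m a)))).same (hs.comp poly_fst)
    (fun q => hv q.1) (e := fun q => some (e q.1)) (f := fun q => some q.2)
    (he.comp poly_fst).some DP.snd.some
  refine DP.set h.G.mp h.G.mb (Poly.decide_congr h1 fun q => ?_)
  by_cases hq : e q.1 ∈ (s q.1).al <;> simp [hq, memO, KP.cls]

theorem KSPa_Cm (h : PK P) (hs : DP s) (hv : ∀ a, (P a).Valid (s a))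
    {R : ∀ a, Finset (Fin (m a))} (hR : DP R) (hR' : ∀ a, R a ⊆ (s a).al) :
    PRM fun a => (P a).Cm (s a) (R a) := by
  refine PRM.of_pr h.G.mp h.G.mb h.G.mp h.G.mb ?_
  have u : Poly fun q : Σ p : (Σ a, Fin (m a)), Fin (m p.1) => q.1.1 := poly_fst.comp poly_fst
  have h' := h.comp u
  have hs' := hs.comp u
  have hr : DP fun q : Σ p : (Σ a, Fin (m a)), Fin (m p.1) => q.1.2 := DP.snd.comp poly_fst
  have hτ : PRV fun q : Σ p : (Σ a, Fin (m a)), Fin (m p.1) =>
      (Pi.single q.2 1 : Fin (m q.1.1) → ℝ) := PRV.single h'.G.mp h'.G.mb DP.snd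
  have h1 := KSPa_sum h'.G.mp h'.G.mb (h'.KSPa_cls hs' (fun q => hv q.1.1) hr)
    (F := fun q e => (P q.1.1).hv (s q.1.1) (Pi.single q.2 1) e)
    ((h'.comp poly_fst).KSPa_hv (hs'.comp poly_fst) (hτ.comp poly_fst) DP.snd)
  refine (PR.ite ((hR.comp u).mem hr) h1 PR.zero).congr fun q => ?_
  by_cases hq : q.1.2 ∈ R q.1.1
  · simp only [KP.Cm, Matrix.of_apply, if_pos hq, if_pos (hR' _ hq)]
  · simp only [KP.Cm, Matrix.of_apply, if_neg hq]

theorem KSPa_dl (h : PK P) (hs : DP s) : PRM fun a => (P a).dl (s a) := by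
  have h' : PK fun q : Σ a, Fin (m a) => P q.1 := h.comp poly_fst
  have hs' : DP fun q : Σ a, Fin (m a) => s q.1 := hs.comp poly_fst
  refine PRM.diagonal (PRV.of_pr h.G.mp h.G.mb ?_)
  exact PR.ite (hs'.ks_al.mem DP.snd) (h'.KSPa_Km hs' DP.snd DP.snd).inv PR.zero

theorem KSPa_Pj (h : PK P) (hs : DP s) (hv : ∀ a, (P a).Valid (s a))
    {R : ∀ a, Finset (Fin (m a))} (hR : DP R) (hR' : ∀ a, R a ⊆ (s a).al) :
    PRM fun a => (P a).Pj (s a) (R a) := by
  have hC := h.KSPa_Cm hs hv hR hR'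
  have hD := h.KSPa_dl hs
  have mul : ∀ {M K : ∀ a, Matrix (Fin (m a)) (Fin (m a)) ℝ}, PRM M → PRM K →
      PRM fun a => M a * K a := fun hM hK =>
    PRM.mul h.G.mp h.G.mb h.G.mp h.G.mb h.G.mp h.G.mb hM hK
  exact PRM.one.sub (mul (mul (mul hD hC.transpose) (PRM.inv h.G.mp h.G.mb
    ((mul (mul hC hD) hC.transpose).add (PRM.smul h.KSPa_lam PRM.one)))) hC)

theorem KSPa_tau (h : PK P) (hs : DP s) (hv : ∀ a, (P a).Valid (s a))
    {R : ∀ a, Finset (Fin (m a))} (hR : DP R) (hR' : ∀ a, R a ⊆ (s a).al) {e : ∀ a, Fin (m a)}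
    (he : DP e) (σ : Bool) : PRV fun a => (P a).tau (s a) (R a) (e a) σ := by
  have h1 := ((h.KSPa_Pj hs hv hR hR').comp (poly_fst (β := fun a => Fin (m a)))).app DP.snd
    (he.comp poly_fst)
  refine PRV.of_pr h.G.mp h.G.mb ?_
  cases σ
  · exact (PR.one.neg.mul h1).congr fun q => by simp [KP.tau]
  · exact (PR.one.mul h1).congr fun q => by simp [KP.tau]

theorem KSPa_move (h : PK P) (hs : DP s) (hv : ∀ a, (P a).Valid (s a))
    {R : ∀ a, Finset (Fin (m a))} (hR : DP R) {τ : ∀ a, Fin (m a) → ℝ} (hτ : PRV τ) :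
    DP fun a => (P a).move (s a) (R a) (τ a) := by
  have h' : PK fun q : Σ a, Fin (m a) => P q.1 := h.comp poly_fst
  have hs' : DP fun q : Σ a, Fin (m a) => s q.1 := hs.comp poly_fst
  have hτ' : PRV fun q : Σ a, Fin (m a) => τ q.1 := hτ.comp poly_fst
  have hal := hs'.ks_al.mem DP.snd
  have hy := (hs'.ks_y.app DP.snd).poly
  have ht := (hs'.ks_t.app DP.snd).poly
  refine DP.ks_mk hs.ks_al (DP.fn' h.G.mp h.G.mb ?_) (DP.fn' h.G.mp h.G.mb ?_)
  · have h1 := KSPa_sumZ h'.G.mp h'.G.mb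
      (DP.erase h'.G.mp h'.G.mb (h'.KSPa_cls hs' (fun q => hv q.1) DP.snd) DP.snd)
      (F := fun q f => (P q.1).fl (s q.1) (τ q.1) f)
      ((h'.comp poly_fst).KSPa_fl (hs'.comp poly_fst) (hτ'.comp poly_fst) DP.snd)
    refine (Poly.ite hal (Poly.ite ((hR.comp poly_fst).mem DP.snd)
      (hy.natCastInt.intSub h1).toNat
      (hy.natCastInt.intAdd (h'.KSPa_fl hs' hτ' DP.snd)).toNat) hy).congr fun q => ?_
    by_cases hq : q.2 ∈ (s q.1).al
    · simp only [if_pos hq]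
    · simp only [if_neg hq]
  · exact Poly.ite hal (ht.natCastInt.intAdd
      (((PR.natCast h'.N.1).mul h'.KSPa_eps).mul (hτ'.app DP.snd)).floor).toNat ht

theorem move (h : PK P) (hs : DP s) (hv : ∀ a, (P a).Valid (s a)) {R : ∀ a, Finset (Fin (m a))}
    (hR : DP R) (hR' : ∀ a, R a ⊆ (s a).al) {e : ∀ a, Fin (m a)} (he : DP e) (σ : Bool) :
    DP fun a => (P a).move (s a) (R a) ((P a).tau (s a) (R a) (e a) σ) :=
  h.KSPa_move hs hv hR (h.KSPa_tau hs hv hR hR' he σ)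

end PK
end Crest.Agent.R37
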