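import Crest.Agent.R37.KSPa
import Crest.Agent.R37.KSLoop

set_option autoImplicit false
open Finset Matrix Crest.CombinatoricsR.Multigraph
open Crest.Agent.Lib.PolyTime
open scoped Classical

noncomputable section
namespace Crest.Agent.R37
variable {α : Type} [PEnc α] {n m : α → ℕ} {P : ∀ a, KP (Fin (n a)) (Fin (m a))}

/-- Choose an index with a decidable property that is known to exist. -/
theorem KSPb_choose {k : α → ℕ} (hn : Poly k) (hb : PB k) {p : ∀ a, Fin (k a) → Prop}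
    [∀ x : Σ a, Fin (k a), Decidable (p x.1 x.2)]
    (hp : Poly fun x : Σ a, Fin (k a) => decide (p x.1 x.2)) (hex : ∀ a, ∃ i, p a i) :
    ∃ i : ∀ a, Fin (k a), DP i ∧ ∀ a, p a (i a) := by
  refine DP.search (β := fun a => Fin (k a)) hn hb hp (R := p)
    ⟨fun x => x.1.2, DP.snd.restrict _, fun x => x.2⟩ ?_
  have hf : ∀ a : {a // ∀ i, ¬ p a i}, False := fun a => by
    obtain ⟨i, hi⟩ := hex a.1
    exact a.2 i hi
  exact ⟨fun a => (hf a).elim, Poly.congr (Poly.id'.enc') fun a => (hf a).elim,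
    fun a => (hf a).elim⟩

/-- Index of an optional edge. -/
def KSPb_opt {k : ℕ} (i : Fin (k + 1)) : Option (Fin k) :=
  if h : (i : ℕ) < k then some ⟨i, h⟩ else none

theorem KSPb_opt_surj {k : ℕ} (e : Option (Fin k)) : ∃ i, KSPb_opt i = e := by
  rcases e with _ | e
  · exact ⟨Fin.last k, by simp [KSPb_opt]⟩
  · exact ⟨e.castSucc, by simp [KSPb_opt]⟩

theorem KSPb_opt_dp (hm : Poly m) {i : ∀ a, Fin (m a + 1)} (hi : DP i) :
    DP fun a => KSPb_opt (i a) := by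
  refine DP.dite (β := fun a => Option (Fin (m a))) (p := fun a => (i a : ℕ) < m a)
    (hi.val.decide_lt hm) (f := fun a h => some ⟨i a, h⟩) (g := fun _ _ => none) ?_ DP.none
  refine DP.some (β := fun a : {a // (i a : ℕ) < m a} => Fin (m a.1)) (DP.fin_iff.2 ?_)
  exact hi.val.comp poly_val

/-- The exchange stops at `c`. -/
def KSPb_cnd {n m : ℕ} (P : KP (Fin n) (Fin m)) (s : KS (Fin m)) (e : Option (Fin m)) (f : Fin m)
    (c : ℕ) : Prop :=
  c = s.y f ∨ ¬ P.G.PC P.KK (exch s.y e (some f) (c + 1))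

/-- The exchange stops at `c` for the first time. -/
def KSPb_stop {n m : ℕ} (P : KP (Fin n) (Fin m)) (s : KS (Fin m)) (e : Option (Fin m)) (f : Fin m)
    (c : ℕ) : Prop :=
  (memO s.al e ∧ memO s.al (some f) ∧ P.G.Same P.KK s.y e (some f)) ∧ ¬ e = some f ∧
    KSPb_cnd P s e f c ∧ ∀ c' < c, ¬ KSPb_cnd P s e f c'

theorem KSPb_cnd_dec (h : PK P) {s : ∀ a, KS (Fin (m a))} (hs : DP s)
    {e : ∀ a, Option (Fin (m a))} {f : ∀ a, Fin (m a)} {c : α → ℕ} (he : DP e) (hf : DP f)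
    (hc : Poly c) : Poly fun a => decide (KSPb_cnd (P a) (s a) (e a) (f a) (c a)) := by
  have h1 : Poly fun a => decide (c a = (s a).y (f a)) := hc.decide_eq (hs.ks_y.app hf).poly
  have h2 := h.G.decide_pc h.KK
    (DP.exch h.G.mp h.G.mb hs.ks_y he hf.some (hc.add (poly_const 1)))
  exact Poly.decide_congr (h1.decide_or h2.decide_not) fun _ => Iff.rfl

theorem KSPb_stop_dec (h : PK P) {s : ∀ a, KS (Fin (m a))} (hs : DP s)
    (hv : ∀ a, (P a).Valid (s a))
    {e : ∀ a, Option (Fin (m a))} {f : ∀ a, Fin (m a)} {c : α → ℕ} (he : DP e) (hf : DP f)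
    (hc : Poly c) (hb : PB c) : Poly fun a => decide (KSPb_stop (P a) (s a) (e a) (f a) (c a)) := by
  have h1 := h.same hs hv he hf.some
  have h2 := (he.decide_eq hf.some).decide_not
  have h3 := KSPb_cnd_dec h hs he hf hc
  have hx : Poly fun x : α × ℕ => x.1 := Poly.id'.fst
  have h4 : Poly fun x : α × ℕ => decide (¬ KSPb_cnd (P x.1) (s x.1) (e x.1) (f x.1) x.2) :=
    (KSPb_cnd_dec (h.comp hx) (hs.comp hx) (he.comp hx) (hf.comp hx) Poly.id'.snd).decide_not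
  have h5 := Poly.decide_forall_lt (p := fun a c' => ¬ KSPb_cnd (P a) (s a) (e a) (f a) c') hc hb h4
  exact Poly.decide_congr (h1.decide_and (h2.decide_and (h3.decide_and h5))) fun _ => Iff.rfl

/-- The candidate `(e, σ)` minimises the potential. -/
def KSPb_min {n m : ℕ} (P : KP (Fin n) (Fin m)) (s : KS (Fin m)) (R : Finset (Fin m)) (σ : Bool)
    (e : Fin m) : Prop :=
  e ∈ s.al ∧ ∀ e', e' ∈ s.al →
    P.Phi (P.move s R (P.tau s R e σ)) ≤ P.Phi (P.move s R (P.tau s R e' true)) ∧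
    P.Phi (P.move s R (P.tau s R e σ)) ≤ P.Phi (P.move s R (P.tau s R e' false))

theorem KSPb_min_dec (h : PK P) {s : ∀ a, KS (Fin (m a))} (hs : DP s)
    (hv : ∀ a, (P a).Valid (s a)) {R : ∀ a, Finset (Fin (m a))} (hR : DP R)
    (hR' : ∀ a, R a ⊆ (s a).al) (σ : Bool) {e : ∀ a, Fin (m a)} (he : DP e) :
    Poly fun a => decide (KSPb_min (P a) (s a) (R a) σ (e a)) := by
  have h1 := hs.ks_al.mem he
  have hx : Poly fun x : Σ a, Fin (m a) => x.1 := poly_fst
  have h' := h.comp hx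
  have key : ∀ (τ : Bool) {g : ∀ x : Σ a, Fin (m a), Fin (m x.1)}, DP g →
      PR fun x : Σ a, Fin (m a) =>
        (P x.1).Phi ((P x.1).move (s x.1) (R x.1) ((P x.1).tau (s x.1) (R x.1) (g x) τ)) :=
    fun τ g hg => h'.Phi (h'.move (hs.comp hx) (fun x => hv x.1) (hR.comp hx)
      (fun x => hR' x.1) hg τ)
  have h2 := (key σ (he.comp hx)).decide_le (key true DP.snd)
  have h3 := (key σ (he.comp hx)).decide_le (key false DP.snd)
  have h4 := ((hs.comp hx).ks_al.mem DP.snd).decide_imp (h2.decide_and h3)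
  have h5 := Poly.decide_forall_fin (p := fun a e' => e' ∈ (s a).al →
    (P a).Phi ((P a).move (s a) (R a) ((P a).tau (s a) (R a) (e a) σ)) ≤
      (P a).Phi ((P a).move (s a) (R a) ((P a).tau (s a) (R a) e' true)) ∧
    (P a).Phi ((P a).move (s a) (R a) ((P a).tau (s a) (R a) (e a) σ)) ≤
      (P a).Phi ((P a).move (s a) (R a) ((P a).tau (s a) (R a) e' false))) h.G.mp h.G.mb
    (h4.congr fun _ => decide_eq_decide.2 Iff.rfl)
  exact Poly.decide_congr (h1.decide_and h5) fun _ => Iff.rfl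

theorem KSPb_min_ex {n m : ℕ} (P : KP (Fin n) (Fin m)) (s : KS (Fin m)) (R : Finset (Fin m))
    (hal : ∃ e, e ∈ s.al) (hn : ¬ ∃ e, KSPb_min P s R true e) : ∃ e, KSPb_min P s R false e := by
  obtain ⟨e₀, he₀⟩ := hal
  obtain ⟨⟨e, σ⟩, hq, hmin⟩ := Finset.exists_min_image (s.al ×ˢ (univ : Finset Bool))
    (fun q => P.Phi (P.move s R (P.tau s R q.1 q.2))) ⟨(e₀, true), by simpa using he₀⟩
  have he : e ∈ s.al := by simpa using hq
  have : KSPb_min P s R σ e := ⟨he, fun e' he' =>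
    ⟨hmin (e', true) (by simpa using he'), hmin (e', false) (by simpa using he')⟩⟩
  cases σ
  · exact ⟨e, this⟩
  · exact absurd ⟨e, this⟩ hn

theorem KSPb_move (h : PK P) {s : ∀ a, KS (Fin (m a))} (hs : DP s)
    (hv : ∀ a, (P a).Valid (s a)) (hnp : ∀ a, (P a).NoPay (s a)) (hnx : ∀ a, (P a).NoEx (s a))
    {R : ∀ a, Finset (Fin (m a))} (hR : DP R) (hR' : ∀ a, (P a).Reps (s a) (R a)) (σ : Bool)
    (hex : ∀ a, ∃ e, KSPb_min (P a) (s a) (R a) σ e) :
    ∃ s' : ∀ a, KS (Fin (m a)), DP s' ∧ ∀ a, (P a).Next (s a) (s' a) := by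
  have hsub : ∀ a, R a ⊆ (s a).al := fun a r hr => ((hR' a).mem r hr).1
  have hx : Poly fun x : Σ a, Fin (m a) => x.1 := poly_fst
  obtain ⟨e, he, hmin⟩ := KSPb_choose (p := fun a e => KSPb_min (P a) (s a) (R a) σ e)
    h.G.mp h.G.mb (KSPb_min_dec (h.comp hx) (hs.comp hx) (fun x => hv x.1) (hR.comp hx)
      (fun x => hsub x.1) σ DP.snd) hex
  refine ⟨_, h.move hs hv hR hsub he σ, fun a => ?_⟩
  refine .inr (.inr (.inr ⟨hnp a, hnx a, R a, hR' a, e a, (hmin a).1, σ, rfl, fun e' he' σ' => ?_⟩))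
  cases σ'
  · exact ((hmin a).2 e' he').2
  · exact ((hmin a).2 e' he').1

theorem KSPb_stage3 (h : PK P) {s : ∀ a, KS (Fin (m a))} (hs : DP s)
    (hv : ∀ a, (P a).Valid (s a)) (hnp : ∀ a, (P a).NoPay (s a)) (hnx : ∀ a, (P a).NoEx (s a)) :
    ∃ s' : ∀ a, KS (Fin (m a)), DP s' ∧ ∀ a, (P a).Next (s a) (s' a) := by
  obtain ⟨R, hR, hR'⟩ := h.reps hs hv
  have hsub : ∀ a, R a ⊆ (s a).al := fun a r hr => ((hR' a).mem r hr).1
  have hx : Poly fun x : Σ a, Fin (m a) => x.1 := poly_fst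
  have hc1 : Poly fun a => decide (∃ e, KSPb_min (P a) (s a) (R a) true e) :=
    Poly.decide_exists_fin (p := fun a e => KSPb_min (P a) (s a) (R a) true e) h.G.mp h.G.mb
      (KSPb_min_dec (h.comp hx) (hs.comp hx) (fun x => hv x.1) (hR.comp hx)
        (fun x => hsub x.1) true DP.snd)
  have hc2 : Poly fun a => decide (∃ e, e ∈ (s a).al) :=
    Poly.decide_exists_fin (p := fun a e => e ∈ (s a).al) h.G.mp h.G.mb
      ((hs.comp hx).ks_al.mem DP.snd)
  refine DP.cases (R := fun a s' => (P a).Next (s a) s') hc1 ?_ ?_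
  · exact KSPb_move (h.comp poly_val) (hs.restrict _) (fun a => hv a.1) (fun a => hnp a.1)
      (fun a => hnx a.1) (hR.restrict _) (fun a => hR' a.1) true fun a => a.2
  · refine DP.cases
      (β := fun a : {a // ¬ ∃ e, KSPb_min (P a) (s a) (R a) true e} => KS (Fin (m a.1)))
      (R := fun a s' => (P a.1).Next (s a.1) s') (hc2.comp poly_val) ?_ ?_
    · have hw : Poly fun a : {a : {a // ¬ ∃ e, KSPb_min (P a) (s a) (R a) true e} //
          ∃ e, e ∈ (s a.1).al} => a.1.1 := poly_val.comp poly_val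
      exact KSPb_move (h.comp hw) (hs.comp hw) (fun a => hv a.1.1) (fun a => hnp a.1.1)
        (fun a => hnx a.1.1) (hR.comp hw) (fun a => hR' a.1.1) false
        fun a => KSPb_min_ex _ _ _ a.2 a.1.2
    · refine ⟨fun a => s a.1.1, (hs.restrict _).restrict _, fun a => .inl ⟨?_, rfl⟩⟩
      exact Finset.eq_empty_of_forall_notMem fun e he => a.2 ⟨e, he⟩

theorem KSPb_ex (h : PK P) {s : ∀ a, KS (Fin (m a))} (hs : DP s)
    (hv : ∀ a, (P a).Valid (s a)) :
    (Poly fun a => decide (∃ i : Fin (m a + 1), ∃ f : Fin (m a), ∃ c : Fin (P a).zz,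
      KSPb_stop (P a) (s a) (KSPb_opt i) f c)) ∧
    ((∀ a, ∃ i : Fin (m a + 1), ∃ f : Fin (m a), ∃ c : Fin (P a).zz,
      KSPb_stop (P a) (s a) (KSPb_opt i) f c) →
      ∃ s' : ∀ a, KS (Fin (m a)), DP s' ∧ ∀ a, (P a).Next (s a) (s' a)) := by
  have A : ∀ {β : Type} [PEnc β] {u : β → α} (_ : Poly u) {e : ∀ b, Option (Fin (m (u b)))}
      {f : ∀ b, Fin (m (u b))}, DP e → DP f →
      Poly fun x : Σ b, Fin (P (u b)).zz =>
        decide (KSPb_stop (P (u x.1)) (s (u x.1)) (e x.1) (f x.1) x.2) := by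
    intro β _ u hu e f he hf
    have hx : Poly fun x : Σ b, Fin (P (u b)).zz => x.1 := poly_fst
    exact KSPb_stop_dec (h.comp (hu.comp hx)) (hs.comp (hu.comp hx)) (fun x => hv _)
      (he.comp hx) (hf.comp hx) (DP.snd (β := fun b => Fin (P (u b)).zz)).val
      ((h.zz.2.comp (hu.comp hx)).mono fun x => x.2.2.le)
  have B : ∀ {β : Type} [PEnc β] {u : β → α} (_ : Poly u) {e : ∀ b, Option (Fin (m (u b)))},
      DP e → Poly fun x : Σ b, Fin (m (u b)) => decide (∃ c : Fin (P (u x.1)).zz,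
        KSPb_stop (P (u x.1)) (s (u x.1)) (e x.1) x.2 c) := by
    intro β _ u hu e he
    have hx : Poly fun x : Σ b, Fin (m (u b)) => x.1 := poly_fst
    exact Poly.decide_exists_fin
      (p := fun (x : Σ b, Fin (m (u b))) (c : Fin (P (u x.1)).zz) =>
        KSPb_stop (P (u x.1)) (s (u x.1)) (e x.1) x.2 c)
      (h.zz.1.comp (hu.comp hx)) (h.zz.2.comp (hu.comp hx)) (A (hu.comp hx) (he.comp hx) DP.snd)
  have hx : Poly fun x : Σ a, Fin (m a + 1) => x.1 := poly_fst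
  have C : Poly fun x : Σ a, Fin (m a + 1) => decide (∃ f : Fin (m x.1), ∃ c : Fin (P x.1).zz,
      KSPb_stop (P x.1) (s x.1) (KSPb_opt x.2) f c) :=
    Poly.decide_exists_fin
      (p := fun (x : Σ a, Fin (m a + 1)) (f : Fin (m x.1)) => ∃ c : Fin (P x.1).zz,
        KSPb_stop (P x.1) (s x.1) (KSPb_opt x.2) f c)
      (h.G.mp.comp hx) (h.G.mb.comp hx) (B hx (KSPb_opt_dp (h.G.mp.comp hx) DP.snd))
  have hm1 : Poly fun a => m a + 1 := h.G.mp.add (poly_const 1)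
  have hm2 : PB fun a => m a + 1 := h.G.mb.add (PB.const 1)
  refine ⟨Poly.decide_exists_fin
    (p := fun a (i : Fin (m a + 1)) => ∃ f : Fin (m a), ∃ c : Fin (P a).zz,
      KSPb_stop (P a) (s a) (KSPb_opt i) f c) hm1 hm2 C, fun hex => ?_⟩
  obtain ⟨i, hi, hex⟩ := KSPb_choose
    (p := fun a (i : Fin (m a + 1)) => ∃ f : Fin (m a), ∃ c : Fin (P a).zz,
      KSPb_stop (P a) (s a) (KSPb_opt i) f c) hm1 hm2 C hex
  have he := KSPb_opt_dp h.G.mp hi
  obtain ⟨f, hf, hex⟩ := KSPb_choose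
    (p := fun a (f : Fin (m a)) => ∃ c : Fin (P a).zz,
      KSPb_stop (P a) (s a) (KSPb_opt (i a)) f c) h.G.mp h.G.mb (B Poly.id' he) hex
  obtain ⟨c, hc, hex⟩ := KSPb_choose
    (p := fun a (c : Fin (P a).zz) => KSPb_stop (P a) (s a) (KSPb_opt (i a)) (f a) c)
    h.zz.1 h.zz.2 (A Poly.id' he hf) hex
  refine ⟨_, h.exSt hs he hf hc.val, fun a => .inr (.inr (.inl ⟨_, _, _, ?_, rfl⟩))⟩
  obtain ⟨⟨h1, h2, h3⟩, h4, h5, h6⟩ := hex a
  exact KP.exOK_of_not (hv a) h1 h2 h4 h3 (c a).2 h5 h6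

theorem KSPb_noEx {n m : ℕ} {P : KP (Fin n) (Fin m)} {s : KS (Fin m)} (hp : P.Pre)
    (hv : P.Valid s) (hn : ¬ ∃ i : Fin (m + 1), ∃ f : Fin m, ∃ c : Fin P.zz,
      KSPb_stop P s (KSPb_opt i) f c) : P.NoEx s := by
  refine KP.noEx_of_forall hp hv fun e he f hf hne hs c hc hcnd => hn ?_
  obtain ⟨i, rfl⟩ := KSPb_opt_surj e
  have hex : ∃ c, KSPb_cnd P s (KSPb_opt i) f c := ⟨c, hcnd⟩
  exact ⟨i, f, ⟨Nat.find hex, (Nat.find_min' hex hcnd).trans_lt hc⟩, ⟨he, hf, hs⟩, hne,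
    Nat.find_spec hex, fun c' hc' => Nat.find_min hex hc'⟩

theorem KSPb_stage2 (h : PK P) (hp : ∀ a, (P a).Pre) {s : ∀ a, KS (Fin (m a))} (hs : DP s)
    (hv : ∀ a, (P a).Valid (s a)) (hnp : ∀ a, (P a).NoPay (s a)) :
    ∃ s' : ∀ a, KS (Fin (m a)), DP s' ∧ ∀ a, (P a).Next (s a) (s' a) := by
  refine DP.cases (R := fun a s' => (P a).Next (s a) s') (KSPb_ex h hs hv).1 ?_ ?_
  · exact (KSPb_ex (h.comp poly_val) (hs.restrict _) fun a => hv a.1).2 fun a => a.2
  · exact KSPb_stage3 (h.comp poly_val) (hs.restrict _) (fun a => hv a.1) (fun a => hnp a.1)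
      fun a => KSPb_noEx (hp a.1) (hv a.1) a.2

/-- One step of the walk. -/
theorem PK.exists_step (h : PK P) (hp : ∀ a, (P a).Pre) {s : ∀ a, KS (Fin (m a))} (hs : DP s)
    (hv : ∀ a, (P a).Valid (s a)) :
    ∃ s' : ∀ a, KS (Fin (m a)), DP s' ∧ ∀ a, (P a).Next (s a) (s' a) := by
  have hx : Poly fun x : Σ a, Fin (m a) => x.1 := poly_fst
  have h1 : Poly fun x : Σ a, Fin (m a) =>
      decide (x.2 ∈ (s x.1).al ∧ (P x.1).N ≤ (s x.1).t x.2 + (P x.1).zz) :=
    ((hs.comp hx).ks_al.mem DP.snd).decide_and ((h.N.1.comp hx).decide_le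
      (((hs.comp hx).ks_t.app DP.snd).poly.add (h.zz.1.comp hx)))
  refine DP.search (R := fun a s' => (P a).Next (s a) s')
    (p := fun a e => e ∈ (s a).al ∧ (P a).N ≤ (s a).t e + (P a).zz) h.G.mp h.G.mb h1 ?_ ?_
  · have hw := hx.comp (poly_val (p := fun x : Σ a, Fin (m a) =>
      x.2 ∈ (s x.1).al ∧ (P x.1).N ≤ (s x.1).t x.2 + (P x.1).zz))
    exact ⟨_, (h.comp hw).pay (hs.comp hw) (DP.snd.restrict _),
      fun x => .inr (.inl ⟨x.1.2, x.2.1, x.2.2, rfl⟩)⟩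
  · refine KSPb_stage2 (h.comp poly_val) (fun a => hp a.1) (hs.restrict _) (fun a => hv a.1)
      fun a e he => ?_
    have := a.2 e
    simp only [not_and, not_le] at this
    exact this he

/-- The whole walk. -/
theorem PK.exists_out (h : PK P) (hp : ∀ a, (P a).Pre) :
    ∃ o : ∀ a, Finset (Fin (m a)), DP o ∧ ∀ a, o a ⊆ (P a).F ∧ (P a).G.PC (P a).k (ind (o a)) ∧
      ∀ S : Finset (Fin (n a)), S.Nonempty → S ≠ univ →
        (#(o a ∩ (P a).G.cut S) : ℝ) ≤ (1 / 2 + 103 / (P a).p) * #((P a).G.cut S) := by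
  have hw : Poly fun x : {x : Σ a, KS (Fin (m a)) // (P x.1).Valid x.2} => x.1.1 :=
    poly_fst.comp poly_val
  obtain ⟨s', hs', hn⟩ := PK.exists_step (h.comp hw) (fun x => hp x.1.1)
    (s := fun x => x.1.2) (DP.snd.restrict _) fun x => x.2
  let step : ∀ a, KS (Fin (m a)) → KS (Fin (m a)) := fun a s =>
    if hv : (P a).Valid s then s' ⟨⟨a, s⟩, hv⟩ else s
  have hrun := fun a => KP.run (hp a) (step a) fun s hv => by
    simp only [step, dif_pos hv]
    exact hn ⟨⟨a, s⟩, hv⟩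
  have hT : Poly fun a => (P a).B ^ 51 := h.B.1.pow (poly_const 51) (PB.const 51)
  have hN := h.N.2
  have hm := h.G.mb
  obtain ⟨o, ho, eo⟩ := DP.loop (β := fun a => KS (Fin (m a))) hT (h.B.2.pow 51)
    (B := fun a => m a * 4 + 1 + (m a * (4 * (P a).N + 2) + 1 + (m a * (4 * (P a).N + 2) + 1) + 1)
      + 1) (by fun_prop) (fun a i s => s = (step a)^[i] (P a).init) h.init (fun _ => rfl)
    (by
      refine ⟨fun p => s' ⟨⟨p.1.1, p.1.2.2⟩, by rw [p.2.1]; exact (hrun _).1 _⟩, ?_, fun p => ?_⟩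
      · refine hs'.comp (g := fun p : {p : Σ a, Un × KS (Fin (m a)) //
            p.2.2 = (step p.1)^[p.2.1.n] (P p.1).init ∧ p.2.1.n < (P p.1).B ^ 51} =>
          (⟨⟨p.1.1, p.1.2.2⟩, by rw [p.2.1]; exact (hrun _).1 _⟩ :
            {x : Σ a, KS (Fin (m a)) // (P x.1).Valid x.2})) ?_
        exact (DP.sigma (poly_fst.comp poly_val) ((DP.snd (β := fun a => Un × KS (Fin (m a)))).snd'.restrict _)).of_enc fun _ => rfl
      · rw [Function.iterate_succ_apply', ← p.2.1]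
        simp only [step]
        rw [dif_pos])
    (fun a i s _ hs => by
      have hv : (P a).Valid s := by rw [hs]; exact (hrun a).1 i
      have h1 := sz_finset_le s.al
      have h2 := sz_natFun_le (v := s.y) (hv.y_le (hp a))
      have h3 := sz_natFun_le (v := s.t) hv.tle
      rw [sz_ks]
      omega)
  refine ⟨_, h.out ho, fun a => ?_⟩
  rw [eo a]
  exact ((hrun a).1 _).out (hp a) (hrun a).2

end Crest.Agent.R37
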