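import Crest.Agent.R37.Nets
import Crest.Agent.R37.Cert

set_option autoImplicit false
open Finset Matrix Crest.CombinatoricsR.Multigraph
open scoped Classical

noncomputable section
namespace Crest.Agent.R37

namespace LemN

theorem cs2 {a b p q P Q : ℝ} (hp : 0 ≤ p) (hq : 0 ≤ q) (hP : 0 ≤ P) (hQ : 0 ≤ Q)
    (ha : a ^ 2 ≤ p * P) (hb : b ^ 2 ≤ q * Q) : (a + b) ^ 2 ≤ (p + q) * (P + Q) := by
  have h1 : (a * b) ^ 2 ≤ ((p * Q + q * P) / 2) ^ 2 := by
    calc (a * b) ^ 2 = a ^ 2 * b ^ 2 := by ring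
      _ ≤ (p * P) * (q * Q) := mul_le_mul ha hb (sq_nonneg _) (mul_nonneg hp hP)
      _ ≤ ((p * Q + q * P) / 2) ^ 2 := by nlinarith [sq_nonneg (p * Q - q * P)]
  have h2 : a * b ≤ (p * Q + q * P) / 2 :=
    (abs_le_of_sq_le_sq' h1 (by positivity)).2
  nlinarith

theorem cs3 {a b c p q r P Q R : ℝ} (hp : 0 ≤ p) (hq : 0 ≤ q) (hr : 0 ≤ r) (hP : 0 ≤ P)
    (hQ : 0 ≤ Q) (hR : 0 ≤ R) (ha : a ^ 2 ≤ p * P) (hb : b ^ 2 ≤ q * Q) (hc : c ^ 2 ≤ r * R) :
    (a + b + c) ^ 2 ≤ (p + q + r) * (P + Q + R) :=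
  cs2 (add_nonneg hp hq) hr (add_nonneg hP hQ) hR (cs2 hp hq hP hQ ha hb) hc

/-- One term of a sum of squares with weight `x`. -/
theorem single {E : Type} {s : Finset E} {e : E} (he : e ∈ s) (g : E → ℝ) {x : ℝ} (hx : 0 < x) :
    g e ^ 2 ≤ 1 / x * ∑ f ∈ s, x * g f ^ 2 := by
  have h : x * g e ^ 2 ≤ ∑ f ∈ s, x * g f ^ 2 :=
    single_le_sum (f := fun f => x * g f ^ 2) (fun f _ => by positivity) he
  rw [one_div, ← div_eq_inv_mul, le_div_iff₀ hx]
  linarith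

/-- The certificate inequality for the four families of demands. -/
theorem cert_four {V E : Type} [Fintype V] [DecidableEq V] [Fintype E] [DecidableEq E]
    {G : MG V E} {L : E → ℕ} {M : E → ℝ} {ν x : ℝ} (hx : 0 < x)
    (hc : G.Cert (fun e => L e) M ν) (hM0 : ∀ e, 0 ≤ M e)
    {d : V → V → ℕ} (hd : ∀ φ : V → ℝ, G.Feas (fun e => L e) φ → ∀ u v, φ v - φ u ≤ d u v)
    (Dir Mid : Finset E) (hcov : ∀ e, 0 < M e → e ∉ Mid → e ∈ Dir)
    (p q : E → V) (t : E → ℝ) (ht : ∀ e, 0 < t e) (r : E → ℝ) (hr0 : ∀ e, 0 ≤ r e)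
    (hr : ∀ e ∈ Mid, 0 < M e → ∀ z : V → ℝ,
      (z (p e) - z (q e)) ^ 2 ≤ r e * ∑ f ∈ Mid, M f / t f * (z (p f) - z (q f)) ^ 2) :
    ν ≤ ∑ e ∈ Dir, x * d (G.src e) (G.tgt e) + ∑ e ∈ Mid, x * d (G.src e) (p e) +
      ∑ e ∈ Mid, x * d (q e) (G.tgt e) + ∑ e ∈ Mid, M e / t e * d (p e) (q e) +
      (2 / x * ∑ e, M e + ∑ e ∈ Mid, M e * r e) := by
  have key := hc.le hd (I := E ⊕ E ⊕ E ⊕ E) (Dir.disjSum (Mid.disjSum (Mid.disjSum Mid)))
    (Sum.elim G.src (Sum.elim G.src (Sum.elim q p)))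
    (Sum.elim G.tgt (Sum.elim p (Sum.elim G.tgt q)))
    (Sum.elim (fun _ => x) (Sum.elim (fun _ => x) (Sum.elim (fun _ => x) fun e => M e / t e)))
    (by
      rintro (e | e | e | e) _
      · exact hx.le
      · exact hx.le
      · exact hx.le
      · exact div_nonneg (hM0 e) (ht e).le)
    (fun e => if e ∈ Mid then 1 / x + r e + 1 / x else 1 / x)
    (by
      intro e he z
      simp only [sum_disjSum, Sum.elim_inl, Sum.elim_inr]
      have h0 : 0 ≤ ∑ f ∈ Dir, x * (z (G.src f) - z (G.tgt f)) ^ 2 :=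
        sum_nonneg fun f _ => by positivity
      have h1 : 0 ≤ ∑ f ∈ Mid, x * (z (G.src f) - z (p f)) ^ 2 :=
        sum_nonneg fun f _ => by positivity
      have h2 : 0 ≤ ∑ f ∈ Mid, x * (z (q f) - z (G.tgt f)) ^ 2 :=
        sum_nonneg fun f _ => by positivity
      have h3 : 0 ≤ ∑ f ∈ Mid, M f / t f * (z (p f) - z (q f)) ^ 2 :=
        sum_nonneg fun f _ => mul_nonneg (div_nonneg (hM0 f) (ht f).le) (sq_nonneg _)
      have hx' : 0 ≤ 1 / x := by positivity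
      split_ifs with hm
      · have hA := single hm (fun f => z (G.src f) - z (p f)) hx
        have hC := single hm (fun f => z (q f) - z (G.tgt f)) hx
        have hB := hr e hm he z
        have := cs3 hx' (hr0 e) hx' h1 h3 h2 hA hB hC
        have e1 : G.dz z e = z (G.src e) - z (p e) + (z (p e) - z (q e)) +
            (z (q e) - z (G.tgt e)) := by
          unfold MG.dz; ring
        rw [e1]
        refine this.trans (mul_le_mul_of_nonneg_left (by linarith) ?_)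
        have := hr0 e
        positivity
      · have hA := single (hcov e he hm) (fun f => z (G.src f) - z (G.tgt f)) hx
        refine hA.trans (mul_le_mul_of_nonneg_left (by linarith) hx'))
  simp only [sum_disjSum, Sum.elim_inl, Sum.elim_inr] at key
  have h4 : ∑ e, M e * (if e ∈ Mid then 1 / x + r e + 1 / x else 1 / x) ≤
      2 / x * ∑ e, M e + ∑ e ∈ Mid, M e * r e := by
    have : ∑ e ∈ Mid, M e * r e = ∑ e, if e ∈ Mid then M e * r e else 0 := by
      rw [← sum_filter]; simp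
    rw [this, mul_sum, ← sum_add_distrib]
    refine sum_le_sum fun e _ => ?_
    have hx' : 0 ≤ 1 / x := by positivity
    have := mul_nonneg (hM0 e) hx'
    split_ifs
    · apply le_of_eq; ring
    · have e2 : 2 / x * M e = 2 * (M e * (1 / x)) := by ring
      rw [e2]; linarith
  linarith

end LemN

namespace MG
variable {V E : Type} [Fintype V] [DecidableEq V] [Fintype E] [DecidableEq E] {G : MG V E}

/-- Lengths for which few edges are spanned by much shorter ones admit a cheap demand graph. -/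
theorem lemN {F Z : Finset E} {L : E → ℕ} {M : E → ℝ} {κ σ x W : ℕ} {B ν : ℝ}
    (hL : ∀ e, 1 ≤ L e) (hPC : G.PC (κ + σ) (ind F)) (hx : 2 ≤ x) (hW : 3 ≤ W) (hκW : κ ≤ 2 ^ W)
    (hxW : 8 * x ^ 2 ≤ 2 ^ W) (hκ : 40000 * W * x ^ 6 ≤ κ) (hσ : 320000 * x ^ 4 ≤ σ)
    (hM0 : ∀ e, 0 ≤ M e) (hMF : ∀ e, e ∉ F → M e = 0) (hM : ∑ e, M e ≤ B)
    (hD : ((∑ e ∈ F, L e : ℕ) : ℝ) ≤ 5 * B) (hZ : ((x ^ 2 * ∑ e ∈ Z, L e : ℕ) : ℝ) ≤ 10 * B)
    (hsp : ∀ e ∈ F, e ∉ Z → ¬ G.Sp κ (ind (F.filter fun f => 4 * L f ≤ L e)) e)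
    (hc : G.Cert (fun e => L e) M ν) : ν ≤ 56 * B / x := by
  have hx0 : 0 < x := by omega
  have hxR : (0 : ℝ) < x := by exact_mod_cast hx0
  have hx2 : (2 : ℝ) ≤ x := by exact_mod_cast hx
  have hσ0 : 0 < σ := lt_of_lt_of_le (by positivity) hσ
  have hκ0 : 0 < κ := lt_of_lt_of_le (by positivity) hκ
  have hB : 0 ≤ B := (sum_nonneg fun e _ => hM0 e).trans hM
  obtain ⟨d, hd, hdL, hdφ⟩ := exists_metric (G := G) (hPC.conn_univ (by omega)) L
  set j : E → ℕ := fun e => Nat.log 2 (L e) with hj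
  have hj1 : ∀ e, 2 ^ j e ≤ L e := fun e => Nat.pow_log_le_self 2 (by have := hL e; omega)
  have hj2 : ∀ e, L e < 2 ^ (j e + 1) := fun e => Nat.lt_pow_succ_log_self (by norm_num) _
  set Fr : Finset E := F.filter fun e => ¬ G.Conn (G.Aj κ F L (j e + W)) (G.src e) (G.tgt e)
    with hFr
  set Mid : Finset E := F.filter fun e => e ∉ Z ∧ G.Conn (G.Aj κ F L (j e + W)) (G.src e) (G.tgt e)
    with hMid
  have hMidF : Mid ⊆ F := filter_subset _ _
  have hfree : σ * ∑ e ∈ Fr, L e ≤ 16 * ∑ e ∈ F, L e := free_le hPC hL hW hκW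
  have hc4 : 4 ≤ x ^ 2 := by nlinarith
  obtain ⟨N, π, hπ, hN⟩ := exists_nets (G := G) (c := x ^ 2) (Mid := Mid) hPC hL (by omega)
    (by omega) hxW hd hdL
    (by
      intro e he h
      obtain ⟨heF, heZ, -⟩ := mem_filter.1 he
      refine hsp e heF heZ (Sp.mono (y := ind (F.filter fun f => 4 * L f ≤ 2 ^ j e)) h ?_)
      refine ind_mono fun f hf => ?_
      rw [mem_filter] at hf ⊢
      exact ⟨hf.1, hf.2.trans (hj1 e)⟩)
    (fun e he => (mem_filter.1 he).2.2)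
  have hfos : ∀ i : ℕ, ∃ ρ : E → ℝ, (∀ e, 0 ≤ ρ e) ∧
      ∑ e ∈ Mid.filter (fun e => j e = i), M e * ρ e ≤ #(N i) ∧
      ∀ e ∈ Mid.filter (fun e => j e = i), 0 < M e → ∀ z : V → ℝ,
        (z (π i (G.src e)) - z (π i (G.tgt e))) ^ 2 ≤ ρ e * ∑ f ∈ Mid.filter (fun e => j e = i),
          M f * (z (π i (G.src f)) - z (π i (G.tgt f))) ^ 2 := by
    intro i
    refine foster _ (fun e => π i (G.src e)) (fun e => π i (G.tgt e)) (N i) ?_ M fun e _ => hM0 e
    intro e he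
    obtain ⟨he', hi⟩ := mem_filter.1 he
    rw [← hi]
    exact ⟨(hπ e he' _ (Or.inl rfl)).1, (hπ e he' _ (Or.inr rfl)).1⟩
  choose ρ hρ0 hρs hρ using hfos
  have key := LemN.cert_four hxR hc hM0 hdφ (Z ∪ Fr) Mid
    (by
      intro e he hm
      have heF : e ∈ F := by
        by_contra h
        rw [hMF e h] at he
        exact lt_irrefl _ he
      by_cases hz : e ∈ Z
      · exact mem_union_left _ hz
      · refine mem_union_right _ (mem_filter.2 ⟨heF, fun h => hm (mem_filter.2 ⟨heF, hz, h⟩)⟩))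
    (fun e => π (j e) (G.src e)) (fun e => π (j e) (G.tgt e)) (fun e => x * 2 ^ (j e + 2))
    (fun e => by positivity) (fun e => x * 2 ^ (j e + 2) * ρ (j e) e)
    (fun e => mul_nonneg (by positivity) (hρ0 _ _))
    (by
      intro e he hMe z
      refine (hρ (j e) e (mem_filter.2 ⟨he, rfl⟩) hMe z).trans ?_
      have e1 : ∑ f ∈ Mid.filter (fun f => j f = j e),
          M f * (z (π (j e) (G.src f)) - z (π (j e) (G.tgt f))) ^ 2 =
          x * 2 ^ (j e + 2) * ∑ f ∈ Mid.filter (fun f => j f = j e),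
          M f / (x * 2 ^ (j f + 2)) * (z (π (j f) (G.src f)) - z (π (j f) (G.tgt f))) ^ 2 := by
        rw [mul_sum]
        refine sum_congr rfl fun f hf => ?_
        rw [(mem_filter.1 hf).2]
        field_simp
      rw [e1, ← mul_assoc, mul_comm (ρ (j e) e)]
      refine mul_le_mul_of_nonneg_left ?_ (mul_nonneg (by positivity) (hρ0 _ _))
      exact sum_le_sum_of_subset_of_nonneg (filter_subset _ _) fun f _ _ =>
        mul_nonneg (div_nonneg (hM0 f) (by positivity)) (sq_nonneg _))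
  push_cast at hD hZ
  have hD0 : (0 : ℝ) ≤ ∑ e ∈ F, (L e : ℝ) := sum_nonneg fun e _ => by positivity
  -- direct edges
  have c1 : ∑ e ∈ Z ∪ Fr, (x : ℝ) * d (G.src e) (G.tgt e) ≤ 11 * B / x := by
    have a1 : ∑ e ∈ Z ∪ Fr, (x : ℝ) * d (G.src e) (G.tgt e) ≤ ∑ e ∈ Z ∪ Fr, (x : ℝ) * L e :=
      sum_le_sum fun e _ => mul_le_mul_of_nonneg_left (by exact_mod_cast hdL e) hxR.le
    have a2 : ∑ e ∈ Z ∪ Fr, (x : ℝ) * L e ≤ ∑ e ∈ Z, (x : ℝ) * L e + ∑ e ∈ Fr, (x : ℝ) * L e := by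
      rw [← sum_union_inter]
      exact le_add_of_nonneg_right (sum_nonneg fun e _ => by positivity)
    have a3 : ∑ e ∈ Z, (x : ℝ) * L e ≤ 10 * B / x := by
      rw [← mul_sum, le_div_iff₀ hxR]
      nlinarith
    have a4 : ∑ e ∈ Fr, (x : ℝ) * L e ≤ B / x := by
      rw [← mul_sum, le_div_iff₀ hxR]
      have b1 : (σ : ℝ) * ∑ e ∈ Fr, (L e : ℝ) ≤ 16 * ∑ e ∈ F, (L e : ℝ) := by exact_mod_cast hfree
      have b2 : (320000 : ℝ) * x ^ 4 ≤ σ := by exact_mod_cast hσ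
      have b3 : (0 : ℝ) ≤ ∑ e ∈ Fr, (L e : ℝ) := sum_nonneg fun e _ => by positivity
      have b4 : (80 : ℝ) * x ^ 2 ≤ σ := by nlinarith [sq_nonneg (x : ℝ), sq_nonneg ((x : ℝ) ^ 2 - 1)]
      have b5 := mul_le_mul_of_nonneg_right b4 b3
      nlinarith
    have : 11 * B / x = 10 * B / x + B / x := by ring
    linarith
  -- hops to the nets
  have hop : ∀ e ∈ Mid, ∀ u, u = G.src e ∨ u = G.tgt e →
      (x : ℝ) * d u (π (j e) u) ≤ 4 / x * L e := by
    intro e he u hu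
    have b1 : x ^ 2 * d u (π (j e) u) ≤ 4 * L e :=
      (hπ e he u hu).2.trans (Nat.mul_le_mul_left 4 (hj1 e))
    have b2 : (x : ℝ) ^ 2 * d u (π (j e) u) ≤ 4 * L e := by exact_mod_cast b1
    rw [div_mul_eq_mul_div, le_div_iff₀ hxR]
    nlinarith
  have hsum : ∑ e ∈ Mid, 4 / (x : ℝ) * L e ≤ 20 * B / x := by
    rw [← mul_sum]
    have b1 : ∑ e ∈ Mid, (L e : ℝ) ≤ ∑ e ∈ F, (L e : ℝ) :=
      sum_le_sum_of_subset_of_nonneg hMidF fun e _ _ => by positivity
    calc 4 / (x : ℝ) * ∑ e ∈ Mid, (L e : ℝ) ≤ 4 / (x : ℝ) * (5 * B) :=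
          mul_le_mul_of_nonneg_left (b1.trans hD) (by positivity)
      _ = 20 * B / x := by ring
  have c2 : ∑ e ∈ Mid, (x : ℝ) * d (G.src e) (π (j e) (G.src e)) ≤ 20 * B / x :=
    (sum_le_sum fun e he => hop e he _ (Or.inl rfl)).trans hsum
  have c3 : ∑ e ∈ Mid, (x : ℝ) * d (π (j e) (G.tgt e)) (G.tgt e) ≤ 20 * B / x :=
    (sum_le_sum fun e he => by rw [hd.symm]; exact hop e he _ (Or.inr rfl)).trans hsum
  -- the net edges
  have c4 : ∑ e ∈ Mid, M e / (x * 2 ^ (j e + 2)) * d (π (j e) (G.src e)) (π (j e) (G.tgt e)) ≤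
      B / x := by
    have b1 : ∀ e ∈ Mid, M e / (x * 2 ^ (j e + 2)) * d (π (j e) (G.src e)) (π (j e) (G.tgt e)) ≤
        M e / x := by
      intro e he
      have small : ∀ u, u = G.src e ∨ u = G.tgt e → d u (π (j e) u) ≤ 2 ^ j e := by
        intro u hu
        have h1 : x ^ 2 * d u (π (j e) u) ≤ 4 * 2 ^ j e := (hπ e he u hu).2
        have h2 : 4 * d u (π (j e) u) ≤ x ^ 2 * d u (π (j e) u) := Nat.mul_le_mul_right _ hc4
        omega
      have h1 := small _ (Or.inl rfl)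
      have h2 := small _ (Or.inr rfl)
      have h3 := hd.tri (π (j e) (G.src e)) (G.src e) (π (j e) (G.tgt e))
      have h4 := hd.tri (G.src e) (G.tgt e) (π (j e) (G.tgt e))
      have h5 := hd.symm (π (j e) (G.src e)) (G.src e)
      have h6 := hdL e
      have h7 := hj2 e
      have h8 : d (π (j e) (G.src e)) (π (j e) (G.tgt e)) ≤ 2 ^ (j e + 2) := by
        rw [pow_succ] at h7
        rw [pow_add]
        omega
      have h9 : (d (π (j e) (G.src e)) (π (j e) (G.tgt e)) : ℝ) ≤ 2 ^ (j e + 2) := by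
        exact_mod_cast h8
      calc M e / (x * 2 ^ (j e + 2)) * d (π (j e) (G.src e)) (π (j e) (G.tgt e))
          ≤ M e / (x * 2 ^ (j e + 2)) * 2 ^ (j e + 2) :=
            mul_le_mul_of_nonneg_left h9 (div_nonneg (hM0 e) (by positivity))
        _ = M e / x := by field_simp
    refine (sum_le_sum b1).trans ?_
    rw [← sum_div]
    refine div_le_div_of_nonneg_right (le_trans ?_ hM) hxR.le
    exact sum_le_sum_of_subset_of_nonneg (subset_univ _) fun e _ _ => hM0 e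
  have c5 : 2 / (x : ℝ) * ∑ e, M e ≤ 2 * B / x := by
    calc 2 / (x : ℝ) * ∑ e, M e ≤ 2 / (x : ℝ) * B := mul_le_mul_of_nonneg_left hM (by positivity)
      _ = 2 * B / x := by ring
  have c6 : ∑ e ∈ Mid, M e * (x * 2 ^ (j e + 2) * ρ (j e) e) ≤ B / x := by
    set T : ℕ := univ.sup j + 1 with hT
    have hmap : ∀ e ∈ Mid, j e ∈ range T := fun e _ =>
      mem_range.2 (Nat.lt_succ_of_le (le_sup (f := j) (mem_univ e)))
    rw [← sum_fiberwise_of_maps_to hmap]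
    have b1 : ∀ i ∈ range T, ∑ e ∈ Mid.filter (fun e => j e = i),
        M e * (x * 2 ^ (j e + 2) * ρ (j e) e) ≤ 4 * x * (2 ^ i * (#(N i) : ℝ)) := by
      intro i _
      have : ∑ e ∈ Mid.filter (fun e => j e = i), M e * (x * 2 ^ (j e + 2) * ρ (j e) e) =
          x * 2 ^ (i + 2) * ∑ e ∈ Mid.filter (fun e => j e = i), M e * ρ i e := by
        rw [mul_sum]
        refine sum_congr rfl fun e he => ?_
        rw [(mem_filter.1 he).2]
        ring
      rw [this]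
      calc (x : ℝ) * 2 ^ (i + 2) * ∑ e ∈ Mid.filter (fun e => j e = i), M e * ρ i e
          ≤ x * 2 ^ (i + 2) * #(N i) := mul_le_mul_of_nonneg_left (hρs i) (by positivity)
        _ = 4 * x * (2 ^ i * (#(N i) : ℝ)) := by ring
    refine (sum_le_sum b1).trans ?_
    rw [← mul_sum]
    have b2 : (κ : ℝ) * σ * ∑ i ∈ range T, 2 ^ i * (#(N i) : ℝ) ≤
        1000 * x ^ 2 * (x ^ 2 * W * σ + 8 * κ) * ∑ e ∈ F, (L e : ℝ) := by
      exact_mod_cast hN T
    set S : ℝ := ∑ i ∈ range T, 2 ^ i * (#(N i) : ℝ) with hS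
    have hκR : (40000 : ℝ) * W * x ^ 6 ≤ κ := by exact_mod_cast hκ
    have hσR : (320000 : ℝ) * x ^ 4 ≤ σ := by exact_mod_cast hσ
    have hκ0R : (0 : ℝ) < κ := by exact_mod_cast hκ0
    have hσ0R : (0 : ℝ) < σ := by exact_mod_cast hσ0
    have b3 : (κ : ℝ) * σ * S ≤ 1000 * x ^ 2 * (x ^ 2 * W * σ + 8 * κ) * (5 * B) :=
      b2.trans (mul_le_mul_of_nonneg_left hD (by positivity))
    rw [le_div_iff₀ hxR]
    have b4 : (κ : ℝ) * σ * (4 * x * S * x) ≤ κ * σ * B := by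
      have t1 : (40000 : ℝ) * W * x ^ 6 * (σ * B) ≤ κ * (σ * B) :=
        mul_le_mul_of_nonneg_right hκR (by positivity)
      have t2 : (320000 : ℝ) * x ^ 4 * (κ * B) ≤ σ * (κ * B) :=
        mul_le_mul_of_nonneg_right hσR (by positivity)
      calc (κ : ℝ) * σ * (4 * x * S * x) = 4 * x ^ 2 * (κ * σ * S) := by ring
        _ ≤ 4 * x ^ 2 * (1000 * x ^ 2 * (x ^ 2 * W * σ + 8 * κ) * (5 * B)) :=
            mul_le_mul_of_nonneg_left b3 (by positivity)
        _ = (40000 * W * x ^ 6 * (σ * B) + 320000 * x ^ 4 * (κ * B)) / 2 := by ring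
        _ ≤ (κ * (σ * B) + σ * (κ * B)) / 2 := by linarith
        _ = κ * σ * B := by ring
    exact le_of_mul_le_mul_left b4 (by positivity)
  have hBx : 0 ≤ B / x := by positivity
  have e1 : 56 * B / x = 11 * B / x + 20 * B / x + 20 * B / x + B / x + (2 * B / x + B / x) +
      B / x := by ring
  linarith

end MG
end Crest.Agent.R37
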