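import Crest.Agent.R37.Iter
import Crest.Agent.R37.Build
import Crest.Prelude.Def_BitEnc
import Crest.Prelude.Def_Complexity

set_option autoImplicit false
open Finset Matrix Crest.CombinatoricsR.Multigraph
open Crest.Agent.Lib.PolyTime
open scoped Classical

noncomputable section
namespace Crest.Agent.R37

/-- The statement of S0051. -/
def Stmt51 : Prop :=
    ∃ C : ℝ, 0 < C ∧ ∃ f : List Bool → List Bool, Crest.Complexity.PolyTime f ∧
      ∀ (n k : ℕ) (mult : Fin n → Fin n → ℕ), 1 ≤ n → 1 ≤ k →
        (∀ i j, mult i j = mult j i) → (∀ i, mult i i = 0) →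
        (∀ S : Finset (Fin n), S.Nonempty → S ≠ Finset.univ → k ≤ ∑ i ∈ S, ∑ j ∈ Sᶜ, mult i j) →
        ∀ T : Finset (Fin n × Fin n), T = decodePairs n (f (multigraphCode n k mult)) →
          (∀ p ∈ T, p.1 < p.2 ∧ 1 ≤ mult p.1 p.2) ∧ T.card + 1 = n ∧
          (adjGraph Prod.fst Prod.snd T).Connected ∧
          ∀ S : Finset (Fin n), S.Nonempty → S ≠ Finset.univ →
            ((cutEdges Prod.fst Prod.snd T S).card : ℝ) ≤
              C / k * ((∑ i ∈ S, ∑ j ∈ Sᶜ, mult i j : ℕ) : ℝ)

namespace Main

/-- The table in the input. -/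
def inL (w : List Bool) : List ℕ := (pList pNat (pNat (pNat w).2).2).1
/-- The number of vertices in the input. -/
def inN (w : List Bool) : ℕ := min (pNat w).1 (inL w).length
/-- The connectivity parameter in the input. -/
def inK (w : List Bool) : ℕ := (pNat (pNat w).2).1
/-- The multiplicities in the input. -/
def inM (w : List Bool) : Fin (inN w) → Fin (inN w) → ℕ :=
  fun i j => (inL w).getD (i * inN w + j) 0

theorem poly_inL : Poly inL := by unfold inL; fun_prop

theorem poly_inN : Poly inN := by
  have := poly_inL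
  unfold inN; fun_prop

theorem pb_inN : PB inN := (PB.length poly_inL).mono fun _ => min_le_right _ _

theorem poly_inK : Poly inK := by unfold inK; fun_prop

theorem dp_red' {α : Type} [PEnc α] {n k : α → ℕ} {l : α → List ℕ} (hn : Poly n) (hb : PB n)
    (hk : Poly k) (hl : Poly l) :
    DP fun a => redMult (k a) fun i j : Fin (n a) => (l a).getD (i * n a + j) 0 := by
  refine DP.fn₂ hn hb hn hb ?_
  simp only [redMult]
  fun_prop

theorem dp_red : DP fun w => redMult (inK w) (inM w) := dp_red' poly_inN pb_inN poly_inK poly_inL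

theorem poly_out {α : Type} [PEnc α] {n m : α → ℕ} {G : ∀ a, MG (Fin (n a)) (Fin (m a))}
    (hG : PG G) {T : ∀ a, Finset (Fin (m a))} (hT : DP T) :
    Poly fun a => ((List.finRange (n a)).map fun i => (List.finRange (n a)).map fun j =>
      decide (∃ e, e ∈ T a ∧ (G a).src e = i ∧ (G a).tgt e = j)).flatten := by
  obtain ⟨s, hs, es⟩ := hG.src.entF
  obtain ⟨t, ht, et⟩ := hG.tgt.entF
  obtain ⟨L, hL, eL⟩ := hT.entS
  have := hG.np; have := hG.nb; have := hG.mp; have := hG.mb
  simp only [Fin.ext_iff, es, et, eL]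
  fun_prop

/-- The reduced graph. -/
abbrev gr (w : List Bool) := ofMult (redMult (inK w) (inM w))

theorem pg_gr : PG gr :=
  PG.ofMult poly_inN pb_inN dp_red (B := fun w => 2 * inN w ^ 2)
    ((PB.const 2).mul (pb_inN.pow 2)) fun _ _ _ => redMult_le _ _ _ _

theorem getD_table {β : Type} {n : ℕ} (d : β) (f : Fin n → Fin n → β) (i j : Fin n) :
    ((List.finRange n).map fun i => (List.finRange n).map fun j => f i j).flatten.getD
      (i * n + j) d = f i j := by
  have h : ((List.finRange n).map fun i => (List.finRange n).map fun j => f i j).flatten =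
      List.ofFn fun x : Fin (n * n) => f x.divNat x.modNat := by
    rw [List.ofFn_mul]
    simp only [← List.ofFn_eq_map]
    congr 2
    funext a
    congr 1
    funext b
    have hb := b.2
    congr 1
    · ext
      simp only [Fin.coe_divNat]
      rw [Nat.add_comm, Nat.add_mul_div_right _ _ (by omega), Nat.div_eq_of_lt hb, Nat.zero_add]
    · ext
      simp only [Fin.coe_modNat]
      rw [Nat.add_comm, Nat.add_mul_mod_self_right, Nat.mod_eq_of_lt hb]
  have hlt : (i : ℕ) * n + j < n * n := by
    have := i.2; have := j.2; nlinarith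
  rw [h, List.getD_eq_getElem _ _ (by simpa using hlt), List.getElem_ofFn]
  have hj := j.2
  congr 1
  · ext
    simp only [Fin.coe_divNat]
    rw [Nat.add_comm, Nat.add_mul_div_right _ _ (by omega), Nat.div_eq_of_lt hj, Nat.zero_add]
  · ext
    simp only [Fin.coe_modNat]
    rw [Nat.add_comm, Nat.add_mul_mod_self_right, Nat.mod_eq_of_lt hj]

theorem parse (n k : ℕ) (μ : Fin n → Fin n → ℕ) :
    inL (multigraphCode n k μ) =
      ((List.finRange n).map fun i => (List.finRange n).map fun j => μ i j).flatten ∧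
    inN (multigraphCode n k μ) = n ∧ inK (multigraphCode n k μ) = k := by
  have hL : inL (multigraphCode n k μ) =
      ((List.finRange n).map fun i => (List.finRange n).map fun j => μ i j).flatten := by
    have := pList_listCode
      ((List.finRange n).map fun i => (List.finRange n).map fun j => μ i j).flatten []
    rw [List.append_nil] at this
    simp only [inL, multigraphCode, List.append_assoc, pNat_code, this]
  refine ⟨hL, ?_, by simp only [inK, multigraphCode, List.append_assoc, pNat_code]⟩
  rw [inN, hL]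
  simp only [multigraphCode, List.append_assoc, pNat_code, List.length_flatten, List.map_map,
    Function.comp_def, List.length_map, List.length_finRange, List.map_const', List.sum_replicate,
    smul_eq_mul]
  exact min_eq_left (Nat.le_mul_self n)

/-- The promise. -/
def Good (w : List Bool) : Prop := 2 ≤ inN w ∧ (gr w).PC (inN w ^ 2 / 2) (ind univ)

/-- The conclusion. -/
def Concl (C : ℝ) (n k : ℕ) (μ : Fin n → Fin n → ℕ) (T : Finset (Fin n × Fin n)) : Prop :=
  (∀ p ∈ T, p.1 < p.2 ∧ 1 ≤ μ p.1 p.2) ∧ T.card + 1 = n ∧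
    (adjGraph Prod.fst Prod.snd T).Connected ∧
    ∀ S : Finset (Fin n), S.Nonempty → S ≠ Finset.univ →
      ((cutEdges Prod.fst Prod.snd T S).card : ℝ) ≤ C / k * ((∑ i ∈ S, ∑ j ∈ Sᶜ, μ i j : ℕ) : ℝ)

theorem exists_alg : ∃ C : ℝ, 0 < C ∧ ∃ f : List Bool → List Bool, Poly f ∧ ∀ w,
    (Good w → 1 ≤ inK w → (∀ i j, inM w i j = inM w j i) →
      Concl C (inN w) (inK w) (inM w) (decodePairs (inN w) (f w))) ∧ (¬ Good w → f w = []) := by
  obtain ⟨C, hC, H⟩ := exists_thin
  have hN := poly_inN
  have hB := pb_inN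
  have hκ : Poly fun w => inN w ^ 2 / 2 := by fun_prop
  have hg : Poly fun w => decide (Good w) :=
    Poly.decide_congr (Poly.decide_and (Poly.decide_le (poly_const 2) hN)
      (pg_gr.decide_pc hκ (DP.ind pg_gr.mp pg_gr.mb (DP.univ pg_gr.mp pg_gr.mb))))
      fun _ => Iff.rfl
  obtain ⟨T, hT, hT'⟩ := H {w // Good w} _ _ (fun w => gr w.1) (fun w => inN w.1 ^ 2 / 2)
    (pg_gr.comp poly_val) (hκ.comp poly_val) (((hB.pow 2).div fun _ => 2).comp poly_val)
    (fun w => by
      have := w.2.1
      rw [Nat.le_div_iff_mul_le (by norm_num)]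
      nlinarith)
    (fun w => w.2.1) fun w => w.2.2
  obtain ⟨f, hf, h⟩ := DP.cases (β := fun _ => List Bool) hg
    (R := fun w o => (Good w → 1 ≤ inK w → (∀ i j, inM w i j = inM w j i) →
      Concl (6 * C) (inN w) (inK w) (inM w) (decodePairs (inN w) o)) ∧ (¬ Good w → o = []))
    ⟨fun w => ((List.finRange (inN w.1)).map fun i => (List.finRange (inN w.1)).map fun j =>
      decide (∃ e, e ∈ T w ∧ (gr w.1).src e = i ∧ (gr w.1).tgt e = j)).flatten,
      DP.of_poly (poly_out (pg_gr.comp poly_val) hT),
      fun w => ⟨fun _ hk hs => by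
        obtain ⟨h1, h2, h3⟩ := hT' w
        refine pairs_of_tree w.2.1 hk hs hC h1 h2 h3 fun p => ?_
        simp only [decodePairs, mem_filter, mem_univ, true_and, getD_table, decide_eq_true_eq],
        fun h => (h w.2).elim⟩⟩
    ⟨fun _ => [], DP.of_poly (poly_const _), fun w => ⟨fun h => (w.2 h).elim, fun _ => rfl⟩⟩
  exact ⟨6 * C, by positivity, f, hf.poly, h⟩

end Main

open Main in
theorem main51 : Stmt51 := by
  obtain ⟨C, hC, f, hf, h⟩ := exists_alg
  refine ⟨C, hC, f, hf.polyTime, fun n k μ hn hk hs _ hc T hT => ?_⟩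
  obtain ⟨h1, h2, h3⟩ := parse n k μ
  generalize multigraphCode n k μ = w at *
  subst h2 h3
  have hμ : inM w = μ := by
    funext i j
    rw [inM, h1, getD_table]
  subst hμ
  rcases hn.eq_or_lt with hn | hn
  · have hg : ¬ Good w := fun hg => by have := hg.1; omega
    have hT' : T = ∅ := by
      rw [hT, (h w).2 hg]
      simp [decodePairs]
    subst hT'
    have : Subsingleton (Fin (inN w)) := by rw [← hn]; infer_instance
    have : Nonempty (Fin (inN w)) := ⟨⟨0, by omega⟩⟩
    refine ⟨by simp, by simpa using hn, SimpleGraph.Connected.of_subsingleton, fun S hS hS' => ?_⟩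
    exact (hS' (hS.subset_singleton_iff.1 (fun _ _ => mem_singleton.2 (Subsingleton.elim _ _)) ▸
      eq_univ_of_forall fun _ => mem_singleton.2 (Subsingleton.elim _ hS.choose))).elim
  · rw [hT]
    exact (h w).1 ⟨hn, pc_redMult hk hs hc⟩ hk hs

end Crest.Agent.R37
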