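import Mathlib

/-! The Faddeev-LeVerrier recurrence and the inverse of a matrix. -/

set_option autoImplicit false
set_option linter.unusedSectionVars false
open Finset Matrix Polynomial

noncomputable section
namespace Crest.Agent.R37.MatInvAux

variable {ι : Type} [Fintype ι] [DecidableEq ι]

/-- One step of the division-free recurrence. -/
def flStep {R : Type} [CommRing R] (A : Matrix ι ι R) (k : ℕ) (N : Matrix ι ι R) :
    Matrix ι ι R := ((k + 1 : ℕ) : R) • (A * N) - (A * N).trace • (1 : Matrix ι ι R)

/-- The division-free Faddeev-LeVerrier recurrence. -/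
def fl {R : Type} [CommRing R] (A : Matrix ι ι R) : ℕ → Matrix ι ι R
  | 0 => 1
  | k + 1 => flStep A k (fl A k)

theorem fl_map {R S : Type} [CommRing R] [CommRing S] (f : R →+* S) (A : Matrix ι ι R) (k : ℕ) :
    fl (A.map f) k = (fl A k).map f := by
  induction k with
  | zero => simp [fl]
  | succ k ih =>
    rw [fl, fl, ih, flStep, flStep, ← Matrix.map_mul]
    generalize A * fl A k = P
    ext i j
    simp [Matrix.trace, Matrix.one_apply, apply_ite f]

theorem derivative_charpoly {R : Type} [CommRing R] (A : Matrix ι ι R) :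
    derivative A.charpoly = (adjugate (charmatrix A)).trace := by
  rw [Matrix.charpoly, det_apply', derivative_sum]
  simp only [Matrix.trace, Matrix.diag, adjugate_apply]
  have h : ∀ i, ((charmatrix A).updateRow i (Pi.single i 1)).det =
      ((charmatrix A).updateCol i (Pi.single i 1)).det := by
    intro i
    rw [← adjugate_apply, ← det_transpose (updateCol _ _ _), ← updateRow_transpose,
      ← adjugate_apply, ← adjugate_transpose, transpose_apply]
  simp only [h, det_apply']
  rw [sum_comm]
  refine sum_congr rfl fun σ _ => ?_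
  rw [derivative_mul, derivative_intCast, zero_mul, zero_add, derivative_prod_finset, mul_sum]
  refine sum_congr rfl fun i _ => ?_
  congr 1
  rw [← Finset.prod_erase_mul _ _ (mem_univ i)]
  congr 1
  · refine prod_congr rfl fun j hj => ?_
    rw [updateCol_ne (ne_of_mem_erase hj)]
  · rw [updateCol_self, charmatrix_apply, Pi.single_apply, diagonal_apply]
    split_ifs <;> simp

section field
variable {K : Type} [Field K] [CharZero K] (A : Matrix ι ι K)

/-- Coefficients of the adjugate of the characteristic matrix. -/
def D (j : ℕ) : Matrix ι ι K := (matPolyEquiv (adjugate (charmatrix A))).coeff j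

theorem D_eq : (X - C A) * matPolyEquiv (adjugate (charmatrix A)) =
    A.charpoly.map (algebraMap K (Matrix ι ι K)) := by
  rw [← matPolyEquiv_charmatrix, ← map_mul, mul_adjugate, matPolyEquiv_smul_one, Matrix.charpoly]

theorem D_succ (j : ℕ) : D A j = A * D A (j + 1) + A.charpoly.coeff (j + 1) • 1 := by
  have h := congrArg (coeff · (j + 1)) (D_eq A)
  simp only [sub_mul, coeff_sub, coeff_X_mul, coeff_C_mul, coeff_map,
    Algebra.algebraMap_eq_smul_one] at h
  rw [← h, D, D]
  abel

theorem D_zero : A * D A 0 = -A.charpoly.coeff 0 • 1 := by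
  have h := congrArg (coeff · 0) (D_eq A)
  simp only [sub_mul, coeff_sub, coeff_X_mul_zero, coeff_C_mul, coeff_map,
    Algebra.algebraMap_eq_smul_one] at h
  rw [neg_smul, ← h, D]
  abel

theorem D_trace (j : ℕ) : (D A j).trace = A.charpoly.coeff (j + 1) * ((j : K) + 1) := by
  rw [← coeff_derivative, derivative_charpoly]
  simp [D, Matrix.trace, matPolyEquiv_coeff_apply]

theorem D_big (j : ℕ) (hj : Fintype.card ι ≤ j) : D A j = 0 := by
  have key : ∀ m, D A j = A ^ m * D A (j + m) := by
    intro m
    induction m with
    | zero => simp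
    | succ m ih =>
      rw [ih, D_succ A (j + m), coeff_eq_zero_of_natDegree_lt
        (by rw [charpoly_natDegree_eq_dim]; omega), zero_smul, add_zero, pow_succ, mul_assoc,
        add_assoc]
  rw [key ((matPolyEquiv (adjugate (charmatrix A))).natDegree + 1), D,
    coeff_eq_zero_of_natDegree_lt (by omega), mul_zero]

theorem fl_eq (k j : ℕ) (h : k + j + 1 = Fintype.card ι) : fl A k = (k.factorial : K) • D A j := by
  induction k generalizing j with
  | zero =>
    have h1 : A.charpoly.coeff (j + 1) = 1 := by
      have := (charpoly_monic A).coeff_natDegree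
      rwa [charpoly_natDegree_eq_dim, ← h, zero_add] at this
    rw [D_succ, D_big A (j + 1) (by omega), h1]
    simp [fl]
  | succ k ih =>
    have h1 := D_trace A j
    rw [D_succ, trace_add, trace_smul, trace_one, ← h] at h1
    have h2 : (A * D A (j + 1)).trace = -(((k + 1 : ℕ) : K) * A.charpoly.coeff (j + 1)) := by
      push_cast at h1 ⊢
      rw [smul_eq_mul] at h1
      linear_combination h1
    rw [fl, ih (j + 1) (by omega), flStep, D_succ A j, Matrix.mul_smul, trace_smul, h2,
      Nat.factorial_succ, Nat.cast_mul]
    simp only [smul_eq_mul]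
    module

theorem inv_eq : A⁻¹ = ((Fintype.card ι : K) / (A * fl A (Fintype.card ι - 1)).trace) •
    fl A (Fintype.card ι - 1) := by
  rcases isEmpty_or_nonempty ι with h | h
  · exact Subsingleton.elim _ _
  have hc : 0 < Fintype.card ι := Fintype.card_pos
  have h1 := fl_eq A (Fintype.card ι - 1) 0 (by omega)
  have h2 := D_zero A
  rw [h1, Matrix.mul_smul, h2, trace_smul, trace_smul, trace_one]
  by_cases h0 : A.charpoly.coeff 0 = 0
  · rw [h0, nonsing_inv_apply_not_isUnit]
    · simp
    · rw [det_eq_sign_charpoly_coeff, h0]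
      simp
  · refine inv_eq_right_inv ?_
    rw [Matrix.mul_smul, Matrix.mul_smul, h2, smul_smul, smul_smul]
    have h3 : ((Fintype.card ι - 1).factorial : K) ≠ 0 := by
      exact_mod_cast Nat.factorial_ne_zero _
    have h4 : (Fintype.card ι : K) ≠ 0 := by exact_mod_cast hc.ne'
    convert one_smul K (1 : Matrix ι ι K) using 2
    simp only [smul_eq_mul]
    field_simp

end field

/-- Growth of the entries. -/
theorem fl_bound (A : Matrix ι ι ℤ) {B : ℕ} (hB : ∀ i j, (A i j).natAbs ≤ B) (k : ℕ)
    (hk : k ≤ Fintype.card ι) (i j : ι) :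
    (fl A k i j).natAbs ≤ ((2 * Fintype.card ι) * (Fintype.card ι * B)) ^ k := by
  induction k generalizing i j with
  | zero =>
    simp only [fl, Matrix.one_apply]
    split_ifs <;> simp
  | succ k ih =>
    set M := ((2 * Fintype.card ι) * (Fintype.card ι * B)) ^ k with hM
    have h1 : ∀ i j, ((A * fl A k) i j).natAbs ≤ Fintype.card ι * B * M := by
      intro i j
      rw [Matrix.mul_apply]
      refine (Int.natAbs_sum_le _ _).trans ((sum_le_card_nsmul _ _ (B * M) fun l _ => ?_).trans ?_)
      · rw [Int.natAbs_mul]
        exact Nat.mul_le_mul (hB _ _) (ih (by omega) _ _)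
      · simp [mul_assoc]
    have h2 : (A * fl A k).trace.natAbs ≤ Fintype.card ι * (Fintype.card ι * B * M) := by
      refine (Int.natAbs_sum_le _ _).trans ((sum_le_card_nsmul _ _ _ fun l _ => h1 l l).trans ?_)
      simp
    have h3 : (((k + 1 : ℕ) : ℤ) * (A * fl A k) i j).natAbs ≤
        Fintype.card ι * (Fintype.card ι * B * M) := by
      rw [Int.natAbs_mul, Int.natAbs_natCast]
      exact Nat.mul_le_mul hk (h1 i j)
    have h4 : ((A * fl A k).trace * (1 : Matrix ι ι ℤ) i j).natAbs ≤
        Fintype.card ι * (Fintype.card ι * B * M) := by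
      rw [Matrix.one_apply]
      split_ifs
      · simpa using h2
      · simp
    rw [fl, flStep, Matrix.sub_apply, Matrix.smul_apply, Matrix.smul_apply, smul_eq_mul,
      smul_eq_mul, pow_succ, ← hM]
    refine (Int.natAbs_sub_le _ _).trans ((Nat.add_le_add h3 h4).trans (le_of_eq ?_))
    ring

end Crest.Agent.R37.MatInvAux
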