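import Crest.Agent.R37.Enc
import Crest.Agent.R37.MatInvAux

set_option autoImplicit false
open Finset Matrix Crest.CombinatoricsR.Multigraph
open Crest.Agent.Lib.PolyTime
open scoped Classical

noncomputable section
namespace Crest.Agent.R37
variable {α : Type} [PEnc α] {n : α → ℕ}

namespace MatInvAux

theorem inv_of_smul {ι : Type} [Fintype ι] [DecidableEq ι] {c : ℝ} (hc : c ≠ 0)
    (A : Matrix ι ι ℝ) : A⁻¹ = c • (c • A)⁻¹ := by
  by_cases h : IsUnit A.det
  · have : (c • A)⁻¹ = c⁻¹ • A⁻¹ := inv_eq_right_inv (by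
      rw [Matrix.smul_mul, Matrix.mul_smul, smul_smul, mul_inv_cancel₀ hc, one_smul,
        mul_nonsing_inv _ h])
    rw [this, smul_smul, mul_inv_cancel₀ hc, one_smul]
  · rw [nonsing_inv_apply_not_isUnit _ h, nonsing_inv_apply_not_isUnit, smul_zero]
    rw [det_smul]
    exact fun h' => h (isUnit_of_mul_isUnit_right h')

theorem iterate_eq {ι : Type} [Fintype ι] [DecidableEq ι] (A : Matrix ι ι ℤ) (k : ℕ) :
    (fun s : ℕ × Matrix ι ι ℤ => (s.1 + 1, flStep A s.1 s.2))^[k] (0, 1) = (k, fl A k) := by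
  induction k with
  | zero => rfl
  | succ k ih => rw [Function.iterate_succ_apply', ih, fl]

theorem dp_fl (hn : Poly n) (hb : PB n) {Z : ∀ a, Matrix (Fin (n a)) (Fin (n a)) ℤ} (hZ : DP Z) :
    DP fun a => fl (Z a) (n a - 1) := by
  obtain ⟨L, hL, eL⟩ := DP.ent₂ (v := Z) hZ
  let β : α → Type := fun a => ℕ × Matrix (Fin (n a)) (Fin (n a)) ℤ
  have h1 : DP fun a => (1 : Matrix (Fin (n a)) (Fin (n a)) ℤ) := by
    refine DP.fn₂ hn hb hn hb ?_
    simp only [Matrix.one_apply, Fin.ext_iff]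
    fun_prop
  have hS : Poly fun a => ∑ i, ∑ j, (Z a i j).natAbs := by
    simp only [eL]
    fun_prop
  set S : α → ℕ := fun a => ∑ i, ∑ j, (Z a i j).natAbs with hSdef
  have hSle : ∀ a i j, (Z a i j).natAbs ≤ S a := fun a i j =>
    (single_le_sum (f := fun j => (Z a i j).natAbs) (fun _ _ => Nat.zero_le _) (mem_univ j)).trans
      (single_le_sum (f := fun i => ∑ j, (Z a i j).natAbs) (fun _ _ => Nat.zero_le _) (mem_univ i))
  have hW : Poly fun a => (2 * n a) * (n a * S a) := by fun_prop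
  have hstep : DP fun p : Σ a, β a => ((p.2.1 + 1, flStep (Z p.1) p.2.1 p.2.2) : β p.1) := by
    obtain ⟨k, hk, ek⟩ := poly_gen (DP.snd (β := β)).fst.poly
    obtain ⟨N, hN, eN⟩ := DP.ent₂ (v := fun p : Σ a, β a => p.2.2) (DP.snd (β := β)).snd'
    have hn' : Poly fun p : Σ a, β a => n p.1 := hn.comp poly_fst
    have hb' : PB fun p : Σ a, β a => n p.1 := hb.comp poly_fst
    refine DP.pair (DP.of_poly ?_) (DP.fn₂ hn' hb' hn' hb' ?_)
    · simp only [ek]
      fun_prop
    · simp only [flStep, Matrix.sub_apply, Matrix.smul_apply, Matrix.mul_apply, Matrix.trace,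
        Matrix.diag, Matrix.one_apply, smul_eq_mul, Fin.ext_iff, ek, eN, eL]
      fun_prop
  have h := DP.iterate_inv (β := β) (init := fun a => (0, 1))
    (step := fun a s => (s.1 + 1, flStep (Z a) s.1 s.2)) (T := fun a => n a - 1)
    (B := fun a => (4 * n a + 1) +
      (n a * (n a * (4 * (sz ((2 * n a) * (n a * S a)) * n a + 1) + 5 + 1) + 1 + 1) + 1) + 1)
    (DP.pair (DP.of_poly (poly_const 0)) h1) hstep (by fun_prop) (by fun_prop)
    (by have := hW.pb_sz; fun_prop) ?_
  · exact h.snd'.congr fun a => by rw [iterate_eq]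
  · intro a i hi
    rw [iterate_eq, sz_pair]
    have h2 := sz_le_self i
    have h3 : sz (fl (Z a) i) ≤
        n a * (n a * (4 * (sz ((2 * n a) * (n a * S a)) * n a + 1) + 5 + 1) + 1 + 1) + 1 := by
      refine sz_fun_le fun r => sz_fun_le fun c => sz_int_le_of_lt ?_
      have h4 := fl_bound (Z a) (hSle a) i (by simp; omega) r c
      rw [Fintype.card_fin] at h4
      refine h4.trans_lt ?_
      calc _ ≤ (2 ^ sz ((2 * n a) * (n a * S a))) ^ i :=
            Nat.pow_le_pow_left (lt_two_pow_sz _).le _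
        _ ≤ (2 ^ sz ((2 * n a) * (n a * S a))) ^ n a :=
            Nat.pow_le_pow_right (by positivity) (by omega)
        _ < _ := by
            rw [← pow_mul]
            exact Nat.pow_lt_pow_right (by norm_num) (by omega)
    omega

end MatInvAux

open MatInvAux in
/-- Matrix inversion (Mathlib's `⁻¹`, so `0` for singular matrices). -/
theorem PRM.inv (hn : Poly n) (hb : PB n) {M : ∀ a, Matrix (Fin (n a)) (Fin (n a)) ℝ}
    (h : PRM M) : PRM fun a => (M a)⁻¹ := by
  obtain ⟨L, hL, eL⟩ := h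
  have hD : Poly fun a => ∏ i : Fin (n a), ∏ j : Fin (n a), (L a i j).den := by fun_prop
  obtain ⟨D, hD, eD⟩ := poly_gen hD
  let Z : ∀ a, Matrix (Fin (n a)) (Fin (n a)) ℤ := fun a i j =>
    (L a i j).num * ((D a / (L a i j).den : ℕ) : ℤ)
  have hZ : DP Z := DP.fn₂ hn hb hn hb (by fun_prop)
  have hD0 : ∀ a, (D a : ℝ) ≠ 0 := fun a => by
    rw [← eD]
    exact_mod_cast prod_ne_zero_iff.2 fun i _ => prod_ne_zero_iff.2 fun j _ => Rat.den_ne_zero _
  have eZ : ∀ a, (D a : ℝ) • M a = (Z a).map (Int.castRingHom ℝ) := fun a => by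
    ext i j
    have hd : (L a i j).den ∣ D a := by
      rw [← eD]
      exact (dvd_prod_of_mem (fun j : Fin (n a) => (L a i j).den) (mem_univ j)).trans
        (dvd_prod_of_mem (fun i : Fin (n a) => ∏ j : Fin (n a), (L a i j).den) (mem_univ i))
    have hd0 : ((L a i j).den : ℝ) ≠ 0 := by exact_mod_cast Rat.den_ne_zero _
    simp only [Matrix.smul_apply, smul_eq_mul, Matrix.map_apply, Z, eL, eq_intCast, Int.cast_mul,
      Int.cast_natCast]
    rw [Nat.cast_div hd hd0, Rat.cast_def]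
    field_simp
  have cast : ∀ {Y : ∀ a, Matrix (Fin (n a)) (Fin (n a)) ℤ}, DP Y →
      PRM fun a => (Y a).map (Int.castRingHom ℝ) := by
    intro Y hY
    obtain ⟨T, hT, eT⟩ := DP.ent₂ (v := Y) hY
    exact ⟨fun a i j => T a i j, by fun_prop, fun a i j => by simp [eT]⟩
  have h1 := cast hZ
  have h2 := cast (dp_fl hn hb hZ)
  have h3 := (h1.mul hn hb hn hb hn hb h2).trace hn hb
  refine ((h2.smul ((PR.natCast hn).div h3)).smul (PR.natCast hD)).congr fun a => ?_
  rw [inv_of_smul (hD0 a) (M a), eZ, inv_eq, fl_map, Fintype.card_fin]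

end Crest.Agent.R37
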