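import Crest.Agent.R37.PC
import Crest.Agent.R37.Ball

set_option autoImplicit false
open Finset Matrix Crest.CombinatoricsR.Multigraph
open scoped Classical

noncomputable section
namespace Crest.Agent.R37
namespace MG
variable {V E : Type} [Fintype V] [DecidableEq V] [Fintype E] [DecidableEq E] (G : MG V E)

/-- The edge set whose components form the partition at scale `j`. -/
def Aj (κ : ℕ) (F : Finset E) (L : E → ℕ) (j : ℕ) : Finset E :=
  G.Astar κ (ind (F.filter fun f => 4 * L f ≤ 2 ^ j))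

variable {G} {κ σ W c : ℕ} {F : Finset E} {L : E → ℕ}

theorem Nets_geom (M T : ℕ) : ∑ j ∈ range T, (if 2 ^ j < M then 2 ^ j else 0) + 1 ≤ 2 ^ T ∧
    ∑ j ∈ range T, (if 2 ^ j < M then 2 ^ j else 0) ≤ 2 * M := by
  induction T with
  | zero => simp
  | succ T ih =>
    rw [sum_range_succ, pow_succ]
    split_ifs with h <;> omega

theorem Nets_blocks (f : ℕ → ℕ) (W T : ℕ) :
    ∑ a ∈ range W, ∑ i ∈ range T, f (i * W + a) = ∑ j ∈ range (T * W), f j := by
  induction T with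
  | zero => simp
  | succ T ih => simp only [sum_range_succ, sum_add_distrib, ih, Nat.succ_mul, sum_range_add]

theorem Nets_net {α : Type} [DecidableEq α] (T : Finset α) (R : α → α → Prop) (hr : ∀ u, R u u)
    (hs : ∀ u v, R u v → R v u) :
    ∃ N ⊆ T, (∀ t ∈ N, ∀ t' ∈ N, t ≠ t' → ¬ R t t') ∧ ∀ u ∈ T, ∃ t ∈ N, R u t := by
  obtain ⟨N, hN, hmax⟩ := Set.exists_max_image
    {N : Finset α | N ⊆ T ∧ ∀ t ∈ N, ∀ t' ∈ N, t ≠ t' → ¬ R t t'} card
    (T.powerset.finite_toSet.subset fun N hN => mem_coe.2 (mem_powerset.2 hN.1)) ⟨∅, by simp⟩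
  refine ⟨N, hN.1, hN.2, fun u hu => ?_⟩
  by_contra h
  push Not at h
  have hu' : u ∉ N := fun h' => h u h' (hr u)
  have := hmax (insert u N) (by
    refine ⟨insert_subset hu hN.1, fun t ht t' ht' hne => ?_⟩
    rcases mem_insert.1 ht with rfl | h1 <;> rcases mem_insert.1 ht' with rfl | h2
    · exact absurd rfl hne
    · exact h _ h2
    · exact fun h' => h _ h1 (hs _ _ h')
    · exact hN.2 _ h1 _ h2 hne)
  rw [card_insert_of_notMem hu'] at this
  omega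

theorem Nets_Aj_mono {i j : ℕ} (h : i ≤ j) : G.Aj κ F L i ⊆ G.Aj κ F L j :=
  G.Astar_mono κ (ind_mono fun f hf => by
    rw [mem_filter] at hf ⊢
    exact ⟨hf.1, hf.2.trans (Nat.pow_le_pow_right (by norm_num) h)⟩)

/-- The numbers of parts are summable against the scales. -/
theorem sum_ncomp_le (hPC : G.PC (κ + σ) (ind F)) (T : ℕ) :
    σ * ∑ j ∈ range T, 2 ^ j * (G.ncomp (G.Aj κ F L j) - 1) ≤ 8 * ∑ e ∈ F, L e := by
  calc σ * ∑ j ∈ range T, 2 ^ j * (G.ncomp (G.Aj κ F L j) - 1)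
      ≤ ∑ j ∈ range T, ∑ e ∈ F, (if 2 ^ j < 4 * L e then 2 ^ j else 0) := by
        rw [mul_sum]
        refine sum_le_sum fun j _ => ?_
        have h1 := G.slack hPC (filter_subset (fun f => 4 * L f ≤ 2 ^ j) F)
        rw [← filter_not, card_filter] at h1
        rw [mul_left_comm]
        refine (Nat.mul_le_mul_left _ h1).trans (le_of_eq ?_)
        rw [mul_sum]
        exact sum_congr rfl fun e _ => by simp only [not_le, mul_ite, mul_one, mul_zero]
    _ ≤ 8 * ∑ e ∈ F, L e := by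
        rw [sum_comm, mul_sum]
        refine sum_le_sum fun e _ => ?_
        have := (Nets_geom (4 * L e) T).2
        omega

/-- Edges that still cross `W` scales later are short in total. -/
theorem free_le (hPC : G.PC (κ + σ) (ind F)) (hL : ∀ e, 1 ≤ L e) (hW : 3 ≤ W) (hκ : κ ≤ 2 ^ W) :
    σ * ∑ e ∈ F.filter (fun e =>
        ¬ G.Conn (G.Aj κ F L (Nat.log 2 (L e) + W)) (G.src e) (G.tgt e)), L e ≤
      16 * ∑ e ∈ F, L e := by
  set Fr := F.filter (fun e => ¬ G.Conn (G.Aj κ F L (Nat.log 2 (L e) + W)) (G.src e) (G.tgt e))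
    with hFr
  rcases Fr.eq_empty_or_nonempty with h | ⟨e0, -⟩
  · simp [h]
  have : Nonempty V := ⟨G.src e0⟩
  obtain ⟨T, hT⟩ : ∃ T, ∀ e ∈ Fr, Nat.log 2 (L e) ∈ range T :=
    ⟨Fr.sup (fun e => Nat.log 2 (L e)) + 1, fun e he =>
      mem_range.2 (Nat.lt_succ_of_le (le_sup (f := fun e => Nat.log 2 (L e)) he))⟩
  have h1 : ∑ e ∈ Fr, L e ≤ 2 * ∑ j ∈ range T, 2 ^ (W + j) * (G.ncomp (G.Aj κ F L (W + j)) - 1) := by
    rw [← sum_fiberwise_of_maps_to hT, mul_sum]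
    refine sum_le_sum fun j _ => ?_
    have h2 := G.cross_le κ (ind (F.filter fun f => 4 * L f ≤ 2 ^ (W + j)))
    rw [sum_ind] at h2
    have h3 : #(Fr.filter fun e => Nat.log 2 (L e) = j) ≤
        #((F.filter fun f => 4 * L f ≤ 2 ^ (W + j)) ∩ (G.Aj κ F L (W + j))ᶜ) := by
      refine card_le_card fun e he => ?_
      simp only [hFr, mem_filter] at he
      obtain ⟨⟨h4, h5⟩, rfl⟩ := he
      rw [mem_inter, mem_filter, mem_compl]
      refine ⟨⟨h4, ?_⟩, fun h => h5 (by rw [add_comm]; exact G.conn_of_mem h)⟩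
      have h6 := Nat.lt_pow_succ_log_self (b := 2) (by norm_num) (L e)
      have h7 : 2 ^ 3 ≤ 2 ^ W := Nat.pow_le_pow_right (by norm_num) hW
      have h8 := Nat.mul_le_mul_right (2 ^ Nat.log 2 (L e)) h7
      rw [pow_succ] at h6
      rw [pow_add]
      omega
    have h4 : #(Fr.filter fun e => Nat.log 2 (L e) = j) ≤ 2 ^ W * (G.ncomp (G.Aj κ F L (W + j)) - 1) := by
      refine le_trans ?_ (Nat.mul_le_mul_right _ hκ)
      rw [Nat.mul_sub, mul_one]
      exact h3.trans (Nat.le_sub_of_add_le h2)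
    have h5 := sum_le_card_nsmul (Fr.filter fun e => Nat.log 2 (L e) = j) L (2 * 2 ^ j) fun e he => by
      have h6 := Nat.lt_pow_succ_log_self (b := 2) (by norm_num) (L e)
      rw [(mem_filter.1 he).2, pow_succ] at h6
      omega
    refine h5.trans ?_
    rw [smul_eq_mul]
    refine (Nat.mul_le_mul_right _ h4).trans (le_of_eq ?_)
    ring
  have h2 := sum_ncomp_le (L := L) hPC (W + T)
  rw [sum_range_add, mul_add] at h2
  have h3 := Nat.mul_le_mul_left σ h1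
  rw [mul_left_comm] at h3
  omega

/-- Nets for the edges whose ends are merged within `W` scales. -/
theorem exists_nets (hPC : G.PC (κ + σ) (ind F)) (hL : ∀ e, 1 ≤ L e) (hW : 1 ≤ W) (hc : 2 ≤ c)
    (hcW : 8 * c ≤ 2 ^ W) {d : V → V → ℕ} (hd : PMet d) (hdL : ∀ e, d (G.src e) (G.tgt e) ≤ L e)
    {Mid : Finset E}
    (h₁ : ∀ e ∈ Mid, ¬ G.Conn (G.Aj κ F L (Nat.log 2 (L e))) (G.src e) (G.tgt e))
    (h₂ : ∀ e ∈ Mid, G.Conn (G.Aj κ F L (Nat.log 2 (L e) + W)) (G.src e) (G.tgt e)) :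
    ∃ (N : ℕ → Finset V) (π : ℕ → V → V),
      (∀ e ∈ Mid, ∀ u, u = G.src e ∨ u = G.tgt e →
        π (Nat.log 2 (L e)) u ∈ N (Nat.log 2 (L e)) ∧
          c * d u (π (Nat.log 2 (L e)) u) ≤ 4 * 2 ^ Nat.log 2 (L e)) ∧
      ∀ T, κ * σ * ∑ j ∈ range T, 2 ^ j * #(N j) ≤
        1000 * c * (c * W * σ + 8 * κ) * ∑ e ∈ F, L e := by
  choose N hN hsep hcov using fun j => Nets_net
    (univ.filter fun u => ∃ e ∈ Mid, Nat.log 2 (L e) = j ∧ (u = G.src e ∨ u = G.tgt e))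
    (fun u v => G.Conn (G.Aj κ F L j) u v ∧ c * d u v ≤ 4 * 2 ^ j)
    (fun u => ⟨G.conn_refl _ u, by simp [hd.refl]⟩)
    (fun u v h => ⟨h.1.symm, by rw [hd.symm]; exact h.2⟩)
  have hπ : ∀ j u, ∃ t, (∃ e ∈ Mid, Nat.log 2 (L e) = j ∧ (u = G.src e ∨ u = G.tgt e)) →
      t ∈ N j ∧ G.Conn (G.Aj κ F L j) u t ∧ c * d u t ≤ 4 * 2 ^ j := by
    intro j u
    by_cases h : ∃ e ∈ Mid, Nat.log 2 (L e) = j ∧ (u = G.src e ∨ u = G.tgt e)
    · obtain ⟨t, ht⟩ := hcov j u (mem_filter.2 ⟨mem_univ u, h⟩)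
      exact ⟨t, fun _ => ht⟩
    · exact ⟨u, fun h' => absurd h' h⟩
  choose π hπ using hπ
  refine ⟨N, π, fun e he u hu => ⟨(hπ _ u ⟨e, he, rfl, hu⟩).1, (hπ _ u ⟨e, he, rfl, hu⟩).2.2⟩,
    fun T => ?_⟩
  have hd' : PMet fun u v => c * d u v :=
    ⟨fun u => by rw [hd.refl, mul_zero], fun u v => by rw [hd.symm],
      fun u v w => by rw [← mul_add]; exact Nat.mul_le_mul_left _ (hd.tri u v w)⟩
  have hs : ∀ i a, (i + 1) * W + a = i * W + a + W := fun i a => by ring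
  have hmate : ∀ j t v, (∃ e ∈ Mid, Nat.log 2 (L e) = j ∧ (v = G.src e ∨ v = G.tgt e)) →
      ¬ G.Conn (G.Aj κ F L j) t v → G.Conn (G.Aj κ F L (j + W)) t v → d t v ≤ 2 * 2 ^ j →
      ∃ t' ∈ N j, G.comp (G.Aj κ F L (j + W)) t' = G.comp (G.Aj κ F L (j + W)) t ∧
        G.comp (G.Aj κ F L j) t' ≠ G.comp (G.Aj κ F L j) t ∧ c * d t t' ≤ 4 * c * 2 ^ j := by
    intro j t v hv h1 h2 h3
    obtain ⟨p1, p2, p3⟩ := hπ j v hv
    refine ⟨π j v, p1, G.comp_eq_iff.2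
      (h2.trans (p2.mono (Nets_Aj_mono (Nat.le_add_right _ _)))).symm,
      fun h => h1 (p2.trans (G.comp_eq_iff.1 h)).symm, ?_⟩
    have h4 := Nat.mul_le_mul_left c ((hd.tri t v (π j v)).trans (Nat.add_le_add_right h3 _))
    have h5 := Nat.mul_le_mul_right (2 * 2 ^ j) hc
    nlinarith
  have key : ∀ a, κ * ∑ i ∈ range T, 2 ^ (i * W + a) * #(N (i * W + a)) ≤
      1000 * c * (∑ e ∈ F, c * d (G.src e) (G.tgt e) +
        κ * ∑ i ∈ range T, 2 ^ (i * W + a) * (G.ncomp (G.Aj κ F L (i * W + a)) - 1)) := by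
    intro a
    refine ball G F hd' (fun i => G.comp (G.Aj κ F L (i * W + a))) κ c T (fun i => 2 ^ (i * W + a))
      (fun i => G.ncomp (G.Aj κ F L (i * W + a)) - 1) (fun i => N (i * W + a)) (by omega)
      (fun i => Nat.one_le_two_pow) (fun i => ?_) (fun i u v h => ?_) (fun i u v S h hu hv => ?_)
      (fun i t ht t' ht' hne h => ?_) (fun i t ht => ?_) (fun i => ?_)
    · rw [hs, pow_add _ _ W, mul_comm]
      exact Nat.mul_le_mul_left _ hcW
    · exact G.comp_eq_iff.2 ((G.comp_eq_iff.1 h).mono (Nets_Aj_mono (by rw [hs]; omega)))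
    · refine (G.conn_inside (G.comp_eq_iff.1 h) hu hv).trans ?_
      rw [sum_ind]
      refine card_le_card fun e he => ?_
      simp only [mem_inter, mem_filter] at he ⊢
      exact ⟨⟨he.1.1, he.2.1⟩, G.comp_eq_iff.2 he.2.2.1.symm, G.comp_eq_iff.2 he.2.2.2.symm⟩
    · exact not_le.1 fun h' => hsep _ t ht t' ht' hne ⟨G.comp_eq_iff.1 h, h'⟩
    · obtain ⟨e, he, hj, hu⟩ := (mem_filter.1 (hN _ ht)).2
      have h3 := Nat.lt_pow_succ_log_self (b := 2) (by norm_num) (L e)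
      have h4 := hdL e
      have h5 := h₁ e he
      have h6 := h₂ e he
      rw [hj] at h3 h5 h6
      rw [pow_succ] at h3
      simp only [hs]
      rcases hu with rfl | rfl
      · exact hmate _ _ _ ⟨e, he, hj, Or.inr rfl⟩ h5 h6 (by omega)
      · exact hmate _ _ _ ⟨e, he, hj, Or.inl rfl⟩ (fun h => h5 h.symm) h6.symm
          (by rw [hd.symm]; omega)
    · exact le_tsub_add
  have h1 := sum_le_sum fun a (_ : a ∈ range W) => key a
  rw [← mul_sum, ← mul_sum, sum_add_distrib, ← mul_sum, ← mul_sum (range W) _ κ,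
    Nets_blocks fun j => 2 ^ j * #(N j), Nets_blocks fun j => 2 ^ j * (G.ncomp (G.Aj κ F L j) - 1),
    sum_const, card_range, smul_eq_mul] at h1
  have h2 := sum_ncomp_le (L := L) hPC (T * W)
  have h3 : ∑ j ∈ range T, 2 ^ j * #(N j) ≤ ∑ j ∈ range (T * W), 2 ^ j * #(N j) :=
    sum_le_sum_of_subset (range_subset_range.2 (Nat.le_mul_of_pos_right T hW))
  have h4 : ∑ e ∈ F, d (G.src e) (G.tgt e) ≤ ∑ e ∈ F, L e := sum_le_sum fun e _ => hdL e
  calc κ * σ * ∑ j ∈ range T, 2 ^ j * #(N j)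
      ≤ σ * (κ * ∑ j ∈ range (T * W), 2 ^ j * #(N j)) := by
        rw [mul_comm κ, mul_assoc]; gcongr
    _ ≤ σ * (1000 * c * (W * (c * ∑ e ∈ F, d (G.src e) (G.tgt e)) +
          κ * ∑ j ∈ range (T * W), 2 ^ j * (G.ncomp (G.Aj κ F L j) - 1))) :=
        Nat.mul_le_mul_left _ h1
    _ = 1000 * c * (c * W * σ * ∑ e ∈ F, d (G.src e) (G.tgt e) +
          κ * (σ * ∑ j ∈ range (T * W), 2 ^ j * (G.ncomp (G.Aj κ F L j) - 1))) := by ring
    _ ≤ 1000 * c * (c * W * σ * ∑ e ∈ F, L e + κ * (8 * ∑ e ∈ F, L e)) := by gcongr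
    _ = _ := by ring

end MG
end Crest.Agent.R37
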