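import Crest.Agent.R37.Iter

set_option autoImplicit false
open Finset Matrix Crest.CombinatoricsR.Multigraph
open Crest.Agent.Lib.PolyTime
open scoped Classical

noncomputable section
namespace Crest.Agent.R37

theorem thin_fin : ∃ C : ℝ, 0 < C ∧ ∀ (n m k : ℕ) (G : MG (Fin n) (Fin m)), 1 ≤ k → 2 ≤ n →
    (∀ S : Finset (Fin n), S.Nonempty → S ≠ univ → k ≤ #(G.cut S)) →
    ∃ T : Finset (Fin m), #T + 1 = n ∧ (∀ u v, G.Conn T u v) ∧
      ∀ S : Finset (Fin n), S.Nonempty → S ≠ univ →
        (#(T ∩ G.cut S) : ℝ) ≤ C / k * #(G.cut S) := by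
  obtain ⟨C, hC, H⟩ := exists_thin
  refine ⟨3 * C, by positivity, fun n m k G hk hn hc => ?_⟩
  have hpc : G.PC (max 1 (k / 2)) (ind univ) := by
    rcases le_total 1 (k / 2) with h | h
    · rw [max_eq_right h]
      refine G.pc_of_cut fun S hS hS' => ?_
      rw [MG.sum_ind, univ_inter]
      have := hc S hS hS'
      omega
    · rw [max_eq_left h, MG.pc_one_iff]
      intro u v
      by_contra huv
      have h1 : u ∈ G.comp univ u := mem_filter.2 ⟨mem_univ _, G.conn_refl _ _⟩
      have h2 : G.comp univ u ≠ univ := fun e => huv (mem_filter.1 (e.symm ▸ mem_univ v :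
        v ∈ G.comp univ u)).2
      obtain ⟨e, he⟩ := card_pos.1 (hk.trans (hc _ ⟨u, h1⟩ h2))
      have h3 := G.conn_of_mem (mem_univ e)
      rcases G.mem_cut.1 he with ⟨ha, hb⟩ | ⟨ha, hb⟩
      · exact hb (mem_filter.2 ⟨mem_univ _, (mem_filter.1 ha).2.trans h3⟩)
      · exact ha (mem_filter.2 ⟨mem_univ _, (mem_filter.1 hb).2.trans h3.symm⟩)
  obtain ⟨T, -, hT⟩ := H Unit (fun _ => n) (fun _ => m) (fun _ => G) (fun _ => max 1 (k / 2))
    ⟨poly_const _, PB.const _, poly_const _, PB.const _, poly_const _, poly_const _⟩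
    (poly_const _) (PB.const _) (fun _ => le_max_left _ _) (fun _ => hn) fun _ => hpc
  obtain ⟨h1, h2, h3⟩ := hT ()
  refine ⟨T (), h1, h2, fun S hS hS' => (h3 S hS hS').trans ?_⟩
  have hk' : (0 : ℝ) < k := by exact_mod_cast hk
  have h4 : (k : ℝ) ≤ 3 * (max 1 (k / 2) : ℕ) := by
    have : k ≤ 3 * max 1 (k / 2) := by omega
    exact_mod_cast this
  have h5 : (0 : ℝ) < (max 1 (k / 2) : ℕ) := by linarith
  gcongr ?_ * _
  rw [div_le_div_iff₀ h5 hk']
  nlinarith

theorem main50 :
    ∃ C : ℝ, 0 < C ∧ ∀ k : ℕ, 1 ≤ k →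
      ∀ (V E : Type) [Fintype V] [DecidableEq V] [Fintype E] (src tgt : E → V),
        (∀ e, src e ≠ tgt e) → 2 ≤ Fintype.card V →
        (∀ S : Finset V, S.Nonempty → S ≠ Finset.univ → k ≤ (cutEdges src tgt Finset.univ S).card) →
        ∃ T : Finset E, T.card + 1 = Fintype.card V ∧ (adjGraph src tgt T).Connected ∧
          ∀ S : Finset V, S.Nonempty → S ≠ Finset.univ →
            ((cutEdges src tgt T S).card : ℝ) ≤ C / k * (cutEdges src tgt Finset.univ S).card := by
  obtain ⟨C, hC, H⟩ := thin_fin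
  refine ⟨C, hC, fun k hk V E _ _ _ src tgt hne hn hc => ?_⟩
  let a := Fintype.equivFin V
  let b := Fintype.equivFin E
  let G : MG (Fin (Fintype.card V)) (Fin (Fintype.card E)) :=
    ⟨fun e => a (src (b.symm e)), fun e => a (tgt (b.symm e)), fun e h => hne _ (a.injective h)⟩
  have key : ∀ (A : Finset (Fin (Fintype.card E))) (S : Finset V),
      cutEdges src tgt (A.map b.symm.toEmbedding) S =
        (A ∩ G.cut (S.map a.toEmbedding)).map b.symm.toEmbedding := by
    intro A S
    ext e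
    simp [cutEdges, MG.cut, G]
  have keyu : ∀ S : Finset V, #(cutEdges src tgt univ S) = #(G.cut (S.map a.toEmbedding)) := by
    intro S
    have := key univ S
    rw [map_univ_equiv, univ_inter] at this
    rw [this, card_map]
  have hS : ∀ S : Finset V, S.Nonempty → S ≠ univ →
      (S.map a.toEmbedding).Nonempty ∧ S.map a.toEmbedding ≠ univ := fun S h h' =>
    ⟨h.map, fun e => h' (map_injective a.toEmbedding (e.trans (map_univ_equiv a).symm))⟩
  obtain ⟨T, h1, h2, h3⟩ := H _ _ k G hk hn fun S h h' => by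
    have e : S = (S.map a.symm.toEmbedding).map a.toEmbedding := by
      ext v; simp
    rw [e, ← keyu]
    refine hc _ h.map fun e' => h' ?_
    rw [e, e', map_univ_equiv]
  refine ⟨T.map b.symm.toEmbedding, by rwa [card_map], ?_, fun S h h' => ?_⟩
  · have : Nonempty V := Fintype.card_pos_iff.1 (by omega)
    let φ : adjGraph G.src G.tgt T →g adjGraph src tgt (T.map b.symm.toEmbedding) :=
      ⟨a.symm, fun {u v} ⟨h, e, he, h'⟩ => ⟨fun e => h (a.symm.injective e), b.symm e,
        mem_map_of_mem _ he, by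
          rcases h' with ⟨rfl, rfl⟩ | ⟨rfl, rfl⟩ <;> simp [G]⟩⟩
    refine ⟨fun u v => ?_⟩
    simpa [φ] using (h2 (a u) (a v)).map φ
  · rw [key, card_map, keyu]
    exact h3 _ (hS S h h').1 (hS S h h').2

end Crest.Agent.R37
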